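import Crest.Agent.X261.Grp.Defs
import Crest.Agent.X277.Rou.Kron

-- ▼ part X261/Grp/GP
section

/-!
# Row 261, package GRP (helper85): covers by subspaces, covectors in general position
-/

set_option autoImplicit false

namespace Crest.Agent.X261.Grp

open Module Matrix

variable {G : Type*} [Group G]

/-- `ρ` is multiplicative on the subgroup `K` -/
structure RepOn {A : Type*} [Monoid A] (K : Subgroup G) (ρ : G → A) : Prop where
  one : ρ 1 = 1
  mul : ∀ a ∈ K, ∀ b ∈ K, ρ (a * b) = ρ a * ρ b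

namespace RepOn

variable {A : Type*} [Monoid A] {K K' : Subgroup G} {ρ : G → A}

theorem mono (h : RepOn K ρ) (hK : K' ≤ K) : RepOn K' ρ :=
  ⟨h.one, fun a ha b hb => h.mul a (hK ha) b (hK hb)⟩

theorem mul_inv (h : RepOn K ρ) {a : G} (ha : a ∈ K) : ρ a * ρ a⁻¹ = 1 := by
  rw [← h.mul a ha _ (K.inv_mem ha), mul_inv_cancel, h.one]

theorem inv_mul (h : RepOn K ρ) {a : G} (ha : a ∈ K) : ρ a⁻¹ * ρ a = 1 := by
  rw [← h.mul _ (K.inv_mem ha) a ha, inv_mul_cancel, h.one]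

theorem of_hom (f : G →* A) (K : Subgroup G) : RepOn K f :=
  ⟨f.map_one, fun a _ b _ => f.map_mul a b⟩

theorem comp {B : Type*} [Monoid B] (h : RepOn K ρ) (f : A →* B) : RepOn K fun g => f (ρ g) :=
  ⟨by rw [h.one, map_one], fun a ha b hb => by rw [h.mul a ha b hb, map_mul]⟩

/-- the kernel inside `K` -/
def ker (h : RepOn K ρ) : Subgroup G where
  carrier := {x | x ∈ K ∧ ρ x = 1}
  one_mem' := ⟨K.one_mem, h.one⟩
  mul_mem' := fun {x y} hx hy =>
    ⟨K.mul_mem hx.1 hy.1, by rw [h.mul x hx.1 y hy.1, hx.2, hy.2, mul_one]⟩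
  inv_mem' := fun {x} hx => ⟨K.inv_mem hx.1, by
    have := h.mul_inv hx.1
    rwa [hx.2, one_mul] at this⟩


theorem comm_mem_ker (h : RepOn K ρ) {a b : G} (ha : a ∈ K) (hb : b ∈ K)
    (hab : ρ a * ρ b = ρ b * ρ a) : (open commutatorElement in ⁅a, b⁆) ∈ h.ker := by
  rw [commutatorElement_def]
  have h1 := K.mul_mem ha hb
  have h2 := K.mul_mem h1 (K.inv_mem ha)
  refine ⟨K.mul_mem h2 (K.inv_mem hb), ?_⟩
  rw [h.mul _ h2 _ (K.inv_mem hb), h.mul _ h1 _ (K.inv_mem ha), h.mul _ ha _ hb, hab,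
    mul_assoc (ρ b), h.mul_inv ha, mul_one, h.mul_inv hb]

end RepOn

/-- if a group of units is covered by finitely many subspaces, one of them contains a coset of a
finite index subgroup -/
theorem cover_coset {κ E : Type*} [Field κ] [Ring E] [Algebra κ E] [FiniteDimensional κ E]
    {K : Subgroup G} {ρ : G → E} (hρ : RepOn K ρ) (LL : Finset (Submodule κ E))
    (hLL : ∀ x ∈ K, ∃ L ∈ LL, ρ x ∈ L) :
    ∃ K', FI K' K ∧ ∃ g ∈ K, ∃ L ∈ LL, ∀ x ∈ K', ρ (g * x) ∈ L := by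
  classical
  let Cv : Finset (Submodule κ E) → Prop := fun C =>
    (∀ L ∈ C, ∃ L0 ∈ LL, L ≤ L0) ∧ ∀ x ∈ K, ∃ L ∈ C, ρ x ∈ L
  have h0 : ∃ D, ∃ C, Cv C ∧ ∀ L ∈ C, finrank κ L ≤ D :=
    ⟨finrank κ E, LL, ⟨fun L hL => ⟨L, hL, le_rfl⟩, hLL⟩, fun L _ => L.finrank_le⟩
  set D := Nat.find h0 with hD
  have h1 : ∃ k, ∃ C, Cv C ∧ (∀ L ∈ C, finrank κ L ≤ D) ∧
      (C.filter fun L : Submodule κ E => finrank κ L = D).card = k := by
    obtain ⟨C, h2, h3⟩ := Nat.find_spec h0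
    exact ⟨_, C, h2, h3, rfl⟩
  obtain ⟨C, hC, hCD, hk⟩ := Nat.find_spec h1
  have hmin : ∀ C', Cv C' → (∀ L ∈ C', finrank κ L ≤ D) →
      (C.filter fun L : Submodule κ E => finrank κ L = D).card ≤ (C'.filter fun L : Submodule κ E => finrank κ L = D).card :=
    fun C' h2 h3 => hk ▸ Nat.find_min' h1 ⟨C', h2, h3, rfl⟩
  obtain ⟨L1, hL1, hL1D⟩ : ∃ L ∈ C, finrank κ L = D := by
    by_contra h2
    push Not at h2
    obtain ⟨L, hL, -⟩ := hC.2 1 K.one_mem
    have h3 : 0 < D := (Nat.zero_le _).trans_lt (lt_of_le_of_ne (hCD L hL) (h2 L hL))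
    refine Nat.find_min h0 (m := D - 1) (by omega) ⟨C, hC, fun L hL => ?_⟩
    have := lt_of_le_of_ne (hCD L hL) (h2 L hL)
    omega
  obtain ⟨g, hg, hgL⟩ : ∃ g ∈ K, ρ g ∈ L1 := by
    by_contra h2
    push Not at h2
    have h3 := hmin (C.erase L1) ⟨fun L hL => hC.1 L (Finset.mem_of_mem_erase hL), fun x hx => by
      obtain ⟨L, hL, h4⟩ := hC.2 x hx
      exact ⟨L, Finset.mem_erase.2 ⟨fun h5 => h2 x hx (h5 ▸ h4), hL⟩, h4⟩⟩
      fun L hL => hCD L (Finset.mem_of_mem_erase hL)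
    rw [Finset.filter_erase] at h3
    exact absurd h3 (not_le.2 (Finset.card_erase_lt_of_mem (Finset.mem_filter.2 ⟨hL1, hL1D⟩)))
  have hmove : ∀ x ∈ K, L1.comap (LinearMap.mulRight κ (ρ x)) ∈ C := by
    intro x hx
    have hx' := K.inv_mem hx
    let C' := (C ×ˢ C).image fun p => p.1 ⊓ p.2.comap (LinearMap.mulRight κ (ρ x⁻¹))
    have h2 : ∀ L ∈ C', ∃ L1 ∈ C, ∃ L2 ∈ C, L1 ⊓ L2.comap (LinearMap.mulRight κ (ρ x⁻¹)) = L := by
      intro L hL
      obtain ⟨p, hp, rfl⟩ := Finset.mem_image.1 hL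
      exact ⟨p.1, (Finset.mem_product.1 hp).1, p.2, (Finset.mem_product.1 hp).2, rfl⟩
    have h3 := hmin C' ⟨fun L hL => by
        obtain ⟨L1, h3, L2, -, rfl⟩ := h2 L hL
        obtain ⟨L0, h4, h5⟩ := hC.1 L1 h3
        exact ⟨L0, h4, inf_le_left.trans h5⟩, fun y hy => by
        obtain ⟨L1, h3, h4⟩ := hC.2 y hy
        obtain ⟨L2, h5, h6⟩ := hC.2 _ (K.mul_mem hy hx')
        refine ⟨_, Finset.mem_image.2 ⟨(L1, L2), Finset.mem_product.2 ⟨h3, h5⟩, rfl⟩, h4, ?_⟩
        rw [hρ.mul y hy _ hx'] at h6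
        exact h6⟩ fun L hL => by
        obtain ⟨L1, h3, L2, -, rfl⟩ := h2 L hL
        exact (Submodule.finrank_mono inf_le_left).trans (hCD L1 h3)
    have h4 : (C'.filter fun L : Submodule κ E => finrank κ L = D) ⊆ C.filter fun L : Submodule κ E => finrank κ L = D := by
      intro L hL
      obtain ⟨h5, h6⟩ := Finset.mem_filter.1 hL
      obtain ⟨L1, h7, L2, -, rfl⟩ := h2 L h5
      have h8 := Submodule.eq_of_le_of_finrank_le inf_le_left ((hCD L1 h7).trans h6.ge)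
      rw [h8] at h6 ⊢
      exact Finset.mem_filter.2 ⟨h7, h6⟩
    have h5 : L1 ∈ C'.filter fun L : Submodule κ E => finrank κ L = D := by
      rw [Finset.eq_of_subset_of_card_le h4 h3]
      exact Finset.mem_filter.2 ⟨hL1, hL1D⟩
    obtain ⟨L2, h6, L3, h7, h8⟩ := h2 L1 (Finset.mem_filter.1 h5).1
    have h9 : L1 ≤ L3.comap (LinearMap.mulRight κ (ρ x⁻¹)) := h8 ▸ inf_le_right
    have h10 : L1.comap (LinearMap.mulRight κ (ρ x)) ≤ L3 := fun T hT => by
      have := h9 hT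
      rwa [Submodule.mem_comap, LinearMap.mulRight_apply, LinearMap.mulRight_apply, mul_assoc,
        hρ.mul_inv hx, mul_one] at this
    have h11 : D ≤ finrank κ (L1.comap (LinearMap.mulRight κ (ρ x))) := by
      rw [← hL1D]
      refine LinearMap.finrank_le_finrank_of_injective
        (f := (LinearMap.mulRight κ (ρ x⁻¹)).restrict
          (p := L1) (q := L1.comap (LinearMap.mulRight κ (ρ x))) fun T hT => ?_) ?_
      · rwa [Submodule.mem_comap, LinearMap.mulRight_apply, LinearMap.mulRight_apply, mul_assoc,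
          hρ.inv_mul hx, mul_one]
      · intro T T' h
        have h12 : T.1 * ρ x⁻¹ * ρ x = T'.1 * ρ x⁻¹ * ρ x :=
          congrArg (fun y => y * ρ x) (congrArg Subtype.val h)
        rw [mul_assoc, mul_assoc, hρ.inv_mul hx, mul_one, mul_one] at h12
        exact Subtype.ext h12
    rw [Submodule.eq_of_le_of_finrank_le h10 ((hCD L3 h7).trans h11)]
    exact h7
  let K' : Subgroup G :=
    { carrier := {h | h ∈ K ∧ ∀ T, T ∈ L1 ↔ T * ρ h ∈ L1}
      one_mem' := ⟨K.one_mem, fun T => by rw [hρ.one, mul_one]⟩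
      mul_mem' := fun {a b} ha hb => ⟨K.mul_mem ha.1 hb.1, fun T => by
        rw [hρ.mul a ha.1 b hb.1, ← mul_assoc, ← hb.2, ← ha.2]⟩
      inv_mem' := fun {a} ha => ⟨K.inv_mem ha.1, fun T => by
        rw [ha.2 (T * ρ a⁻¹), mul_assoc, hρ.inv_mul ha.1, mul_one]⟩ }
  obtain ⟨L0, hL0, hle⟩ := hC.1 L1 hL1
  refine ⟨K', FI.of_finite_map (fun _ h => h.1)
    (fun x => L1.comap (LinearMap.mulRight κ (ρ x))) (C.finite_toSet.subset ?_) ?_, g, hg, L0, hL0,
    fun x hx => hle ?_⟩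
  · rintro _ ⟨x, hx, rfl⟩
    exact hmove x hx
  · intro x hx y hy h
    refine ⟨K.mul_mem (K.inv_mem hx) hy, fun T => ?_⟩
    have h2 := SetLike.ext_iff.1 h (T * ρ x⁻¹)
    simp only [Submodule.mem_comap, LinearMap.mulRight_apply] at h2
    rwa [mul_assoc, hρ.inv_mul hx, mul_one, mul_assoc, ← hρ.mul _ (K.inv_mem hx) _ hy] at h2
  · rw [hρ.mul g hg x hx.1]
    exact (hx.2 _).1 hgL

section GP

variable {κ ι : Type*} [Field κ] [Fintype ι] [DecidableEq ι] {K : Subgroup G}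
  {ρ : G → Matrix ι ι κ}

/-- strong irreducibility on covectors -/
def SIr (K : Subgroup G) (ρ : G → Matrix ι ι κ) : Prop :=
  ∀ K', FI K' K → ∀ W : Submodule κ (ι → κ), (∀ x ∈ K', ∀ w ∈ W, w ᵥ* ρ x ∈ W) → W = ⊥ ∨ W = ⊤

theorem avoid (hρ : RepOn K ρ) (hS : SIr K ρ) {σ : Type*} (J : Finset σ) (ξ : σ → ι → κ)
    (W : σ → Submodule κ (ι → κ)) (hξ : ∀ s ∈ J, ξ s ≠ 0) (hW : ∀ s ∈ J, W s ≠ ⊤) :
    ∃ γ ∈ K, ∀ s ∈ J, ξ s ᵥ* ρ γ ∉ W s := by
  classical
  by_contra h
  push Not at h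
  let f : σ → Matrix ι ι κ →ₗ[κ] (ι → κ) := fun s =>
    { toFun := fun T => ξ s ᵥ* T
      map_add' := fun T T' => vecMul_add _ _ _
      map_smul' := fun c T => vecMul_smul _ _ _ }
  obtain ⟨K', hK', g, hg, L, hL, h1⟩ := cover_coset hρ (J.image fun s => (W s).comap (f s))
    fun x hx => by
      obtain ⟨s, hs, h1⟩ := h x hx
      exact ⟨_, Finset.mem_image_of_mem _ hs, h1⟩
  obtain ⟨s, hs, rfl⟩ := Finset.mem_image.1 hL
  let W' := Submodule.span κ ((fun x => ξ s ᵥ* ρ (g * x)) '' K')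
  have h2 : W' ≤ W s := Submodule.span_le.2 (by rintro _ ⟨x, hx, rfl⟩; exact h1 x hx)
  rcases hS K' hK' W' (fun x hx w hw => by
    refine Submodule.span_induction (p := fun w _ => w ᵥ* ρ x ∈ W') ?_ ?_ ?_ ?_ hw
    · rintro _ ⟨y, hy, rfl⟩
      refine Submodule.subset_span ⟨y * x, K'.mul_mem hy hx, ?_⟩
      simp only [vecMul_vecMul]
      rw [← mul_assoc, hρ.mul _ (K.mul_mem hg (hK'.le hy)) _ (hK'.le hx)]
    · rw [zero_vecMul]; exact W'.zero_mem
    · intro a b _ _ ha hb; rw [add_vecMul]; exact W'.add_mem ha hb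
    · intro c a _ ha; rw [smul_vecMul]; exact W'.smul_mem c ha) with h3 | h3
  · have h4 : ξ s ᵥ* ρ (g * 1) ∈ W' := Submodule.subset_span ⟨1, K'.one_mem, rfl⟩
    rw [h3, mul_one, Submodule.mem_bot] at h4
    refine hξ s hs ?_
    rw [← vecMul_one (ξ s), ← hρ.mul_inv hg, ← vecMul_vecMul, h4, zero_vecMul]
  · exact hW s hs (top_le_iff.1 (h3 ▸ h2))

/-- translates of finitely many covectors in general position -/
theorem exists_gp (hρ : RepOn K ρ) (hS : SIr K ρ) (hd : 1 < Fintype.card ι) {σ : Type*} [Fintype σ]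
    (ξ : σ → ι → κ) (hξ : ∀ s, ξ s ≠ 0) (N : ℕ) :
    ∃ Γ : Finset G, Γ.card = N ∧ (∀ γ ∈ Γ, γ ∈ K) ∧ ∀ s, ∀ T ⊆ Γ, T.card ≤ Fintype.card ι →
      LinearIndepOn κ (fun γ => ξ s ᵥ* ρ γ) (T : Set G) := by
  classical
  induction N with
  | zero =>
    refine ⟨∅, rfl, by simp, fun s T hT _ => ?_⟩
    rw [Finset.subset_empty.1 hT]
    simp
  | succ N ih =>
    obtain ⟨Γ, h1, h2, h3⟩ := ih
    obtain ⟨y, hy, h4⟩ := avoid hρ hS
      (Finset.univ ×ˢ Γ.powerset.filter fun T => T.card < Fintype.card ι) (fun p => ξ p.1)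
      (fun p : σ × Finset G => Submodule.span κ ((fun γ => ξ p.1 ᵥ* ρ γ) '' (p.2 : Set G)))
      (fun p _ => hξ p.1) fun p hp => by
        have h4 := (Finset.mem_filter.1 (Finset.mem_product.1 hp).2).2
        rw [← Finset.coe_image]
        refine ne_of_lt (span_lt_top_of_card_lt_finrank ?_)
        rw [Finset.toFinset_coe, Module.finrank_fintype_fun_eq_card]
        exact Finset.card_image_le.trans_lt h4
    have h5 : ∀ s, ∀ T ⊆ Γ, T.card < Fintype.card ι →
        ξ s ᵥ* ρ y ∉ Submodule.span κ ((fun γ => ξ s ᵥ* ρ γ) '' (T : Set G)) := fun s T hT hc =>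
      h4 (s, T) (Finset.mem_product.2 ⟨Finset.mem_univ _,
        Finset.mem_filter.2 ⟨Finset.mem_powerset.2 hT, hc⟩⟩)
    by_cases hy' : y ∈ Γ
    · rcases isEmpty_or_nonempty σ with hσ | ⟨⟨s⟩⟩
      · obtain ⟨y', hy'K, h6⟩ := avoid hρ hS (Finset.univ ×ˢ Γ)
          (fun p : ι × G => Pi.single p.1 1)
          (fun p => Submodule.span κ {(Pi.single p.1 1 : ι → κ) ᵥ* ρ p.2})
          (fun p _ h => by simpa using congrFun h p.1) fun p _ => by
            refine ne_of_lt (span_lt_top_of_card_lt_finrank ?_)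
            rw [Module.finrank_fintype_fun_eq_card]
            simpa using hd
        obtain ⟨i⟩ : Nonempty ι := Fintype.card_pos_iff.1 (by omega)
        have h7 : y' ∉ Γ := fun h7 => h6 (i, y') (Finset.mem_product.2 ⟨Finset.mem_univ _, h7⟩)
          (Submodule.subset_span rfl)
        refine ⟨insert y' Γ, by rw [Finset.card_insert_of_notMem h7, h1], fun γ hγ => ?_,
          fun s => hσ.elim s⟩
        rcases Finset.mem_insert.1 hγ with rfl | hγ
        exacts [hy'K, h2 γ hγ]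
      · exact (h5 s {y} (Finset.singleton_subset_iff.2 hy') (by simpa using hd)
          (Submodule.subset_span ⟨y, by simp, rfl⟩)).elim
    refine ⟨insert y Γ, by rw [Finset.card_insert_of_notMem hy', h1], fun γ hγ => ?_,
      fun s T hT hc => ?_⟩
    · rcases Finset.mem_insert.1 hγ with rfl | hγ
      exacts [hy, h2 γ hγ]
    · by_cases hyT : y ∈ T
      · have h6 : T.erase y ⊆ Γ := Finset.subset_insert_iff.1 hT
        have h7 : (T.erase y).card < Fintype.card ι :=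
          (Finset.card_erase_lt_of_mem hyT).trans_le hc
        rw [← Finset.insert_erase hyT, Finset.coe_insert]
        exact (h3 s _ h6 h7.le).insert (h5 s _ h6 h7)
      · exact h3 s T ((Finset.subset_insert_iff_of_notMem hyT).1 hT) hc

omit [Group G] in
theorem eq_zero_of_gp {T : Finset G} {f : G → ι → κ} (h : LinearIndepOn κ f (T : Set G))
    (hT : T.card = Fintype.card ι) {u : ι → κ} (hu : ∀ γ ∈ T, f γ ⬝ᵥ u = 0) : u = 0 := by
  have h1 := LinearIndependent.span_eq_top_of_card_eq_finrank' h (by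
    rw [Module.finrank_fintype_fun_eq_card, ← hT]; simp)
  have h2 : ∀ w ∈ Submodule.span κ (Set.range fun x : (T : Set G) => f x), w ⬝ᵥ u = 0 := by
    intro w hw
    induction hw using Submodule.span_induction with
    | mem w hw => obtain ⟨x, rfl⟩ := hw; exact hu x x.2
    | zero => exact zero_dotProduct _
    | add a b _ _ ha hb => rw [add_dotProduct, ha, hb, add_zero]
    | smul c a _ ha => rw [smul_dotProduct, ha, smul_zero]
  funext i
  simpa using h2 (Pi.single i 1) (h1 ▸ Submodule.mem_top)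

/-- strong spanning -/
def SSp (K : Subgroup G) (ρ : G → Matrix ι ι κ) : Prop :=
  ∀ K', FI K' K → Submodule.span κ (ρ '' K') = ⊤

theorem SSp.sir (hS : SSp K ρ) {κ' : Type*} [Field κ'] (c : κ →+* κ') :
    SIr K fun g => (ρ g).map c := by
  intro K' hK' W hW
  have h1 : ∀ T ∈ Submodule.span κ (ρ '' K'), ∀ w ∈ W, w ᵥ* T.map c ∈ W := by
    intro T hT
    induction hT using Submodule.span_induction with
    | mem T hT => obtain ⟨x, hx, rfl⟩ := hT; exact hW x hx
    | zero => intro w _; simp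
    | add a b _ _ ha hb =>
      intro w hw
      rw [Matrix.map_add _ (map_add c), vecMul_add]
      exact W.add_mem (ha w hw) (hb w hw)
    | smul r a _ ha =>
      intro w hw
      have : (r • a).map c = c r • a.map c := by ext i j; simp
      rw [this, vecMul_smul]
      exact W.smul_mem _ (ha w hw)
  rw [hS K' hK'] at h1
  by_cases h0 : W = ⊥
  · exact Or.inl h0
  obtain ⟨w, hw, hw0⟩ := Submodule.exists_mem_ne_zero_of_ne_bot h0
  obtain ⟨i, hi⟩ := Function.ne_iff.1 hw0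
  refine Or.inr (eq_top_iff.2 ?_)
  rw [← (Pi.basisFun κ' ι).span_eq, Submodule.span_le]
  rintro _ ⟨j, rfl⟩
  have h2 := W.smul_mem (w i)⁻¹ (h1 (Matrix.single i j 1) trivial w hw)
  have h3 : w i ≠ 0 := hi
  have h4 : Pi.basisFun κ' ι j = (w i)⁻¹ • w ᵥ* (Matrix.single i j (1 : κ)).map c := ?_
  · rw [h4]; exact h2
  ext l
  simp only [Pi.basisFun_apply, Pi.smul_apply, vecMul, dotProduct, Matrix.map_apply,
    Matrix.single, of_apply, smul_eq_mul]
  rw [Finset.sum_eq_single i (fun b _ hb => by simp [hb.symm]) (by simp)]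
  by_cases hl : j = l
  · subst hl; simp [h3]
  · simp [hl, Ne.symm hl]

end GP

end Crest.Agent.X261.Grp
end

-- ▼ part X261/Grp/BG
section

/-!
# Row 261, package GRP (helper85): an infinite subset of a finitely generated subring of `ℂ` is
unbounded for some absolute value of `ℂ`
-/

set_option autoImplicit false

noncomputable section

namespace Crest.Agent.X261.Grp.BG

open Crest.Agent.X277.Rou MvPolynomial Cardinal Filter
open scoped NNReal

/-- bounded for every absolute value of `ℂ` -/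
def Bd (S : Set ℂ) : Prop := ∀ v : AbsoluteValue ℂ ℝ, ∃ C, ∀ s ∈ S, v s ≤ C

/-- the usual absolute value twisted by an automorphism -/
def tw (v : AbsoluteValue ℂ ℝ) (σ : ℂ ≃+* ℂ) : AbsoluteValue ℂ ℝ :=
  v.comp (f := σ.toRingHom) σ.injective

theorem tw_apply (v : AbsoluteValue ℂ ℝ) (σ : ℂ ≃+* ℂ) (x : ℂ) : tw v σ x = v (σ x) := rfl

/-- the `p`-adic valuation of `ℚ` -/
def pv (p : Nat.Primes) : Valuation ℚ ℝ≥0 :=
  haveI := Fact.mk p.2
  (NormedField.valuation (K := ℚ_[p.1])).comap (Rat.castHom ℚ_[p.1])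

theorem pv_le_one (p : Nat.Primes) {q : ℚ} (h : ¬p.1 ∣ q.den) : pv p q ≤ 1 := by
  have := Fact.mk p.2
  exact_mod_cast Padic.norm_rat_le_one (p := p.1) h

theorem pv_nat_lt_one (p : Nat.Primes) {n : ℕ} (h : p.1 ∣ n) : pv p n < 1 := by
  have := Fact.mk p.2
  have h1 : ‖((n : ℚ) : ℚ_[p.1])‖ < 1 := by
    rw [Rat.cast_natCast]
    exact Padic.norm_natCast_lt_one_iff.2 h
  exact_mod_cast h1

theorem one_lt_pv (p : Nat.Primes) {q : ℚ} (h : p.1 ∣ q.den) : 1 < pv p q := by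
  have := Fact.mk p.2
  have h2 := pv_nat_lt_one p h
  have h3 : ¬pv p q.num < 1 := fun h3 => by
    have h3' : ‖((q.num : ℚ) : ℚ_[p.1])‖ < 1 := by exact_mod_cast h3
    rw [Rat.cast_intCast] at h3'
    have h4 := Int.natCast_dvd.1 (Padic.norm_intCast_lt_one_iff.1 h3')
    exact p.2.one_lt.ne' (Nat.eq_one_of_dvd_coprimes q.reduced h4 h)
  by_contra h5
  refine h3 ?_
  rw [← Rat.mul_den_eq_num q, map_mul]
  exact mul_lt_one_of_nonneg_of_lt_one_right (not_lt.1 h5) zero_le h2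

theorem pv_nontriv (p : Nat.Primes) : ∃ x, 1 < pv p x :=
  ⟨(p.1 : ℚ)⁻¹, one_lt_pv p (by rw [Rat.inv_natCast_den_of_pos p.2.pos])⟩

theorem ev_pv (q : ℚ) : ∀ᶠ p in cofinite, pv p q ≤ 1 := by
  refine Set.Finite.subset (Set.Finite.preimage (f := fun p : Nat.Primes => p.1)
    Subtype.val_injective.injOn (Set.finite_Iic q.den)) fun p hp => ?_
  by_contra h
  exact hp (pv_le_one p fun h1 => h (Nat.le_of_dvd q.den_pos h1))

theorem finite_rat (Q : Set ℚ) (h0 : ∃ C : ℝ, ∀ q ∈ Q, |(q : ℝ)| ≤ C)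
    (h1 : ∀ p, ∃ C : ℝ, ∀ q ∈ Q, (pv p q : ℝ) ≤ C) (h2 : ∀ᶠ p in cofinite, ∀ q ∈ Q, pv p q ≤ 1) :
    Q.Finite := by
  classical
  obtain ⟨C, hC⟩ := h0
  set E := (Filter.eventually_cofinite.1 h2).toFinset with hE
  set N : ℕ := ∏ p ∈ E, p.1 with hN
  have hN0 : 0 < N := Finset.prod_pos fun p _ => p.2.pos
  have h3 : ∀ᶠ k : ℕ in atTop, ∀ p ∈ E, ∀ q ∈ Q, pv p ((N : ℚ) ^ k * q) ≤ 1 := by
    rw [Filter.eventually_all_finset]
    intro p hp
    obtain ⟨D, hD⟩ := h1 p
    have h4 : (pv p N : ℝ) < 1 := by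
      exact_mod_cast pv_nat_lt_one p (Finset.dvd_prod_of_mem _ hp)
    have h5 : Tendsto (fun k : ℕ => (pv p N : ℝ) ^ k * D) atTop (nhds (0 * D)) :=
      (tendsto_pow_atTop_nhds_zero_of_lt_one (NNReal.coe_nonneg _) h4).mul_const D
    rw [zero_mul] at h5
    filter_upwards [h5.eventually_lt_const one_pos] with k hk q hq
    rw [map_mul, map_pow, ← NNReal.coe_le_coe, NNReal.coe_mul, NNReal.coe_pow, NNReal.coe_one]
    exact (mul_le_mul_of_nonneg_left (hD q hq) (by positivity)).trans hk.le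
  obtain ⟨k, hk⟩ := h3.exists
  have h4 : ∀ q ∈ Q, ((N : ℚ) ^ k * q).den = 1 := by
    intro q hq
    by_contra h5
    obtain ⟨p, hp, hpd⟩ := Nat.exists_prime_and_dvd h5
    let p' : Nat.Primes := ⟨p, hp⟩
    refine absurd (one_lt_pv p' hpd) (not_lt.2 ?_)
    by_cases h6 : p' ∈ E
    · exact hk _ h6 q hq
    · rw [hE, Set.Finite.mem_toFinset, Set.mem_ofPred_eq, not_not] at h6
      rw [map_mul, map_pow]
      exact mul_le_one' (pow_le_one' (val_natCast_le _ N) k) (h6 q hq)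
  have hNk : ((N : ℚ) ^ k) ≠ 0 := by positivity
  refine Set.Finite.of_injOn (f := fun q => ((N : ℚ) ^ k * q).num)
    (t := Set.Icc (-⌈(N : ℝ) ^ k * C⌉) ⌈(N : ℝ) ^ k * C⌉) (fun q hq => ?_) ?_ (Set.finite_Icc _ _)
  · have h5 : ((((N : ℚ) ^ k * q).num : ℚ) : ℝ) = (N : ℝ) ^ k * q := by
      rw [(Rat.den_eq_one_iff _).1 (h4 q hq)]
      push_cast
      rfl
    rw [Set.mem_Icc, ← abs_le, ← Int.cast_le (R := ℝ), Int.cast_abs]
    rw [Rat.cast_intCast] at h5
    rw [h5, abs_mul, abs_of_nonneg (by positivity)]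
    exact (mul_le_mul_of_nonneg_left (hC q hq) (by positivity)).trans (Int.le_ceil _)
  · intro q hq q' hq' h5
    have h6 : (((N : ℚ) ^ k * q).num : ℚ) = ((N : ℚ) ^ k * q').num := congrArg Int.cast h5
    rw [(Rat.den_eq_one_iff _).1 (h4 q hq), (Rat.den_eq_one_iff _).1 (h4 q' hq')] at h6
    exact mul_left_cancel₀ hNk h6

variable {s : ℕ}

local notation "P" => MvPolynomial (Fin s) ℚ

theorem countable_P : Countable P :=
  Cardinal.mk_le_aleph0_iff.1 (MvPolynomial.cardinalMk_le_max.trans (by simp))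

/-- a real valuation with trivial support extends along an embedding into `ℂ` -/
theorem exists_ext (j : P →+* ℂ) (hj : Function.Injective j) (w : Valuation P ℝ≥0)
    (h0 : ∀ c, w c = 0 → c = 0) (h1 : ∃ c, 1 < w c) :
    ∃ W : Valuation ℂ ℝ≥0, ∀ c, W (j c) = w c := by
  have h : nonZeroDivisors P ≤ w.supp.primeCompl := fun c hc h =>
    nonZeroDivisors.ne_zero hc (h0 c h)
  let _ : Algebra (FractionRing P) ℂ := (IsFractionRing.lift (K := FractionRing P) hj).toAlgebra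
  have h2 := fun c => Valuation.extendToLocalization_apply_map_apply w h (FractionRing P) c
  obtain ⟨c, hc⟩ := h1
  obtain ⟨W, hW⟩ := exists_extension (K := ℂ) (w.extendToLocalization h (FractionRing P))
    ⟨_, by rw [h2]; exact hc⟩
  refine ⟨W, fun c => ?_⟩
  rw [← h2, ← hW]
  exact congrArg W (IsFractionRing.lift_algebraMap hj c).symm

open Classical in
/-- the degree valuation -/
def dv (s : ℕ) : Valuation (MvPolynomial (Fin s) ℚ) ℝ≥0 where
  toFun c := if c = 0 then 0 else 2 ^ c.totalDegree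
  map_zero' := by simp
  map_one' := by simp
  map_mul' c d := by
    by_cases hc : c = 0
    · simp [hc]
    by_cases hd : d = 0
    · simp [hd]
    simp only [hc, hd, mul_ne_zero hc hd, if_false, totalDegree_mul_of_isDomain hc hd, pow_add]
  map_add_le_max' c d := by
    by_cases hc : c = 0
    · simp [hc]
    by_cases hd : d = 0
    · simp [hd]
    simp only [hc, hd, if_false]
    split_ifs
    · exact zero_le
    · rcases le_max_iff.1 (totalDegree_add c d) with h | h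
      · exact le_max_of_le_left (pow_le_pow_right₀ one_le_two h)
      · exact le_max_of_le_right (pow_le_pow_right₀ one_le_two h)

theorem dv_of_ne {c : P} (hc : c ≠ 0) : dv s c = 2 ^ c.totalDegree := if_neg hc

theorem deg_bdd (j : P →+* ℂ) (hj : Function.Injective j) {Z : Set P} (hZ : Bd (j '' Z)) :
    ∃ D : ℕ, ∀ c ∈ Z, c.totalDegree ≤ D := by
  by_cases h : ∃ c : P, 0 < c.totalDegree
  · obtain ⟨c0, hc0⟩ := h
    have h1 : c0 ≠ 0 := by rintro rfl; simp at hc0
    obtain ⟨W, hW⟩ := exists_ext j hj (dv s) (fun c hc => by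
      by_contra h2
      rw [dv_of_ne h2] at hc
      exact absurd hc (by positivity)) ⟨c0, by
      rw [dv_of_ne h1]; exact one_lt_pow₀ _root_.one_lt_two hc0.ne'⟩
    obtain ⟨C, hC⟩ := hZ (absOf W)
    refine ⟨⌈C⌉₊, fun c hc => ?_⟩
    by_cases h2 : c = 0
    · simp [h2]
    have h3 := hC _ ⟨c, hc, rfl⟩
    rw [absOf_apply, hW, dv_of_ne h2] at h3
    have h4 : (c.totalDegree : ℝ) ≤ 2 ^ c.totalDegree := by
      exact_mod_cast c.totalDegree.lt_two_pow_self.le
    push_cast at h3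
    exact_mod_cast (h4.trans h3).trans (Nat.le_ceil C)
  · push Not at h
    exact ⟨0, fun c _ => h c⟩

/-- shift of the variables -/
def sh (n : Fin s → ℤ) : P →ₐ[ℚ] P := aeval fun i => X i + C (n i : ℚ)

theorem sh_injective (n : Fin s → ℤ) : Function.Injective (sh n) := by
  have : (sh (-n)).comp (sh n) = AlgHom.id ℚ P := by
    ext i
    simp [sh]
  exact Function.LeftInverse.injective (g := sh (-n)) fun c => congrArg (fun f => f c) this

theorem totalDegree_le_of_support_subset' (f : ℚ →+* ℂ) (c : P) :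
    (map f c).totalDegree ≤ c.totalDegree :=
  Finset.sup_mono (support_map_subset f c)

theorem coeff_bdd (j : P →+* ℂ) (hj : Function.Injective j) {Z : Set P} (hZ : Bd (j '' Z))
    (m : Fin s →₀ ℕ) : ∃ C : ℝ, ∀ c ∈ Z, |((coeff m c : ℚ) : ℝ)| ≤ C := by
  obtain ⟨D, hD⟩ := deg_bdd j hj hZ
  let W := restrictTotalDegree (Fin s) ℂ D
  let ι : Z → W := fun c => ⟨map (algebraMap ℚ ℂ) c.1, (mem_restrictTotalDegree _ _ _).2
    ((totalDegree_le_of_support_subset' _ _).trans (hD c c.2))⟩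
  let x : Fin s → ℂ := fun i => j (X i)
  let ev : (Fin s → ℤ) → W →ₗ[ℂ] ℂ := fun n =>
    (aeval (fun i => x i + n i) : MvPolynomial (Fin s) ℂ →ₐ[ℂ] ℂ).toLinearMap.comp W.subtype
  have h1 : Submodule.span ℂ (Set.range ev) = ⊤ := by
    refine Submodule.span_eq_top_of_ne_zero fun z hz => ?_
    by_contra h2
    push Not at h2
    refine hz (Subtype.ext (funext_set (fun i => Set.range fun n : ℤ => x i + n) (fun i => ?_) ?_))
    · exact Set.infinite_range_of_injective fun a b hab => by simpa using hab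
    · intro y hy
      choose n hn using fun i => hy i (Set.mem_univ i)
      have h3 := h2 _ ⟨n, rfl⟩
      rw [show y = fun i => x i + n i from funext fun i => (hn i).symm]
      simpa [ev, coe_aeval_eq_eval] using h3
  have h2 : ∀ f ∈ Submodule.span ℂ (Set.range ev), ∃ C : ℝ, ∀ c, ‖f (ι c)‖ ≤ C := by
    intro f hf
    induction hf using Submodule.span_induction with
    | mem f hf =>
      obtain ⟨n, rfl⟩ := hf
      have := countable_P (s := s)
      obtain ⟨σ, hσ⟩ := exists_equiv_ext (K := ℂ) (L := ℂ) (by simp [aleph0_lt_continuum]) rfl j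
        (j.comp (sh n).toRingHom) hj (hj.comp (sh_injective n))
      obtain ⟨C, hC⟩ := hZ (tw (IsAbsoluteValue.toAbsoluteValue (norm : ℂ → ℝ)) σ)
      refine ⟨C, fun c => ?_⟩
      have h3 := hC _ ⟨c.1, c.2, rfl⟩
      rw [tw_apply, hσ] at h3
      have h4 : (eval₂Hom (algebraMap ℚ ℂ) fun i => x i + n i) = j.comp (sh n).toRingHom := by
        refine ringHom_ext (fun q => ?_) fun i => ?_
        · exact congrArg (fun f : ℚ →+* ℂ => f q) (Subsingleton.elim
            ((eval₂Hom (algebraMap ℚ ℂ) fun i => x i + n i).comp MvPolynomial.C)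
            ((j.comp (sh n).toRingHom).comp MvPolynomial.C))
        · simp [sh, x]
      have h5 : ev n (ι c) = (j.comp (sh n).toRingHom) c.1 := by
        rw [← h4]
        simp [ev, ι, eval_map]
      rw [h5]
      exact h3
    | zero => exact ⟨0, by simp⟩
    | add f g _ _ hf hg =>
      obtain ⟨C, hC⟩ := hf
      obtain ⟨C', hC'⟩ := hg
      exact ⟨C + C', fun c => (norm_add_le _ _).trans (add_le_add (hC c) (hC' c))⟩
    | smul a f _ hf =>
      obtain ⟨C, hC⟩ := hf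
      refine ⟨‖a‖ * C, fun c => ?_⟩
      rw [LinearMap.smul_apply, norm_smul]
      exact mul_le_mul_of_nonneg_left (hC c) (norm_nonneg _)
  obtain ⟨C, hC⟩ := h2 ((lcoeff ℂ m).comp W.subtype) (h1 ▸ Submodule.mem_top)
  refine ⟨C, fun c hc => ?_⟩
  have h3 := hC ⟨c, hc⟩
  simpa [ι, coeff_map] using h3

theorem finite_poly (j : P →+* ℂ) (hj : Function.Injective j) {Z : Set P} (hZ : Bd (j '' Z))
    (h2 : ∀ᶠ p in cofinite, ∀ W : Valuation ℂ ℝ≥0, (∀ c, W (j c) = gv (pv p) c) →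
      ∀ c ∈ Z, W (j c) ≤ 1) : Z.Finite := by
  obtain ⟨D, hD⟩ := deg_bdd j hj hZ
  have h3 : ∀ p, ∃ W : Valuation ℂ ℝ≥0, ∀ c, W (j c) = gv (pv p) c := fun p => by
    obtain ⟨x, hx⟩ := pv_nontriv p
    exact exists_ext j hj (gauss (pv p) (Fin s)) (fun c => gv_eq_zero _)
      ⟨C x, by rwa [← gv_C (ι := Fin s)] at hx⟩
  have h4 : ∀ m, (coeff m '' Z).Finite := fun m => by
    refine finite_rat _ ?_ (fun p => ?_) ?_
    · obtain ⟨C, hC⟩ := coeff_bdd j hj hZ m
      exact ⟨C, by rintro _ ⟨c, hc, rfl⟩; exact hC c hc⟩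
    · obtain ⟨W, hW⟩ := h3 p
      obtain ⟨C, hC⟩ := hZ (absOf W)
      refine ⟨C, ?_⟩
      rintro _ ⟨c, hc, rfl⟩
      have h5 := hC _ ⟨c, hc, rfl⟩
      rw [absOf_apply, hW] at h5
      exact le_trans (by exact_mod_cast le_gv (pv p) c m) h5
    · filter_upwards [h2] with p hp
      rintro _ ⟨c, hc, rfl⟩
      obtain ⟨W, hW⟩ := h3 p
      exact (le_gv (pv p) c m).trans (hW c ▸ hp W hW c hc)
  have h5 := Finsupp.finite_of_degree_le (σ := Fin s) D
  have : Finite {m : Fin s →₀ ℕ | m.degree ≤ D} := h5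
  refine Set.Finite.of_injOn (f := fun c (m : {m : Fin s →₀ ℕ | m.degree ≤ D}) => coeff m.1 c)
    ?_ ?_ (Set.Finite.pi' fun m => h4 m.1)
  · exact fun c hc m => ⟨c, hc, rfl⟩
  intro c hc d hd h
  ext m
  by_cases hm : m.degree ≤ D
  · exact congrFun h ⟨m, hm⟩
  · have h6 : ∀ e ∈ Z, coeff m e = 0 := fun e he => by
      by_contra h7
      exact hm ((le_totalDegree (mem_support_iff.2 h7)).trans (hD e he))
    rw [h6 c hc, h6 d hd]

theorem ev_gv (c : P) : ∀ᶠ p in cofinite, gv (pv p) c ≤ 1 := by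
  have h : ∀ᶠ p in cofinite, ∀ m ∈ c.support, pv p (coeff m c) ≤ 1 :=
    (Filter.eventually_all_finset _).2 fun m _ => ev_pv _
  filter_upwards [h] with p hp
  exact Finset.sup_le hp

/-- **Breuillard-Gelander lemma** -/
theorem finite_of_bd (T : Finset ℂ) {S : Set ℂ} (hS : S ⊆ Subring.closure (T : Set ℂ))
    (hb : Bd S) : S.Finite := by
  classical
  let B := Algebra.adjoin ℚ (T : Set ℂ)
  have : Algebra.FiniteType ℚ B := (Subalgebra.fg_iff_finiteType _).1 ⟨T, rfl⟩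
  obtain ⟨s, g, hg, hgi⟩ := exists_integral_inj_algHom_of_fg ℚ B
  let j : MvPolynomial (Fin s) ℚ →+* ℂ := B.val.toRingHom.comp g.toRingHom
  have hj : Function.Injective j := Subtype.val_injective.comp hg
  let F := FractionRing (MvPolynomial (Fin s) ℚ)
  let _ : Algebra (MvPolynomial (Fin s) ℚ) ℂ := j.toAlgebra
  let _ : Algebra F ℂ := (IsFractionRing.lift (K := F) hj).toAlgebra
  have hst : IsScalarTower (MvPolynomial (Fin s) ℚ) F ℂ :=
    IsScalarTower.of_algebraMap_eq fun c => (IsFractionRing.lift_algebraMap hj c).symm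
  have hT : ∀ t ∈ T, IsIntegral (MvPolynomial (Fin s) ℚ) t := fun t ht => by
    obtain ⟨f, hf, h1⟩ := hgi ⟨t, Algebra.subset_adjoin ht⟩
    refine ⟨f, hf, ?_⟩
    have h2 := congrArg B.val.toRingHom h1
    rwa [Polynomial.hom_eval₂, map_zero] at h2
  have hA : ∀ x ∈ Subring.closure (T : Set ℂ), IsIntegral (MvPolynomial (Fin s) ℚ) x :=
    fun x hx => (Subring.closure_le (t := (integralClosure (MvPolynomial (Fin s) ℚ) ℂ).toSubring)).2
      hT hx
  let K := IntermediateField.adjoin F (T : Set ℂ)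
  have : FiniteDimensional F K :=
    IntermediateField.finiteDimensional_adjoin fun t ht => (hT t ht).tower_top
  have hAK : ∀ x ∈ Subring.closure (T : Set ℂ), x ∈ K := fun x hx =>
    (Subring.closure_le (t := K.toSubalgebra.toSubring)).2 (IntermediateField.subset_adjoin F _) hx
  let U : Set K := {b | (b : ℂ) ∈ Subring.closure (T : Set ℂ)}
  have hU : Submodule.span F U = ⊤ := by
    apply Submodule.map_injective_of_injective (f := K.val.toLinearMap) Subtype.val_injective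
    rw [Submodule.map_span, Submodule.map_top]
    refine le_antisymm (Submodule.span_le.2 (Set.image_subset_range _ _)) ?_
    rintro _ ⟨x, rfl⟩
    have h1 : (x : ℂ) ∈ (Algebra.adjoin F (T : Set ℂ)).toSubmodule := by
      rw [← IntermediateField.adjoin_toSubalgebra_of_isAlgebraic
        fun t ht => ((hT t ht).tower_top (A := F)).isAlgebraic]
      exact x.2
    rw [Algebra.adjoin_eq_span] at h1
    refine Submodule.span_mono (fun y hy => ?_) h1
    have h2 : y ∈ Subring.closure (T : Set ℂ) :=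
      (Submonoid.closure_le (S := (Subring.closure (T : Set ℂ)).toSubmonoid)).2
        Subring.subset_closure hy
    exact ⟨⟨y, hAK y h2⟩, h2, rfl⟩
  obtain ⟨B0, hB0, hB1⟩ := (Submodule.fg_span_iff_fg_span_finset_subset (R := F) U).1
    (IsNoetherian.noetherian _)
  rw [hU] at hB1
  have hc : ∀ x : K, x ∈ U → ∃ c : MvPolynomial (Fin s) ℚ,
      algebraMap _ F c = Algebra.trace F K x := fun x hx =>
    IsIntegrallyClosed.isIntegral_iff.1 (Algebra.isIntegral_trace
      ((isIntegral_algHom_iff (K.val.restrictScalars _) Subtype.val_injective).1 (hA x hx)))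
  choose! c hc using hc
  have hcj : ∀ x ∈ U, j (c x) = ∑ σ : K →ₐ[F] ℂ, σ x := fun x hx => by
    rw [← trace_eq_sum_embeddings, ← hc x hx, ← IsScalarTower.algebraMap_apply]
    rfl
  have hcF : Countable F := by
    have := countable_P (s := s)
    exact Cardinal.mk_le_aleph0_iff.1
      ((IsLocalization.cardinalMk_le (nonZeroDivisors (MvPolynomial (Fin s) ℚ))).trans
        Cardinal.mk_le_aleph0)
  have hcK : Countable K := Cardinal.mk_le_aleph0_iff.1
    ((Algebra.IsAlgebraic.cardinalMk_le_max F K).trans (by simp))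
  have hσ : ∀ σ : K →ₐ[F] ℂ, ∃ τ : ℂ ≃+* ℂ, ∀ x : K, τ x = σ x := fun σ =>
    exists_equiv_ext (K := ℂ) (L := ℂ) (by simp [aleph0_lt_continuum]) rfl K.val.toRingHom
      σ.toRingHom Subtype.val_injective σ.toRingHom.injective
  choose τ hτ using hσ
  let ι : S → K := fun x => ⟨x, hAK _ (hS x.2)⟩
  have hι : ∀ (x : S), ∀ b ∈ B0, ι x * b ∈ U := fun x b hb' =>
    Subring.mul_mem _ (hS x.2) (hB0 hb')
  have hfin : ∀ b ∈ B0, (Set.range fun x : S => c (ι x * b)).Finite := fun b hb' => by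
    refine finite_poly j hj (fun v => ?_) ?_
    · choose C hC using fun σ : K →ₐ[F] ℂ => hb (tw v (τ σ))
      refine ⟨∑ σ, C σ * v (σ b), ?_⟩
      rintro _ ⟨_, ⟨x, rfl⟩, rfl⟩
      rw [hcj _ (hι x b hb')]
      refine (v.sum_le _ _).trans (Finset.sum_le_sum fun σ _ => ?_)
      rw [map_mul, map_mul]
      refine mul_le_mul_of_nonneg_right ?_ (v.nonneg _)
      rw [← hτ]
      exact hC σ x x.2
    · choose! f hf using hT
      have h1 : ∀ᶠ p in cofinite, ∀ t ∈ T, ∀ i ∈ (f t).support, gv (pv p) ((f t).coeff i) ≤ 1 :=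
        (Filter.eventually_all_finset _).2 fun t _ =>
          (Filter.eventually_all_finset _).2 fun i _ => ev_gv _
      filter_upwards [h1] with p hp W hW
      rintro _ ⟨x, rfl⟩
      rw [hcj _ (hι x b hb')]
      refine W.map_sum_le fun σ _ => ?_
      have h2 : Subring.closure (T : Set ℂ) ≤ W.integer.comap (τ σ).toRingHom := by
        refine Subring.closure_le.2 fun t ht => ?_
        have h3 : (f t).map j ∈ Polynomial.lifts W.integer.subtype := by
          rw [Polynomial.lifts_iff_coeff_lifts]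
          intro i
          rw [Polynomial.coeff_map]
          refine ⟨⟨j ((f t).coeff i), ?_⟩, rfl⟩
          rw [Valuation.mem_integer_iff, hW]
          by_cases hi : i ∈ (f t).support
          · exact hp t ht i hi
          · rw [Polynomial.notMem_support_iff.1 hi]
            exact gv_le _ (by simp)
        obtain ⟨Q, hQ, -, hm⟩ := Polynomial.lifts_and_degree_eq_and_monic h3 ((hf t ht).1.map j)
        refine Valuation.Integers.mem_of_integral (Valuation.integer.integers W) ⟨Q, hm, ?_⟩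
        have h4 : (τ σ).toRingHom.comp j = j := by
          refine RingHom.ext fun c => ?_
          have h5 := hτ σ (algebraMap F K (algebraMap _ F c))
          rw [σ.commutes] at h5
          have h6 : algebraMap F ℂ (algebraMap _ F c) = j c :=
            (IsScalarTower.algebraMap_apply _ F ℂ c).symm
          rw [h6] at h5
          rw [← h5]
          exact congrArg (τ σ) h6.symm
        have h5 := congrArg (τ σ).toRingHom (hf t ht).2
        rw [Polynomial.hom_eval₂, map_zero] at h5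
        rw [← Polynomial.eval_map]
        change Polynomial.eval _ (Q.map W.integer.subtype) = 0
        rw [hQ, Polynomial.eval_map, ← h4]
        exact h5
      rw [← hτ]
      exact h2 (hι x b hb')
  have : Finite S := by
    have h1 : (Set.univ : Set S).Finite := by
      refine Set.Finite.of_injOn (f := fun x (b : B0) => c (ι x * b)) ?_ ?_
        (Set.Finite.pi' fun b : B0 => hfin b b.2)
      · exact fun x _ b => ⟨x, rfl⟩
      intro x _ y _ h
      have h2 : ι x - ι y = 0 := by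
        refine (traceForm_nondegenerate F K).1 _ fun z => ?_
        have h3 : z ∈ Submodule.span F (B0 : Set K) := hB1 ▸ Submodule.mem_top
        induction h3 using Submodule.span_induction with
        | mem b hb' =>
          rw [Algebra.traceForm_apply, sub_mul, map_sub, ← hc _ (hι x b hb'),
            ← hc _ (hι y b hb'), sub_eq_zero]
          exact congrArg _ (congrFun h ⟨b, hb'⟩)
        | zero => simp
        | add a b _ _ ha hb' => rw [map_add, ha, hb', add_zero]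
        | smul a b _ hb' => rw [map_smul, hb', smul_zero]
      have h3 := congrArg Subtype.val (sub_eq_zero.1 h2)
      exact Subtype.ext h3
    exact Set.finite_univ_iff.1 h1
  exact Set.toFinite S

end Crest.Agent.X261.Grp.BG
end
end

-- ▼ part X261/Grp/Fur
section

/-!
# Row 261, package GRP (helper85): the Furstenberg lemma
-/

set_option autoImplicit false

noncomputable section

namespace Crest.Agent.X261.Grp

open Matrix Filter Topology Crest.Agent.R189

/-! ### integration against finitely supported functions -/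

section lc

variable {S : Type*}

/-- the integral of `f` against `p` -/
def lc (f : S → ℝ) (p : S →₀ ℝ) : ℝ := Finsupp.linearCombination ℝ f p

theorem lc_eq (f : S → ℝ) (p : S →₀ ℝ) : lc f p = ∑ s ∈ p.support, p s * f s := by
  simp [lc, Finsupp.linearCombination_apply, Finsupp.sum]

theorem lc_mono {f g : S → ℝ} {p : S →₀ ℝ} (hp : IsProb p) (h : ∀ s, f s ≤ g s) :
    lc f p ≤ lc g p := by
  rw [lc_eq, lc_eq]
  exact Finset.sum_le_sum fun s _ => mul_le_mul_of_nonneg_left (h s) (hp.nonneg s)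

theorem lc_const {p : S →₀ ℝ} (hp : IsProb p) (c : ℝ) : lc (fun _ => c) p = c := by
  rw [lc_eq, ← Finset.sum_mul, ← mass_eq (Finset.Subset.refl _), hp.mass, one_mul]

theorem lc_add (f g : S → ℝ) (p : S →₀ ℝ) : lc (fun s => f s + g s) p = lc f p + lc g p := by
  simp only [lc_eq, mul_add, Finset.sum_add_distrib]

theorem lc_sum {ι : Type*} (J : Finset ι) (f : ι → S → ℝ) (p : S →₀ ℝ) :
    lc (fun s => ∑ i ∈ J, f i s) p = ∑ i ∈ J, lc (f i) p := by
  simp only [lc_eq, Finset.mul_sum]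
  exact Finset.sum_comm

theorem abs_lc_le {f : S → ℝ} (h : ∀ s, |f s| ≤ 1) (q : S →₀ ℝ) : |lc f q| ≤ l1 q := by
  rw [lc_eq, l1_eq (Finset.Subset.refl _)]
  refine (Finset.abs_sum_le_sum_abs _ _).trans (Finset.sum_le_sum fun s _ => ?_)
  rw [abs_mul]
  exact mul_le_of_le_one_right (abs_nonneg _) (h s)

theorem lc_map (f : S → ℝ) (b : S → S) (p : S →₀ ℝ) :
    lc f (p.mapDomain b) = lc (fun s => f (b s)) p :=
  Finsupp.linearCombination_mapDomain _ _ _

theorem lc_sub (f : S → ℝ) (p q : S →₀ ℝ) : lc f (p - q) = lc f p - lc f q := map_sub _ _ _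

open Classical in
/-- ping-pong inequality for probabilities -/
theorem pingpong {p : S →₀ ℝ} (hp : IsProb p) {b : S → S} {A B : S → Prop}
    (h : ∀ s, ¬A s → B (b s)) :
    1 - l1 (p.mapDomain b - p) / 2 ≤
      lc (fun s => if A s then 1 else 0) p + lc (fun s => if B s then 1 else 0) p := by
  have h1 := abs_lc_le (f := fun s => (if B s then 1 else 0) + ((if B s then 1 else 0) + -1))
    (fun s => by split_ifs <;> norm_num) (p.mapDomain b - p)
  rw [lc_sub, lc_map, lc_add, lc_add, lc_add, lc_add, lc_const hp] at h1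
  have h2 := lc_mono hp (f := fun _ => 1)
    (g := fun s => (if A s then 1 else 0) + if B (b s) then 1 else 0) fun s => by
      by_cases hs : A s
      · simp only [hs, if_true]; split_ifs <;> norm_num
      · simp [hs, h s hs]
  rw [lc_const hp, lc_add] at h2
  linarith [(abs_le.1 h1).2]

end lc

namespace Fur

variable (v : AbsoluteValue ℂ ℝ)

/-- bounded sequences -/
def BS : Subring (ℕ → ℂ) where
  carrier := {x | ∃ C, ∀ k, v (x k) ≤ C}
  one_mem' := ⟨1, fun _ => by simp⟩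
  zero_mem' := ⟨0, fun _ => by simp⟩
  mul_mem' := by
    rintro x y ⟨C, hC⟩ ⟨D, hD⟩
    refine ⟨C * D, fun k => ?_⟩
    rw [Pi.mul_apply, map_mul]
    exact mul_le_mul (hC k) (hD k) (v.nonneg _) ((v.nonneg _).trans (hC k))
  add_mem' := by
    rintro x y ⟨C, hC⟩ ⟨D, hD⟩
    exact ⟨C + D, fun k => (v.add_le _ _).trans (add_le_add (hC k) (hD k))⟩
  neg_mem' := by
    rintro x ⟨C, hC⟩
    exact ⟨C, fun k => by rw [Pi.neg_apply, v.map_neg]; exact hC k⟩

/-- the ultrafilter -/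
abbrev UU : Filter ℕ := (hyperfilter ℕ : Filter ℕ)

/-- null sequences -/
def Nul : Ideal (BS v) where
  carrier := {x | Tendsto (fun k => v (x.1 k)) UU (𝓝 0)}
  zero_mem' := by
    change Tendsto (fun k => v 0) UU (𝓝 0)
    rw [v.map_zero]; exact tendsto_const_nhds
  add_mem' := by
    intro x y hx hy
    refine squeeze_zero (fun k => v.nonneg _) (fun k => v.add_le _ _) ?_
    simpa using hx.add hy
  smul_mem' := by
    rintro ⟨c, C, hC⟩ x hx
    refine squeeze_zero (g := fun k => C * v (x.1 k)) (fun k => v.nonneg _) (fun k => ?_) ?_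
    · exact (v.map_mul _ _).le.trans (mul_le_mul_of_nonneg_right (hC k) (v.nonneg _))
    · simpa using hx.const_mul C

theorem mem_Nul {x : BS v} : x ∈ Nul v ↔ Tendsto (fun k => v (x.1 k)) UU (𝓝 0) := Iff.rfl

theorem not_mem_Nul {x : BS v} : x ∉ Nul v ↔ ∃ ε > 0, ∀ᶠ k in UU, ε ≤ v (x.1 k) := by
  rw [mem_Nul, Metric.tendsto_nhds]
  simp only [Real.dist_eq, sub_zero, abs_of_nonneg (v.nonneg _), not_forall,
    ← Ultrafilter.eventually_not, not_lt, exists_prop]

instance nul_prime : (Nul v).IsPrime := by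
  refine ⟨(Ideal.ne_top_iff_one _).2 ((not_mem_Nul v).2 ⟨1, one_pos, by simp⟩), fun {x y} h => ?_⟩
  by_contra h1
  rw [not_or, not_mem_Nul, not_mem_Nul] at h1
  obtain ⟨⟨ε, hε, h1⟩, η, hη, h2⟩ := h1
  refine (not_mem_Nul v).2 ⟨ε * η, mul_pos hε hη, ?_⟩ h
  filter_upwards [h1, h2] with k h3 h4
  exact (mul_le_mul h3 h4 hη.le (v.nonneg _)).trans (v.map_mul _ _).ge

/-- the residue field -/
def κ : Type := FractionRing (BS v ⧸ Nul v)

instance κ_field : Field (κ v) := inferInstanceAs (Field (FractionRing (BS v ⧸ Nul v)))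

/-- the residue map -/
def π : BS v →+* κ v :=
  (algebraMap (BS v ⧸ Nul v) (FractionRing (BS v ⧸ Nul v))).comp (Ideal.Quotient.mk (Nul v))

theorem π_eq_zero {x : BS v} : π v x = 0 ↔ x ∈ Nul v :=
  (map_eq_zero_iff _ (IsFractionRing.injective (BS v ⧸ Nul v) (FractionRing (BS v ⧸ Nul v)))).trans
    Ideal.Quotient.eq_zero_iff_mem

/-- constant sequences -/
def cst : ℂ →+* BS v := (Pi.constRingHom ℕ ℂ).codRestrict _ fun c => ⟨v c, fun _ => le_rfl⟩

/-- evaluation -/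
def ev (k : ℕ) : BS v →+* ℂ := (Pi.evalRingHom _ k).comp (BS v).subtype

theorem ev_apply (k : ℕ) (x : BS v) : ev v k x = x.1 k := rfl

variable {ι : Type*} [Fintype ι]

/-- `ℓ¹` size of a vector -/
def nv (w : ι → ℂ) : ℝ := ∑ i, v (w i)

theorem nv_nonneg (w : ι → ℂ) : 0 ≤ nv v w := Finset.sum_nonneg fun _ _ => v.nonneg _

theorem le_nv (w : ι → ℂ) (i : ι) : v (w i) ≤ nv v w :=
  Finset.single_le_sum (f := fun i => v (w i)) (fun _ _ => v.nonneg _) (Finset.mem_univ i)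

theorem nv_smul (c : ℂ) (w : ι → ℂ) : nv v (c • w) = v c * nv v w := by
  simp [nv, Finset.mul_sum]

theorem dot_le (a w : ι → ℂ) : v (a ⬝ᵥ w) ≤ nv v a * nv v w := by
  refine (v.sum_le _ _).trans ?_
  rw [nv, Finset.sum_mul]
  refine Finset.sum_le_sum fun i _ => ?_
  rw [map_mul]
  exact mul_le_mul_of_nonneg_left (le_nv v w i) (v.nonneg _)

theorem nv_mulVec_le (A : Matrix ι ι ℂ) (w : ι → ℂ) :
    nv v (A *ᵥ w) ≤ (∑ i, nv v (A i)) * nv v w := by
  rw [Finset.sum_mul]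
  exact Finset.sum_le_sum fun i _ => dot_le v _ _

/-- `w` is `δ`-close to the kernel of `a` -/
def Cl (a : ι → ℂ) (δ : ℝ) (w : ι → ℂ) : Prop := v (a ⬝ᵥ w) ≤ δ * nv v w

theorem Cl.smul {a w : ι → ℂ} {δ : ℝ} (h : Cl v a δ w) (c : ℂ) : Cl v a δ (c • w) := by
  rw [Cl, dotProduct_smul, smul_eq_mul, map_mul, nv_smul, mul_left_comm]
  exact mul_le_mul_of_nonneg_left h (v.nonneg _)

theorem exists_max [Nonempty ι] (w : ι → ℂ) : ∃ i, ∀ j, v (w j) ≤ v (w i) := by
  obtain ⟨i, -, h⟩ := Finset.exists_max_image Finset.univ (fun i => v (w i)) Finset.univ_nonempty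
  exact ⟨i, fun j => h j (Finset.mem_univ j)⟩

/-- a nonzero vector has a multiple with entries of size at most one, one of them being one -/
theorem exists_norm {w : ι → ℂ} (hw : w ≠ 0) :
    ∃ c : ℂ, c ≠ 0 ∧ (∀ j, v ((c • w) j) ≤ 1) ∧ (∃ i, (c • w) i = 1) ∧ ∀ j, v (w j) ≤ v c⁻¹ := by
  obtain ⟨j0, hj0⟩ := Function.ne_iff.1 hw
  have : Nonempty ι := ⟨j0⟩
  obtain ⟨i, hi⟩ := exists_max v w
  have h1 : w i ≠ 0 := fun h => hj0 (by
    have := hi j0
    rw [h, v.map_zero] at this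
    exact v.eq_zero.1 (le_antisymm this (v.nonneg _)))
  refine ⟨(w i)⁻¹, inv_ne_zero h1, fun j => ?_, ⟨i, inv_mul_cancel₀ h1⟩, by simpa using hi⟩
  rw [Pi.smul_apply, smul_eq_mul, map_mul, map_inv₀]
  exact inv_mul_le_one_of_le₀ (hi j) (v.nonneg _)

variable [DecidableEq ι]

/-- north-south dynamics of a sequence unbounded in `PGL` -/
theorem dyn (A A' : ℕ → Matrix ι ι ℂ) (hA : ∀ k, A k * A' k = 1)
    (hu : ∀ k : ℕ, ∃ i j i' j', (k : ℝ) < v (A k i j * A' k i' j')) :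
    ∃ (ξ : Bool → ι → BS v) (δ : ℕ → ℝ), (∀ s, π v ∘ ξ s ≠ 0) ∧ Tendsto δ UU (𝓝 0) ∧
      ∀ k w, ¬Cl v (ev v k ∘ ξ false) (δ k) w → Cl v (ev v k ∘ ξ true) (δ k) (A k *ᵥ w) := by
  have h0 : ∀ k, (fun p : ι × ι => A k p.1 p.2) ≠ 0 := fun k h => by
    obtain ⟨i, j, i', j', h1⟩ := hu k
    rw [show A k i j = 0 from congrFun h (i, j), zero_mul, v.map_zero] at h1
    exact absurd h1 (not_lt.2 k.cast_nonneg)
  choose c hc0 hc1 hc2 hc3 using fun k => exists_norm v (h0 k)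
  let B : Matrix ι ι (BS v) := fun i j => ⟨fun k => c k * A k i j, 1, fun k => hc1 k (i, j)⟩
  have hB : ∀ k, B.map (ev v k) = c k • A k := fun k => rfl
  obtain ⟨⟨i0, j0⟩, h1⟩ := (Ultrafilter.eventually_exists_iff (f := hyperfilter ℕ)).1
    (Eventually.of_forall hc2)
  have h2 : B i0 j0 ∉ Nul v := (not_mem_Nul v).2 ⟨1, one_pos, by
    filter_upwards [h1] with k hk
    change 1 ≤ v ((c k • fun p : ι × ι => A k p.1 p.2) (i0, j0))
    rw [hk, v.map_one]⟩
  have h3 : B.det ∈ Nul v := by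
    choose C hC using fun p : ι × ι => (B.adjugate p.1 p.2).2
    have h4 : ∀ k : ℕ, v (B.det.1 k) * k ≤ ∑ p, |C p| := fun k => by
      obtain ⟨i, j, i', j', h4⟩ := hu k
      have h5 : (c k • A k).adjugate = ((c k • A k).det * (c k)⁻¹) • A' k := by
        have h6 : (c k • A k) * ((c k)⁻¹ • A' k) = 1 := by
          rw [smul_mul_smul_comm, mul_inv_cancel₀ (hc0 k), one_smul, hA]
        rw [← mul_one (adjugate _), ← h6, ← mul_assoc, adjugate_mul, smul_mul_smul_comm, one_mul]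
      have h6 : (B.adjugate i' j').1 k = B.det.1 k * (c k)⁻¹ * A' k i' j' := by
        have h7 := congrFun (congrFun ((ev v k).map_adjugate B) i') j'
        have h8 : ev v k B.det = (c k • A k).det := (ev v k).map_det B
        rw [RingHom.mapMatrix_apply, RingHom.mapMatrix_apply, hB, h5, ← h8] at h7
        exact h7
      have h7 := hC (i', j') k
      rw [h6, mul_assoc, map_mul] at h7
      refine le_trans (le_trans ?_ h7) ((le_abs_self _).trans (Finset.single_le_sum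
        (f := fun p => |C p|) (fun _ _ => abs_nonneg _) (Finset.mem_univ _)))
      refine mul_le_mul_of_nonneg_left (h4.le.trans ?_) (v.nonneg _)
      rw [map_mul, map_mul]
      exact mul_le_mul_of_nonneg_right (hc3 k (i, j)) (v.nonneg _)
    refine Tendsto.mono_left ?_ Nat.hyperfilter_le_atTop
    refine squeeze_zero' (Eventually.of_forall fun k => v.nonneg _) ?_
      (tendsto_const_div_atTop_nhds_zero_nat (∑ p, |C p|))
    filter_upwards [eventually_gt_atTop 0] with k hk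
    exact (le_div_iff₀ (Nat.cast_pos.2 hk)).2 (h4 k)
  obtain ⟨w, hw0, hw⟩ := (exists_vecMul_eq_zero_iff
    (M := B.map (Ideal.Quotient.mk (Nul v)))).2 (by
      rw [← RingHom.mapMatrix_apply, ← RingHom.map_det, Ideal.Quotient.eq_zero_iff_mem]
      exact h3)
  choose ξ hξ using fun i => Ideal.Quotient.mk_surjective (w i)
  have h4 : ∀ j, (ξ ᵥ* B) j ∈ Nul v := fun j => by
    rw [← Ideal.Quotient.eq_zero_iff_mem, RingHom.map_vecMul,
      show Ideal.Quotient.mk (Nul v) ∘ ξ = w from funext hξ, hw]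
    rfl
  let η : ℕ → ℝ := fun k => nv v fun j => ((ξ ᵥ* B) j).1 k
  have hη : Tendsto η UU (𝓝 0) := by
    have := tendsto_finsetSum Finset.univ fun j _ => h4 j
    rw [Finset.sum_const_zero] at this
    exact this
  refine ⟨fun s => cond s ξ (B i0), fun k => √(η k), fun s => ?_, by simpa using hη.sqrt,
    fun k u hu => ?_⟩
  · cases s
    · exact fun h => h2 ((π_eq_zero v).1 (congrFun h j0))
    · intro h
      refine hw0 (funext fun i => ?_)
      rw [← hξ, Pi.zero_apply, Ideal.Quotient.eq_zero_iff_mem, ← π_eq_zero]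
      exact congrFun h i
  · have h5 : A k *ᵥ u = (c k)⁻¹ • (B.map (ev v k) *ᵥ u) := by
      rw [hB, smul_mulVec, smul_smul, inv_mul_cancel₀ (hc0 k), one_smul]
    rw [h5]
    refine Cl.smul v ?_ _
    have h6 : √(η k) * nv v u ≤ nv v (B.map (ev v k) *ᵥ u) :=
      (not_le.1 hu).le.trans (le_nv v (B.map (ev v k) *ᵥ u) i0)
    rw [Cl, dotProduct_mulVec]
    refine (dot_le v _ _).trans ?_
    have h7 : nv v ((ev v k ∘ ξ) ᵥ* B.map (ev v k)) = √(η k) * √(η k) := by
      rw [Real.mul_self_sqrt (nv_nonneg v _)]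
      exact Finset.sum_congr rfl fun j _ => congrArg v (RingHom.map_vecMul _ B ξ j).symm
    change nv v ((ev v k ∘ ξ) ᵥ* B.map (ev v k)) * _ ≤ _
    rw [h7, mul_assoc]
    exact mul_le_mul_of_nonneg_left h6 (Real.sqrt_nonneg _)

/-- a vector is close to at most `d - 1` of the translated kernels -/
theorem count {G : Type*} (ρ : G → Matrix ι ι ℂ) (ξ : ι → BS v) {δ : ℕ → ℝ}
    (hδ : Tendsto δ UU (𝓝 0)) (Γ : Finset G)
    (hΓ : ∀ T ⊆ Γ, T.card ≤ Fintype.card ι →
      LinearIndepOn (κ v) (fun γ => (π v ∘ ξ) ᵥ* (ρ γ).map ((π v).comp (cst v))) (T : Set G)) :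
    ∀ᶠ k in UU, ∀ w ≠ 0, ∀ T ⊆ Γ, (∀ γ ∈ T, Cl v (ev v k ∘ ξ) (δ k) (ρ γ *ᵥ w)) →
      T.card < Fintype.card ι := by
  classical
  by_contra h
  rw [← Ultrafilter.eventually_not] at h
  have h1 : ∀ᶠ k in UU, ∃ T ∈ (Γ.powersetCard (Fintype.card ι) : Set (Finset G)), ∃ i, ∃ w : ι → ℂ,
      (∀ j, v (w j) ≤ 1) ∧ w i = 1 ∧ ∀ γ ∈ T, Cl v (ev v k ∘ ξ) (δ k) (ρ γ *ᵥ w) := by
    filter_upwards [h] with k hk
    push Not at hk
    obtain ⟨w, hw, T, hT, h1, h2⟩ := hk
    obtain ⟨T', h3, h4⟩ := Finset.exists_subset_card_eq h2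
    obtain ⟨c, -, h5, ⟨i, h6⟩, -⟩ := exists_norm v hw
    refine ⟨T', Finset.mem_powersetCard.2 ⟨h3.trans hT, h4⟩, i, c • w, h5, h6, fun γ hγ => ?_⟩
    rw [mulVec_smul]
    exact Cl.smul v (h1 γ (h3 hγ)) c
  obtain ⟨T, hT, h2⟩ := (Ultrafilter.eventually_exists_mem_iff (Finset.finite_toSet _)).1 h1
  obtain ⟨i, h3⟩ := Ultrafilter.eventually_exists_iff.1 h2
  obtain ⟨hT1, hT2⟩ := Finset.mem_powersetCard.1 hT
  have h4 : ∀ k, ∃ w : ι → ℂ, (∀ j, v (w j) ≤ 1) ∧ ((∃ w : ι → ℂ, (∀ j, v (w j) ≤ 1) ∧ w i = 1 ∧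
      ∀ γ ∈ T, Cl v (ev v k ∘ ξ) (δ k) (ρ γ *ᵥ w)) →
      w i = 1 ∧ ∀ γ ∈ T, Cl v (ev v k ∘ ξ) (δ k) (ρ γ *ᵥ w)) := fun k => by
    by_cases h4 : ∃ w : ι → ℂ, (∀ j, v (w j) ≤ 1) ∧ w i = 1 ∧
      ∀ γ ∈ T, Cl v (ev v k ∘ ξ) (δ k) (ρ γ *ᵥ w)
    · obtain ⟨w, h5, h6⟩ := h4
      exact ⟨w, h5, fun _ => h6⟩
    · exact ⟨0, by simp, fun h5 => absurd h5 h4⟩
  choose w hw1 hw2 using h4
  let u : ι → BS v := fun j => ⟨fun k => w k j, 1, fun k => hw1 k j⟩
  have h5 : π v ∘ u = 0 := by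
    refine eq_zero_of_gp (hΓ T hT1 hT2.le) hT2 fun γ hγ => ?_
    have h5 : (ρ γ).map ((π v).comp (cst v)) = ((ρ γ).map (cst v)).map (π v) := rfl
    have h6 : (π v ∘ ξ) ᵥ* ((ρ γ).map (cst v)).map (π v) = π v ∘ (ξ ᵥ* (ρ γ).map (cst v)) :=
      funext fun j => (RingHom.map_vecMul _ _ _ j).symm
    simp only [h5, h6]
    rw [← RingHom.map_dotProduct, π_eq_zero, ← dotProduct_mulVec, mem_Nul]
    refine squeeze_zero' (g := fun k => |δ k| * ((∑ i, nv v (ρ γ i)) * Fintype.card ι))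
      (Eventually.of_forall fun k => v.nonneg _) ?_ (by simpa using hδ.abs.mul_const _)
    filter_upwards [h3] with k hk
    have h7 := (hw2 k hk).2 γ hγ
    have h8 : (ξ ⬝ᵥ (ρ γ).map (cst v) *ᵥ u).1 k = (ev v k ∘ ξ) ⬝ᵥ ρ γ *ᵥ w k := by
      rw [← ev_apply, RingHom.map_dotProduct]
      congr 1
      exact funext fun j => RingHom.map_mulVec _ _ _ j
    rw [h8]
    refine h7.trans (mul_le_mul (le_abs_self _) ((nv_mulVec_le v _ _).trans ?_) (nv_nonneg v _)
      (abs_nonneg _))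
    refine mul_le_mul_of_nonneg_left ?_ (Finset.sum_nonneg fun _ _ => nv_nonneg v _)
    exact (Finset.sum_le_card_nsmul _ _ 1 fun j _ => hw1 k j).trans (by simp)
  refine (not_mem_Nul v).2 ⟨1, one_pos, ?_⟩ ((π_eq_zero v).1 (congrFun h5 i))
  filter_upwards [h3] with k hk
  change 1 ≤ v (w k i)
  rw [(hw2 k hk).1, v.map_one]

end Fur

open Fur in
/-- **Furstenberg lemma.** A sequence with pairwise distinct images in `PGL` of a strongly
irreducible representation has conjugates which do not almost fix a common probability. -/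
theorem fur {G ι : Type*} [Group G] [Fintype ι] [DecidableEq ι] {K : Subgroup G}
    {ρ : G → Matrix ι ι ℂ} (hρ : RepOn K ρ) (hS : SSp K ρ)
    (hT : ∃ T : Finset ℂ, ∀ g ∈ K, ∀ i j, ρ g i j ∈ Subring.closure (T : Set ℂ))
    (a : ℕ → G) (ha : ∀ k, a k ∈ K) (hinf : ∀ k l, k ≠ l → ∀ c : ℂ, ρ (a k) ≠ c • ρ (a l))
    {c0 : ℝ} (hc0 : 0 < c0) :
    ∃ Γ : Finset G, (∀ γ ∈ Γ, γ ∈ K) ∧ ∃ᶠ k in atTop, ∀ p, IsProb p →
      ∃ γ ∈ Γ, 2 - c0 < l1 (p.mapDomain (fun g => γ⁻¹ * a k * γ * g) - p) := by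
  classical
  obtain ⟨T, hT⟩ := hT
  have hne : ∀ g ∈ K, ∃ p : ι × ι, ρ g p.1 p.2 ≠ 0 := fun g hg => by
    by_contra h
    push Not at h
    have h1 : ρ g = 0 := by ext i j; exact h (i, j)
    have h2 := hρ.mul_inv hg
    rw [h1, zero_mul] at h2
    refine hinf 0 1 zero_ne_one 1 ?_
    rw [← mul_one (ρ (a 0)), ← mul_one (ρ (a 1)), ← h2, mul_zero, mul_zero, smul_zero]
  have hd : 1 < Fintype.card ι := by
    by_contra h
    have : Subsingleton ι := Fintype.card_le_one_iff_subsingleton.1 (not_lt.1 h)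
    obtain ⟨⟨i, j⟩, h1⟩ := hne _ (ha 1)
    refine hinf 0 1 zero_ne_one (ρ (a 0) i j / ρ (a 1) i j) ?_
    ext i' j'
    rw [Subsingleton.elim i' i, Subsingleton.elim j' j, Matrix.smul_apply, smul_eq_mul,
      div_mul_cancel₀ _ h1]
  let f : ℕ → (ι × ι) × ι × ι → ℂ := fun k q => ρ (a k) q.1.1 q.1.2 * ρ (a k)⁻¹ q.2.1 q.2.2
  have hf : Function.Injective f := fun k l h => by
    by_contra hkl
    obtain ⟨q, hq⟩ := hne _ (K.inv_mem (ha k))
    refine hinf k l hkl (ρ (a l)⁻¹ q.1 q.2 / ρ (a k)⁻¹ q.1 q.2) ?_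
    ext i j
    have h1 : ρ (a k) i j * _ = ρ (a l) i j * _ := congrFun h ((i, j), q)
    rw [Matrix.smul_apply, smul_eq_mul, div_mul_eq_mul_div, eq_div_iff hq, h1, mul_comm]
  obtain ⟨v, hv⟩ : ∃ v : AbsoluteValue ℂ ℝ, ∀ C, ∃ k q, C < v (f k q) := by
    by_contra h
    push Not at h
    have h1 := BG.finite_of_bd T (S := {x | ∃ k q, f k q = x}) (by
      rintro _ ⟨k, q, rfl⟩
      exact Subring.mul_mem _ (hT _ (ha k) _ _) (hT _ (K.inv_mem (ha k)) _ _)) fun v => by
        obtain ⟨C, hC⟩ := h v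
        exact ⟨C, by rintro _ ⟨k, q, rfl⟩; exact hC k q⟩
    exact Set.infinite_range_of_injective hf ((Set.Finite.pi' fun _ => h1).subset (by
      rintro _ ⟨k, rfl⟩ q
      exact ⟨k, q, rfl⟩))
  have hφ : ∀ n : ℕ, ∃ k, n ≤ k ∧ ∃ q, (n : ℝ) < v (f k q) := fun n => by
    obtain ⟨k, q, h⟩ := hv (n + ∑ k ∈ Finset.range n, nv v (f k))
    have h1 : 0 ≤ ∑ k ∈ Finset.range n, nv v (f k) := Finset.sum_nonneg fun _ _ => nv_nonneg v _
    refine ⟨k, not_lt.1 fun h2 => ?_, q, by linarith⟩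
    have h3 := (le_nv v (f k) q).trans (Finset.single_le_sum (f := fun k => nv v (f k))
      (fun _ _ => nv_nonneg v _) (Finset.mem_range.2 h2))
    linarith [(n.cast_nonneg : (0 : ℝ) ≤ n)]
  choose φ hφ1 hφ2 using hφ
  obtain ⟨ξ, δ, hξ, hδ, hdyn⟩ := dyn v (fun n => ρ (a (φ n))) (fun n => ρ (a (φ n))⁻¹)
    (fun n => hρ.mul_inv (ha _)) fun n => by
      obtain ⟨q, hq⟩ := hφ2 n
      exact ⟨_, _, _, _, hq⟩
  obtain ⟨Γ, hΓ1, hΓ2, hΓ3⟩ := exists_gp (hρ.comp ((π v).comp (cst v)).mapMatrix.toMonoidHom)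
    (hS.sir _) hd (fun s => π v ∘ ξ s) hξ ⌈4 * Fintype.card ι / c0⌉₊
  refine ⟨Γ, hΓ2, frequently_atTop.2 fun M => ?_⟩
  obtain ⟨n, ⟨h1, h2⟩, h3⟩ := (((count v ρ (ξ false) hδ Γ (hΓ3 false)).and
    (count v ρ (ξ true) hδ Γ (hΓ3 true))).and
    ((eventually_ge_atTop M).filter_mono Nat.hyperfilter_le_atTop)).exists
  refine ⟨φ n, h3.trans (hφ1 n), fun p hp => ?_⟩
  by_contra h4
  push Not at h4
  obtain ⟨r, hr1, hr2⟩ := exists_retr K
  obtain ⟨i0⟩ : Nonempty ι := Fintype.card_pos_iff.1 (by omega)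
  let u : G → ι → ℂ := fun g => ρ (r g) *ᵥ Pi.single i0 1
  have hu : ∀ g, u g ≠ 0 := fun g h => by
    have h5 := congrArg (fun w => (ρ (r g)⁻¹ *ᵥ w) i0) h
    simp only [u, mulVec_mulVec, hρ.inv_mul (hr1 g)] at h5
    simp at h5
  let E : Bool → G → G → Prop := fun s γ g => Cl v (ev v n ∘ ξ s) (δ n) (ρ γ *ᵥ u g)
  have h5 : ∀ γ ∈ Γ, c0 / 2 ≤ lc (fun g => if E false γ g then 1 else 0) p +
      lc (fun g => if E true γ g then 1 else 0) p := fun γ hγ => by
    have h5 := pingpong hp (b := fun g => γ⁻¹ * a (φ n) * γ * g) (A := E false γ) (B := E true γ)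
      fun g hg => by
        have h6 := hdyn n _ hg
        have hγ' := hΓ2 γ hγ
        have h7 := K.mul_mem (K.mul_mem (K.inv_mem hγ') (ha (φ n))) hγ'
        simp only [E, u, mulVec_mulVec] at h6 ⊢
        rwa [hr2 _ h7, ← hρ.mul _ hγ' _ (K.mul_mem h7 (hr1 g)),
          show γ * (γ⁻¹ * a (φ n) * γ * r g) = a (φ n) * (γ * r g) by group,
          hρ.mul _ (ha _) _ (K.mul_mem hγ' (hr1 g)), hρ.mul _ hγ' _ (hr1 g)]
    linarith [h4 γ hγ]
  have h6 : ∀ s, (∀ w ≠ 0, ∀ T ⊆ Γ, (∀ γ ∈ T, Cl v (ev v n ∘ ξ s) (δ n) (ρ γ *ᵥ w)) →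
      T.card < Fintype.card ι) →
      ∑ γ ∈ Γ, lc (fun g => if E s γ g then 1 else 0) p ≤ Fintype.card ι - 1 := fun s h => by
    rw [← lc_sum, ← lc_const hp (Fintype.card ι - 1)]
    refine lc_mono hp fun g => ?_
    rw [Finset.sum_boole]
    have h6 := h (u g) (hu g) (Γ.filter fun γ => E s γ g) (Finset.filter_subset _ _)
      fun γ hγ => (Finset.mem_filter.1 hγ).2
    have h7 : (((Γ.filter fun γ => E s γ g).card + 1 : ℕ) : ℝ) ≤ Fintype.card ι := by
      exact_mod_cast h6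
    push_cast at h7
    linarith
  have h7 := Finset.sum_le_sum h5
  rw [Finset.sum_add_distrib, Finset.sum_const, hΓ1, nsmul_eq_mul] at h7
  have h8 := (div_le_iff₀ hc0).1 (Nat.le_ceil (4 * Fintype.card ι / c0))
  linarith [h6 false h1, h6 true h2]

end Crest.Agent.X261.Grp
end
end

-- ▼ part X261/Grp/Tits

/-!
# Row 261, package GRP (helper85): weak Tits alternatives
-/

set_option autoImplicit false

noncomputable section

namespace Crest.Agent.X261.Grp

open Module Filter Topology Crest.Agent.R189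

universe u

variable {G : Type*} [Group G]

/-- Burnside's theorem -/
theorem burnside {V : Type*} [AddCommGroup V] [Module ℂ V] [FiniteDimensional ℂ V]
    [Nontrivial V] (A : Subalgebra ℂ (End ℂ V))
    (hA : ∀ W : Submodule ℂ V, (∀ a ∈ A, W ≤ W.comap a) → W = ⊥ ∨ W = ⊤) : A = ⊤ := by
  have hsimple : IsSimpleModule A V := by
    rw [isSimpleModule_iff]
    refine { exists_pair_ne := ⟨⊥, ⊤, bot_ne_top⟩, eq_bot_or_eq_top := fun W => ?_ }
    rcases hA (W.restrictScalars ℂ) (fun a ha w hw => W.smul_mem (⟨a, ha⟩ : A) hw) with h | h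
    · exact Or.inl (Submodule.restrictScalars_eq_bot_iff ℂ A V |>.1 h)
    · exact Or.inr (Submodule.restrictScalars_eq_top_iff ℂ A V |>.1 h)
  classical
  have hbij := IsSimpleModule.algebraMap_end_bijective_of_isAlgClosed (A := A) (V := V) ℂ
  rw [eq_top_iff]
  intro f _
  let f' : End (End A V) V :=
    { toFun := f
      map_add' := map_add f
      map_smul' := by
        intro φ v
        obtain ⟨c, rfl⟩ := hbij.2 φ
        simp only [Module.algebraMap_end_eq_smul_id]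
        exact map_smul f c v }
  let b := Module.finBasis ℂ V
  obtain ⟨r, hr⟩ := jacobson_density (R := A) f' (Finset.univ.image b)
  have : f = (r : End ℂ V) := b.ext fun i => hr (b i) (by simp)
  rw [this]
  exact r.2

/-- the image of `K` under `ρ` is virtually solvable -/
def VSr {A : Type*} [Monoid A] (K : Subgroup G) (ρ : G → A) : Prop :=
  ∃ K', FI K' K ∧ ∃ n, ∀ x ∈ dser n K', ρ x = 1

theorem VSr.vsm {A : Type*} [Monoid A] {K : Subgroup G} {ρ : G →* A} (h : VSr K ρ) :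
    VSm (RepOn.of_hom ρ ⊤).ker K := by
  obtain ⟨K', h1, n, h2⟩ := h
  exact ⟨K', h1, n, fun x hx => ⟨trivial, h2 x hx⟩⟩

/-- virtually solvable image, or a strongly irreducible subquotient of dimension `> 1` -/
theorem struct (n : ℕ) : ∀ (V : Type u) [AddCommGroup V] [Module ℂ V] [FiniteDimensional ℂ V],
    finrank ℂ V ≤ n → ∀ (K : Subgroup G) (ρ : G → End ℂ V), RepOn K ρ →
    VSr K ρ ∨ ∃ K', FI K' K ∧ ∃ d, 1 < d ∧ ∃ Λ : End ℂ V →ₗ[ℂ] Matrix (Fin d) (Fin d) ℂ,
      RepOn K' (fun g => Λ (ρ g)) ∧ SSp K' fun g => Λ (ρ g) := by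
  induction n with
  | zero =>
    intro V _ _ _ hV K ρ hρ
    have : Subsingleton V := Module.finrank_zero_iff.1 (Nat.le_zero.1 hV)
    exact Or.inl ⟨K, FI.refl K, 0, fun x _ => Subsingleton.elim _ _⟩
  | succ n ih =>
    intro V _ _ _ hV K ρ hρ
    by_cases h1 : finrank ℂ V ≤ 1
    · obtain ⟨v, hv⟩ := finrank_le_one_iff.1 h1
      refine Or.inl ⟨K, FI.refl K, 1, fun x hx => ?_⟩
      refine ((Subgroup.commutator_le (H₃ := hρ.ker)).2 (fun a ha b hb => ?_) hx).2
      refine hρ.comm_mem_ker ha hb (LinearMap.ext fun w => ?_)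
      obtain ⟨c, rfl⟩ := hv w
      obtain ⟨c1, h2⟩ := hv (ρ a v)
      obtain ⟨c2, h3⟩ := hv (ρ b v)
      simp only [End.mul_apply, map_smul, ← h2, ← h3, smul_smul, mul_comm]
    by_cases h2 : ∀ K', FI K' K → ∀ W : Submodule ℂ V, (∀ x ∈ K', W ≤ W.comap (ρ x)) →
        W = ⊥ ∨ W = ⊤
    · let e := LinearMap.toMatrixAlgEquiv (Module.finBasis ℂ V)
      have : Nontrivial V := Module.nontrivial_of_finrank_pos (R := ℂ) (by omega)
      refine Or.inr ⟨K, FI.refl K, finrank ℂ V, not_le.1 h1, e.toLinearMap,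
        hρ.comp e.toRingHom.toMonoidHom, fun K' hK' => ?_⟩
      have h3 := burnside (Algebra.adjoin ℂ (ρ '' K')) fun W hW =>
        h2 K' hK' W fun x hx => hW _ (Algebra.subset_adjoin ⟨x, hx, rfl⟩)
      have h4 : Submodule.span ℂ (ρ '' K') = ⊤ := by
        rw [eq_top_iff, ← Algebra.top_toSubmodule, ← h3, Algebra.adjoin_eq_span]
        refine Submodule.span_mono fun T hT => ?_
        induction hT using Submonoid.closure_induction with
        | mem T hT => exact hT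
        | one => exact ⟨1, K'.one_mem, hρ.one⟩
        | mul _ _ _ _ ha hb =>
          obtain ⟨a, ha, rfl⟩ := ha
          obtain ⟨b, hb, rfl⟩ := hb
          exact ⟨a * b, K'.mul_mem ha hb, hρ.mul a (hK'.le ha) b (hK'.le hb)⟩
      rw [show (fun g => e.toLinearMap (ρ g)) '' K' = e.toLinearMap '' (ρ '' K') from
        (Set.image_image _ _ _).symm, ← Submodule.map_span, h4, Submodule.map_top,
        LinearMap.range_eq_top]
      exact e.surjective
    push Not at h2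
    obtain ⟨K', hK', W, hW, hW0, hW1⟩ := h2
    have hρ' := hρ.mono hK'.le
    obtain ⟨p, hp⟩ := W.subtype.exists_leftInverse_of_injective W.ker_subtype
    obtain ⟨s, hs⟩ := W.mkQ.exists_rightInverse_of_surjective W.range_mkQ
    have hp' : ∀ w ∈ W, (p w : V) = w := fun w hw =>
      congrArg Subtype.val (LinearMap.congr_fun hp ⟨w, hw⟩)
    have hs' : ∀ y, s (W.mkQ y) - y ∈ W := fun y =>
      (Submodule.Quotient.eq W).1 (LinearMap.congr_fun hs (W.mkQ y))
    let Λ1 : End ℂ V →ₗ[ℂ] End ℂ W :=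
      { toFun := fun T => p ∘ₗ T ∘ₗ W.subtype
        map_add' := fun T T' => by ext; simp
        map_smul' := fun c T => by ext; simp }
    let Λ2 : End ℂ V →ₗ[ℂ] End ℂ (V ⧸ W) :=
      { toFun := fun T => W.mkQ ∘ₗ T ∘ₗ s
        map_add' := fun T T' => LinearMap.ext fun q => by simp
        map_smul' := fun c T => LinearMap.ext fun q => by simp }
    have h3 : ∀ x ∈ K', ∀ w : W, (Λ1 (ρ x) w : V) = ρ x w := fun x hx w => hp' _ (hW x hx w.2)
    have h4 : ∀ x ∈ K', ∀ y, Λ2 (ρ x) (W.mkQ y) = W.mkQ (ρ x y) := fun x hx y =>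
      (Submodule.Quotient.eq W).2 (by
        change ρ x (s (W.mkQ y)) - ρ x y ∈ W
        rw [← map_sub]; exact hW x hx (hs' y))
    have hr1 : RepOn K' fun g => Λ1 (ρ g) := by
      refine ⟨LinearMap.ext fun w => Subtype.ext ?_, fun a ha b hb =>
        LinearMap.ext fun w => Subtype.ext ?_⟩
      · rw [h3 1 K'.one_mem, hρ.one]; rfl
      · rw [End.mul_apply, h3 _ (K'.mul_mem ha hb), h3 a ha, h3 b hb, hρ'.mul a ha b hb]; rfl
    have hr2 : RepOn K' fun g => Λ2 (ρ g) := by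
      refine ⟨LinearMap.ext fun q => ?_, fun a ha b hb => LinearMap.ext fun q => ?_⟩ <;>
        obtain ⟨y, rfl⟩ := W.mkQ_surjective q
      · rw [h4 1 K'.one_mem, hρ.one]; rfl
      · rw [End.mul_apply, h4 _ (K'.mul_mem ha hb), h4 b hb, h4 a ha, hρ'.mul a ha b hb]; rfl
    have h5 := W.finrank_quotient_add_finrank
    have h6 := Submodule.finrank_lt hW1
    have h7 : 0 < finrank ℂ W := by
      rw [pos_iff_ne_zero, Ne, Submodule.finrank_eq_zero]; exact hW0
    rcases ih W (by omega) K' _ hr1 with ⟨K1, hK1, n1, h8⟩ | ⟨K1, hK1, d, hd, Λ, h8⟩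
    swap
    · exact Or.inr ⟨K1, hK1.trans hK', d, hd, Λ ∘ₗ Λ1, h8⟩
    rcases ih (V ⧸ W) (by omega) K' _ hr2 with ⟨K2, hK2, n2, h9⟩ | ⟨K2, hK2, d, hd, Λ, h9⟩
    swap
    · exact Or.inr ⟨K2, hK2.trans hK', d, hd, Λ ∘ₗ Λ2, h9⟩
    refine Or.inl ⟨K1 ⊓ K2, (hK1.inf hK2).trans hK', max n1 n2 + 1, fun x hx => ?_⟩
    have h10 : ∀ a ∈ dser (max n1 n2) (K1 ⊓ K2), a ∈ K' ∧ (∀ w ∈ W, ρ a w = w) ∧
        ∀ y, ρ a y - y ∈ W := fun a ha => by
      have h10 : a ∈ K' := (hK1.inf hK2).le (dser_le _ _ ha)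
      refine ⟨h10, fun w hw => ?_, fun y => ?_⟩
      · have h11 : Λ1 (ρ a) = 1 :=
          h8 a (dser_mono _ inf_le_left (dser_anti _ (le_max_left _ _) ha))
        have h12 := h3 a h10 ⟨w, hw⟩
        rw [h11] at h12
        exact h12.symm
      · have h11 : Λ2 (ρ a) = 1 :=
          h9 a (dser_mono _ inf_le_right (dser_anti _ (le_max_right _ _) ha))
        have h12 := h4 a h10 y
        rw [h11] at h12
        exact (Submodule.Quotient.eq W).1 h12.symm
    refine ((Subgroup.commutator_le (H₃ := hρ'.ker)).2 (fun a ha b hb => ?_) hx).2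
    obtain ⟨ha1, ha2, ha3⟩ := h10 a ha
    obtain ⟨hb1, hb2, hb3⟩ := h10 b hb
    refine hρ'.comm_mem_ker ha1 hb1 (LinearMap.ext fun y => ?_)
    have h11 := ha2 _ (hb3 y)
    have h12 := hb2 _ (ha3 y)
    rw [map_sub, sub_eq_iff_eq_add] at h11 h12
    rw [End.mul_apply, End.mul_apply, h11, h12]
    abel

section Mat

variable {ι : Type} [Fintype ι] [DecidableEq ι]

theorem exists_entries [Group.FG G] (ρ : G →* Matrix ι ι ℂ) :
    ∃ T : Finset ℂ, ∀ g i j, ρ g i j ∈ Subring.closure (T : Set ℂ) := by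
  classical
  obtain ⟨S, hS, hfin⟩ := Monoid.fg_iff.1 (Group.fg_iff_monoid_fg.1 ‹Group.FG G›)
  refine ⟨(hfin.toFinset ×ˢ Finset.univ).image fun p : G × ι × ι => ρ p.1 p.2.1 p.2.2,
    fun g => ?_⟩
  have hg : g ∈ Submonoid.closure S := hS ▸ Submonoid.mem_top g
  induction hg using Submonoid.closure_induction with
  | mem g hg =>
    exact fun i j => Subring.subset_closure (Finset.mem_coe.2 (Finset.mem_image.2
      ⟨(g, i, j), Finset.mem_product.2 ⟨hfin.mem_toFinset.2 hg, Finset.mem_univ _⟩, rfl⟩))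
  | one =>
    intro i j
    rw [map_one, Matrix.one_apply]
    split_ifs
    exacts [Subring.one_mem _, Subring.zero_mem _]
  | mul a b _ _ ha hb =>
    intro i j
    rw [map_mul, Matrix.mul_apply]
    exact Subring.sum_mem _ fun l _ => Subring.mul_mem _ (ha i l) (hb l j)

/-- matrix form of `struct`, with the finitely generated ring of entries -/
theorem struct_mat [Group.FG G] (ρ : G →* Matrix ι ι ℂ) (K : Subgroup G) :
    VSr K ρ ∨ ∃ K', FI K' K ∧ ∃ d, 1 < d ∧ ∃ Λ : Matrix ι ι ℂ →ₗ[ℂ] Matrix (Fin d) (Fin d) ℂ,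
      RepOn K' (fun g => Λ (ρ g)) ∧ SSp K' (fun g => Λ (ρ g)) ∧
      ∃ T : Finset ℂ, ∀ g ∈ K', ∀ i j, Λ (ρ g) i j ∈ Subring.closure (T : Set ℂ) := by
  classical
  let e : Matrix ι ι ℂ ≃ₐ[ℂ] End ℂ (ι → ℂ) := Matrix.toLinAlgEquiv'
  rcases struct _ (ι → ℂ) le_rfl K _ ((RepOn.of_hom ρ K).comp e.toRingHom.toMonoidHom) with
    ⟨K', hK', n, h⟩ | ⟨K', hK', d, hd, Λ, h1, h2⟩
  · exact Or.inl ⟨K', hK', n, fun x hx => e.injective ((h x hx).trans (map_one e).symm)⟩
  obtain ⟨T, hT⟩ := exists_entries ρ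
  let Λ' := Λ ∘ₗ e.toLinearMap
  refine Or.inr ⟨K', hK', d, hd, Λ', h1, h2, T ∪ Finset.univ.image
    fun p : (ι × ι) × Fin d × Fin d => Λ' (Matrix.single p.1.1 p.1.2 1) p.2.1 p.2.2,
    fun g _ i j => ?_⟩
  have h3 : ρ g = ∑ k, ∑ l, ρ g k l • Matrix.single k l (1 : ℂ) := by
    conv_lhs => rw [Matrix.matrix_eq_sum_single (ρ g)]
    simp
  rw [h3]
  simp only [map_sum, map_smul, Matrix.sum_apply, Matrix.smul_apply, smul_eq_mul]
  refine Subring.sum_mem _ fun k _ => Subring.sum_mem _ fun l _ => Subring.mul_mem _ ?_ ?_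
  · exact Subring.closure_mono (by simp) (hT g k l)
  · exact Subring.subset_closure (Finset.mem_coe.2 (Finset.mem_union_right _
      (Finset.mem_image.2 ⟨((k, l), i, j), Finset.mem_univ _, rfl⟩)))

/-- the elements acting by scalars -/
def scal {K : Subgroup G} {ρ : G → Matrix ι ι ℂ} (hρ : RepOn K ρ) : Subgroup G where
  carrier := {g | g ∈ K ∧ ∃ c : ℂ, ρ g = c • 1}
  one_mem' := ⟨K.one_mem, 1, by rw [hρ.one, one_smul]⟩
  mul_mem' := by
    rintro a b ⟨ha, c, hc⟩ ⟨hb, c', hc'⟩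
    exact ⟨K.mul_mem ha hb, c * c', by rw [hρ.mul a ha b hb, hc, hc', smul_mul_smul_comm, one_mul]⟩
  inv_mem' := by
    rintro a ⟨ha, c, hc⟩
    have h := hρ.mul_inv ha
    rw [hc, smul_mul_assoc, one_mul] at h
    refine ⟨K.inv_mem ha, c⁻¹, ?_⟩
    by_cases h0 : c = 0
    · rw [h0, zero_smul] at h
      rw [← mul_one (ρ a⁻¹), ← h, mul_zero, smul_zero]
    · rw [← h, smul_smul, inv_mul_cancel₀ h0, one_smul]

theorem not_fi_scal {K : Subgroup G} {d : ℕ} (hd : 1 < d) {ρ : G → Matrix (Fin d) (Fin d) ℂ}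
    (hρ : RepOn K ρ) (hS : SSp K ρ) : ¬FI (scal hρ) K := fun h => by
  have h1 : Submodule.span ℂ (ρ '' scal hρ) ≤ Submodule.span ℂ {1} :=
    Submodule.span_le.2 (by
      rintro _ ⟨g, ⟨-, c, hc⟩, rfl⟩
      exact Submodule.mem_span_singleton.2 ⟨c, hc.symm⟩)
  rw [hS _ h] at h1
  obtain ⟨c, hc⟩ := Submodule.mem_span_singleton.1
    (h1 (Submodule.mem_top (x := Matrix.single ⟨0, by omega⟩ ⟨1, hd⟩ 1)))
  have h2 := congrFun (congrFun hc ⟨0, by omega⟩) ⟨1, hd⟩
  simp at h2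

theorem mem_scal {K : Subgroup G} {ρ : G → Matrix ι ι ℂ} (hρ : RepOn K ρ) {a b : G} (ha : a ∈ K)
    (hb : b ∈ K) {c : ℂ} (h : ρ a = c • ρ b) : b⁻¹ * a ∈ scal hρ :=
  ⟨K.mul_mem (K.inv_mem hb) ha, c, by
    rw [hρ.mul _ (K.inv_mem hb) _ ha, h, mul_smul_comm, hρ.inv_mul hb]⟩

end Mat

/-- weak overlap: finitely many elements of `A` have a common probability with overlap `c0` -/
def WO (c0 : ℝ) (A : Set G) : Prop :=
  ∀ F : Finset G, (∀ g ∈ F, g ∈ A) →
    ∃ p, IsProb p ∧ ∀ g ∈ F, l1 (p.mapDomain (fun x => g * x) - p) ≤ 2 - c0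

theorem WO.mono {c0 : ℝ} {A B : Set G} (h : WO c0 A) (hB : B ⊆ A) : WO c0 B :=
  fun F hF => h F fun g hg => hB (hF g hg)

theorem exists_prob_of_amen {K : Subgroup G} (hK : Amen K) (F : Finset G) (hF : ∀ g ∈ F, g ∈ K)
    {ε : ℝ} (hε : 0 < ε) :
    ∃ p, IsProb p ∧ ∀ g ∈ F, l1 (p.mapDomain (fun x => g * x) - p) < ε := by
  classical
  obtain ⟨p, hp, hp2⟩ := hK (F.attach.image fun g : {x // x ∈ F} => (⟨g.1, hF g.1 g.2⟩ : K)) ε hε
  refine ⟨p.mapDomain fun x : K => (x : G), hp.map _, fun g hg => ?_⟩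
  have e : (p.mapDomain fun x : K => (x : G)).mapDomain (fun x => g * x)
      - p.mapDomain (fun x : K => (x : G))
      = (p.mapDomain (fun x : K => (⟨g, hF g hg⟩ : K) * x) - p).mapDomain
        fun x : K => (x : G) := by
    rw [mapDomain_sub, ← Finsupp.mapDomain_comp, ← Finsupp.mapDomain_comp]
    rfl
  rw [e]
  exact (l1_mapDomain_le _ _).trans_lt
    (hp2 _ (Finset.mem_image.2 ⟨⟨g, hg⟩, Finset.mem_attach _ _, rfl⟩))

theorem wo_of_amen {K : Subgroup G} (hK : Amen K) : WO 1 (K : Set G) := fun F hF => by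
  obtain ⟨p, hp, h⟩ := exists_prob_of_amen hK F hF one_pos
  exact ⟨p, hp, fun g hg => (h g hg).le.trans (by norm_num)⟩

variable {ι : Type} [Fintype ι] [DecidableEq ι]

/-- **weak Tits alternative**: weak overlap on a subgroup forces virtually solvable image -/
theorem vsr_of_wo [Group.FG G] (ρ : G →* Matrix ι ι ℂ) {K : Subgroup G} {c0 : ℝ} (hc0 : 0 < c0)
    (hK : WO c0 (K : Set G)) : VSr K ρ := by
  classical
  rcases struct_mat ρ K with h | ⟨K', hK', d, hd, Λ, h1, h2, h3⟩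
  · exact h
  exfalso
  have : Infinite (K' ⧸ (scal h1).subgroupOf K') := by
    by_contra h4
    rw [not_infinite_iff_finite] at h4
    exact not_fi_scal hd h1 h2 ⟨fun _ h => h.1, Subgroup.index_ne_zero_of_finite⟩
  let q := Infinite.natEmbedding (K' ⧸ (scal h1).subgroupOf K')
  obtain ⟨Γ, hΓ, h4⟩ := fur h1 h2 h3 (fun k => ((q k).out : G)) (fun k => (q k).out.2)
    (fun k l hkl c h => hkl (q.injective (by
      rw [← QuotientGroup.out_eq' (q k), ← QuotientGroup.out_eq' (q l), eq_comm, QuotientGroup.eq]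
      exact mem_scal h1 (q k).out.2 (q l).out.2 h))) hc0
  obtain ⟨k, hk⟩ := h4.exists
  obtain ⟨p, hp, h5⟩ := hK (Γ.image fun γ => γ⁻¹ * (q k).out * γ) fun g hg => by
    obtain ⟨γ, hγ, rfl⟩ := Finset.mem_image.1 hg
    exact hK'.le (K'.mul_mem (K'.mul_mem (K'.inv_mem (hΓ γ hγ)) (q k).out.2) (hΓ γ hγ))
  obtain ⟨γ, hγ, h6⟩ := hk p hp
  exact absurd (h5 _ (Finset.mem_image_of_mem _ hγ)) (not_le.2 h6)

/-- **TITS-A**: amenable subgroups of finitely generated groups have virtually solvable images -/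
theorem vsr_of_amen [Group.FG G] (ρ : G →* Matrix ι ι ℂ) {K : Subgroup G} (hK : Amen K) :
    VSr K ρ := vsr_of_wo ρ one_pos (wo_of_amen hK)

/-- a linear representation of an amenable, not virtually indicable group has finite image -/
theorem finite_of_not_vind [Group.FG G] (ρ : G →* Matrix ι ι ℂ) {K : Subgroup G} (hK : Amen K)
    (hfg : K.FG) (h : ¬VInd K) : ∃ K', FI K' K ∧ ∀ x ∈ K', ρ x = 1 := by
  by_contra h1
  exact h ((vsr_of_amen ρ hK).vsm.vind hfg fun h2 => h1 ⟨_, h2, fun x hx => hx.1.2⟩)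

/-- the same for a representation of the subgroup on a finite dimensional space -/
theorem finite_of_not_vind' {V : Type*} [AddCommGroup V] [Module ℂ V] [FiniteDimensional ℂ V]
    {K : Subgroup G} {ρ : G → End ℂ V} (hρ : RepOn K ρ) (hK : Amen K) (hfg : K.FG)
    (h : ¬VInd K) : ∃ K', FI K' K ∧ ∀ x ∈ K', ρ x = 1 := by
  classical
  have : Group.FG K := (Group.fg_iff_subgroup_fg K).2 hfg
  let e := LinearMap.toMatrixAlgEquiv (Module.finBasis ℂ V)
  let ρ' : K →* Matrix _ _ ℂ :=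
    { toFun := fun x => e (ρ x)
      map_one' := by rw [Subgroup.coe_one, hρ.one, map_one]
      map_mul' := fun x y => by rw [Subgroup.coe_mul, hρ.mul _ x.2 _ y.2, map_mul] }
  have htop : (⊤ : Subgroup K).map K.subtype = K := by
    rw [← MonoidHom.range_eq_map, Subgroup.range_subtype]
  obtain ⟨K', h1, h2⟩ := finite_of_not_vind ρ' (amen_top_iff.2 hK) (Group.fg_def.1 this) (by
    rintro ⟨L, h1, b, h2, x, hx, h3⟩
    refine h ⟨L.map K.subtype, by have := h1.map K.subtype; rwa [htop] at this,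
      fun g => if hg : g ∈ K then b ⟨g, hg⟩ else 0, ?_, x, ⟨x, hx, rfl⟩, by simpa using h3⟩
    rintro _ ⟨y, hy, rfl⟩ _ ⟨z, hz, rfl⟩
    have h5 : ∀ w : K, (if hg : (w : G) ∈ K then b ⟨w, hg⟩ else 0) = b w := fun w => dif_pos w.2
    exact (h5 (y * z)).trans ((h2 y hy z hz).trans (congrArg₂ (· + ·) (h5 y) (h5 z)).symm))
  refine ⟨K'.map K.subtype, by have := h1.map K.subtype; rwa [htop] at this, ?_⟩
  rintro _ ⟨x, hx, rfl⟩
  exact e.injective ((h2 x hx).trans (map_one e).symm)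

section ND

variable [TopologicalSpace G] [IsTopologicalGroup G]

/-- finite index subgroups of a group generated by small elements are generated by small
elements -/
theorem le_closure_of_fi {K K' : Subgroup G} (hK' : FI K' K)
    (hgen : ∀ U ∈ 𝓝 (1 : G), K ≤ Subgroup.closure (U ∩ K)) {U : Set G} (hU : U ∈ 𝓝 (1 : G)) :
    K' ≤ Subgroup.closure (U ∩ K') := by
  have h1 : ∀ H : Subgroup K, (H : Set K) ∈ 𝓝 (1 : K) → H = ⊤ := fun H hH => by
    obtain ⟨V, hV, h1⟩ := (mem_nhds_subtype _ _ _).1 hH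
    refine eq_top_iff.2 fun x _ => ?_
    have h2 : Subgroup.closure (V ∩ K) ≤ H.map K.subtype := (Subgroup.closure_le _).2
      fun y hy => ⟨⟨y, hy.2⟩, h1 hy.1, rfl⟩
    obtain ⟨y, hy, h3⟩ := h2 (hgen V hV x.2)
    rwa [← show y = x from Subtype.ext h3]
  have := hK'.subgroupOf
  have : (K'.subgroupOf K).topologicalClosure.FiniteIndex :=
    Subgroup.finiteIndex_of_le (Subgroup.le_topologicalClosure _)
  have h2 : Dense (K'.subgroupOf K : Set K) := by
    have h2 := h1 _ (((K'.subgroupOf K).topologicalClosure.isOpen_of_isClosed_of_finiteIndex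
      (Subgroup.isClosed_topologicalClosure _)).mem_nhds (Subgroup.one_mem _))
    intro x
    have h3 : x ∈ (K'.subgroupOf K).topologicalClosure := h2 ▸ Subgroup.mem_top x
    exact h3
  let L := (Subgroup.closure (U ∩ K')).subgroupOf K
  have hU' : Subtype.val ⁻¹' U ∈ 𝓝 (1 : K) := continuous_subtype_val.continuousAt hU
  have h3 : L.topologicalClosure = ⊤ := by
    refine h1 _ (mem_of_superset (interior_mem_nhds.2 hU') ?_)
    refine (h2.open_subset_closure_inter isOpen_interior).trans (closure_mono fun x hx => ?_)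
    have h := interior_subset hx.1
    exact Subgroup.subset_closure (k := U ∩ K') ⟨h, hx.2⟩
  intro x hx
  have h4 : (⟨x, hK'.le hx⟩ : K) ∈ closure (L : Set K) := by
    have h4 : (⟨x, hK'.le hx⟩ : K) ∈ L.topologicalClosure := h3 ▸ Subgroup.mem_top _
    exact h4
  have h5 : (fun y : K => y⁻¹ * ⟨x, hK'.le hx⟩) ⁻¹' (Subtype.val ⁻¹' U) ∈
      𝓝 (⟨x, hK'.le hx⟩ : K) :=
    (continuous_inv.mul continuous_const).continuousAt (by simpa using hU')
  obtain ⟨y, h6, h7⟩ := mem_closure_iff_nhds.1 h4 _ h5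
  have h7' : (y : G) ∈ Subgroup.closure (U ∩ K') := h7
  have h8 : (y : G) ∈ K' := (Subgroup.closure_le K').2 Set.inter_subset_right h7'
  have h9 : (y : G)⁻¹ * x ∈ Subgroup.closure (U ∩ K') :=
    Subgroup.subset_closure ⟨h6, K'.mul_mem (K'.inv_mem h8) hx⟩
  simpa using Subgroup.mul_mem _ h7' h9

/-- **TITS-ND**: weak overlap for small elements forces virtually solvable image -/
theorem vsr_of_small [Group.FG G] [(𝓝 (1 : G)).IsCountablyGenerated] (ρ : G →* Matrix ι ι ℂ)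
    {K : Subgroup G} (hgen : ∀ U ∈ 𝓝 (1 : G), K ≤ Subgroup.closure (U ∩ K))
    (hρ : Tendsto ρ (𝓝 1) (𝓝 1)) {c0 : ℝ} (hc0 : 0 < c0) {U0 : Set G} (hU0 : U0 ∈ 𝓝 (1 : G))
    (hW : WO c0 U0) : VSr K ρ := by
  classical
  rcases struct_mat ρ K with h | ⟨K', hK', d, hd, Λ, h1, h2, h3⟩
  · exact h
  exfalso
  obtain ⟨U, hU⟩ := (𝓝 (1 : G)).exists_antitone_basis
  have h4 : Tendsto (fun g => Λ (ρ g)) (𝓝 1) (𝓝 1) := by
    have h4 := (Λ.continuous_of_finiteDimensional.tendsto 1).comp hρ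
    have h5 : Λ (ρ 1) = 1 := h1.one
    rw [map_one] at h5
    rw [h5] at h4
    exact h4
  obtain ⟨f, hf1, hf2⟩ := exists_seq_of_forall_finset_exists
    (fun x : G × ℕ => x.1 ∈ U x.2 ∧ x.1 ∈ K' ∧ x.1 ∉ scal h1)
    (fun x y => x.2 < y.2 ∧ ∀ c : ℂ, Λ (ρ y.1) ≠ c • Λ (ρ x.1)) fun s hs => by
      have h5 : ∀ᶠ g in 𝓝 (1 : G), ∀ x ∈ s, Λ (ρ g) ∉ Submodule.span ℂ {Λ (ρ x.1)} := by
        refine (eventually_all_finset _).2 fun x hx =>
          h4.eventually (p := fun M => M ∉ Submodule.span ℂ {Λ (ρ x.1)}) ?_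
        refine (Submodule.closed_of_finiteDimensional _).isOpen_compl.mem_nhds fun h5 => ?_
        obtain ⟨c, hc⟩ := Submodule.mem_span_singleton.1 h5
        refine (hs x hx).2.2 ?_
        simpa using (scal h1).inv_mem (mem_scal h1 K'.one_mem (hs x hx).2.1 (h1.one.trans hc.symm))
      let m := s.sup Prod.snd + 1
      obtain ⟨g, ⟨hg1, hg2⟩, hg3⟩ : ∃ g ∈ (U m ∩ {g | ∀ x ∈ s,
          Λ (ρ g) ∉ Submodule.span ℂ {Λ (ρ x.1)}}) ∩ K', g ∉ scal h1 := by
        by_contra h6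
        push Not at h6
        refine not_fi_scal hd h1 h2 ((FI.refl K').of_le ?_ fun _ h => h.1)
        exact (le_closure_of_fi hK' hgen (inter_mem (hU.mem m) h5)).trans
          ((Subgroup.closure_le _).2 h6)
      refine ⟨(g, m), ⟨hg1.1, hg2, hg3⟩, fun x hx =>
        ⟨Nat.lt_succ_of_le (Finset.le_sup (f := Prod.snd) hx), fun c hc => ?_⟩⟩
      exact hg1.2 x hx (Submodule.mem_span_singleton.2 ⟨c, hc.symm⟩)
  have h5 : Tendsto (fun k => (f k).1) atTop (𝓝 1) := by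
    have h5 : StrictMono fun k => (f k).2 := fun k l h => (hf2 k l h).1
    exact hU.tendsto fun k => hU.antitone (h5.id_le k) (hf1 k).1
  obtain ⟨Γ, -, h6⟩ := fur h1 h2 h3 (fun k => (f k).1) (fun k => (hf1 k).2.1) (fun k l hkl c h => by
    rcases lt_or_gt_of_ne hkl with h6 | h6
    · by_cases hc : c = 0
      · exact (hf1 k).2.2 ⟨(hf1 k).2.1, 0, h.trans (by rw [hc, zero_smul, zero_smul])⟩
      · exact (hf2 k l h6).2 c⁻¹ (by rw [h, smul_smul, inv_mul_cancel₀ hc, one_smul])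
    · exact (hf2 l k h6).2 c h) hc0
  have h7 : ∀ᶠ k in atTop, ∀ γ ∈ Γ, γ⁻¹ * (f k).1 * γ ∈ U0 :=
    (eventually_all_finset _).2 fun γ _ => by
      have h7 := (h5.const_mul γ⁻¹).mul_const γ
      rw [mul_one, inv_mul_cancel] at h7
      exact h7.eventually hU0
  obtain ⟨k, hk1, hk2⟩ := (h6.and_eventually h7).exists
  obtain ⟨p, hp, h8⟩ := hW (Γ.image fun γ => γ⁻¹ * (f k).1 * γ) fun g hg => by
    obtain ⟨γ, hγ, rfl⟩ := Finset.mem_image.1 hg
    exact hk2 γ hγ
  obtain ⟨γ, hγ, h9⟩ := hk1 p hp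
  exact absurd (h8 _ (Finset.mem_image_of_mem _ hγ)) (not_le.2 h9)

end ND

end Crest.Agent.X261.Grp
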