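import Crest.Agent.X261.Ans.Man2
import Crest.Agent.X261.Loc.Defs
import Crest.Agent.X261.Loc.An
import Crest.Agent.X261.Grp.Tits

-- ▼ part X261/Rn/Inc
section

/-!
# Row 261, RELN (helper60), file `Inc`: inclusion of fibres

If the fibres of a submersion `f` are locally contained in the fibres of `g` at a non thin set of
points near `x`, this is so near `x`.
-/

set_option autoImplicit false
set_option linter.unusedSectionVars false
set_option linter.dupNamespace false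

open Set Filter Topology Module

namespace Crest.Agent.X261.Rn

open Crest.Agent.X261.Ans

variable {E F F' : Type} [NormedAddCommGroup E] [NormedSpace ℂ E] [FiniteDimensional ℂ E]
  [NormedAddCommGroup F] [NormedSpace ℂ F] [FiniteDimensional ℂ F]
  [NormedAddCommGroup F'] [NormedSpace ℂ F'] [FiniteDimensional ℂ F']
  {M : Type} [TopologicalSpace M] {A : HA E M}

theorem subm_sub {f : M → F} {x : M} (hf : A.Subm (HA.self F) f x) :
    (A.prod A).Subm (HA.self F) (fun q => f q.1 - f q.2) (x, x) := by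
  have h1 : (A.prod A).Hol (HA.self F) (fun q => f q.1 - f q.2) (x, x) :=
    HA.Hol.sub (hf.hol.comp_of_eq (HA.hol_fst A A (x, x)) rfl)
      (hf.hol.comp_of_eq (HA.hol_snd A A (x, x)) rfl)
  have h2 : (HA.self F).Subm (HA.self F) (fun t => t - f x) (f x) := by
    refine HA.self_subm_iff.2 ⟨by fun_prop, ?_⟩
    rw [fderiv_sub_const, fderiv_fun_id]
    exact Function.surjective_id
  exact HA.Subm.of_comp (f := fun y => (y, x)) (h2.comp hf) h1 (HA.hol_inl A A x x)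

theorem inc_of_not_cov [Countable A.ι] {f : M → F} {g : M → F'} {x : M}
    (hf : A.Subm (HA.self F) f x) (hg : A.Hol (HA.self F') g x)
    (h : ∀ N ∈ 𝓝 x, ¬ A.Cov (finrank ℂ E) (N ∩ {y | ∀ᶠ z in 𝓝 y, f y = f z → g y = g z})) :
    ∀ᶠ q in 𝓝 (x, x), f q.1 = f q.2 → g q.1 = g q.2 := by
  have : Countable (A.prod A).ι := inferInstanceAs (Countable (A.ι × A.ι))
  have hle := hf.finrank_le
  have h1 := (subm_sub hf).reg_fibre
  have h2 : (A.prod A).AnAt {q | g q.1 = g q.2} (x, x) :=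
    HA.anAt_eq_self (hg.comp_of_eq (HA.hol_fst A A (x, x)) rfl)
      (hg.comp_of_eq (HA.hol_snd A A (x, x)) rfl)
  simp only [sub_self] at h1
  rcases h1.dich h2 with h3 | ⟨V, hV, hxV, hc, -⟩
  · exact h3.mono fun q hq he => hq (by simpa [sub_eq_zero] using he)
  exfalso
  rw [finrank_prod] at hc
  set S := ((fun q : M × M => f q.1 - f q.2) ⁻¹' {0}) ∩ {q | g q.1 = g q.2} ∩ V with hS
  rcases hd : finrank ℂ E + finrank ℂ E - finrank ℂ F with - | d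
  · rw [hd, HA.cov_zero] at hc
    have : (x, x) ∈ S := ⟨⟨by simp, rfl⟩, hxV⟩
    rw [hc] at this
    exact this
  rw [hd] at hc
  have h4 := hc.fibre (B := A) (f := Prod.fst) fun q _ => HA.hol_fst A A q
  have h5 : ∀ᶠ y in 𝓝 x, (y, y) ∈ V ∧ A.Subm (HA.self F) f y :=
    (((continuous_id.prodMk continuous_id).tendsto x).eventually (hV.mem_nhds hxV)).and
      hf.eventually
  refine h _ h5 (h4.sub ?_)
  rintro y ⟨⟨hy1, hy2⟩, hy3⟩ hcov
  rw [show d + 1 - finrank ℂ E = finrank ℂ E - finrank ℂ F by omega] at hcov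
  have h6 : ∀ᶠ z in 𝓝 y, (y, z) ∈ V :=
    ((continuous_const.prodMk continuous_id).tendsto y).eventually (hV.mem_nhds hy1)
  refine hy2.reg_fibre.not_cov (h6.and hy3) ((hcov.image (B := A) (f := Prod.snd)
    fun q _ => HA.hol_snd A A q).sub ?_)
  rintro z ⟨hz1, hz2, hz3⟩
  have hz1' : f z = f y := hz1
  exact ⟨(y, z), ⟨⟨⟨by simp [hz1'], hz3 hz1'.symm⟩, hz2⟩, rfl⟩, rfl⟩

end Crest.Agent.X261.Rn
end

-- ▼ part X261/Loc/Spr
section

/-!
# X261/Loc/Spr: return maps in a chart, spreading of convergence to the identity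
-/

namespace Crest.Agent.X261.Loc.Spr

open Filter Topology Set Metric
open Crest.Agent.X261.Loc

variable {G : Type*} [Group G] {M : Type*} [TopologicalSpace M]
  {F : Type*} [NormedAddCommGroup F] [NormedSpace ℂ F] (L : Leaf G M F)

/-- the return map of `g` in the chart at `x` is defined at `t` -/
def Df (x : M) (g : G) (t : F) : Prop :=
  ∃ z ∈ L.U x, ∃ y ∈ L.U x, L.π x y = t ∧ L.R (L.act g y) z

open Classical in
/-- the return map -/
noncomputable def hm (x : M) (g : G) (t : F) : F :=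
  if h : Df L x g t then L.π x h.choose else t

/-- pointwise convergence to the identity on the leaf space along a filter on `G` -/
def Pt (l : Filter G) (x : M) : Prop :=
  ∀ W ∈ 𝓝 x, ∀ᶠ g in l, ∃ z ∈ W, L.R (L.act g x) z

variable {L}

theorem hm_eq {x : M} (hx : x ∈ L.S) {g : G} {y z : M} (hy : y ∈ L.U x) (hz : z ∈ L.U x)
    (h : L.R (L.act g y) z) : hm L x g (L.π x y) = L.π x z := by
  have hD : Df L x g (L.π x y) := ⟨z, hz, y, hy, rfl, h⟩
  rw [hm, dif_pos hD]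
  obtain ⟨hz', y', hy', he, h'⟩ := hD.choose_spec
  have s := L.U_sub x hx
  have h1 : L.R y' y := (L.π_rel x hx y' hy' y hy).2 he
  have h2 := L.rinv g _ (s hy') _ (s hy) h1
  have h3 := L.trans _ (L.sinv g _ (s hy')) _ (L.sinv g _ (s hy)) _ (s hz) h2 h
  have h4 := L.symm _ (L.sinv g _ (s hy')) _ (s hz') h'
  have h5 := L.trans _ (s hz') _ (L.sinv g _ (s hy')) _ (s hz) h4 h3
  exact (L.π_rel x hx _ hz' _ hz).1 h5

/-- a defined return can be read at any point over `t`. -/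
theorem Df.spec {x : M} (hx : x ∈ L.S) {g : G} {y : M} (hy : y ∈ L.U x)
    (h : Df L x g (L.π x y)) :
    ∃ z ∈ L.U x, L.R (L.act g y) z ∧ hm L x g (L.π x y) = L.π x z := by
  obtain ⟨z, hz, y', hy', he, h'⟩ := h
  have s := L.U_sub x hx
  have h1 : L.R y y' := (L.π_rel x hx y hy y' hy').2 he.symm
  have h2 := L.rinv g _ (s hy) _ (s hy') h1
  have h3 := L.trans _ (L.sinv g _ (s hy)) _ (L.sinv g _ (s hy')) _ (s hz) h2 h'
  exact ⟨z, hz, h3, hm_eq hx hy hz h3⟩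

theorem Df.diff {x : M} (hx : x ∈ L.S) {g : G} {t : F} (h : Df L x g t) :
    DifferentiableAt ℂ (hm L x g) t := by
  obtain ⟨z, hz, y, hy, rfl, h'⟩ := h
  obtain ⟨f, hf, hev⟩ := L.hol x hx g y hy z hz h'
  refine hf.congr_of_eventuallyEq ?_
  have hN := L.π_opn x hx y hy _ (hev.and ((L.U_opn x hx).mem_nhds hy))
  filter_upwards [hN] with t ht
  obtain ⟨y', ⟨⟨z', hz', h1, h2⟩, hy'⟩, rfl⟩ := ht
  rw [hm_eq hx hy' hz' h1, h2]

theorem df_one {x : M} (hx : x ∈ L.S) {y : M} (hy : y ∈ L.U x) :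
    Df L x 1 (L.π x y) ∧ hm L x 1 (L.π x y) = L.π x y := by
  have h : L.R (L.act 1 y) y := by rw [L.act_one]; exact L.refl y (L.U_sub x hx hy)
  exact ⟨⟨y, hy, y, hy, rfl, h⟩, hm_eq hx hy hy h⟩

theorem Df.mul {x : M} (hx : x ∈ L.S) {g g' : G} {t : F} (h' : Df L x g' t)
    (h : Df L x g (hm L x g' t)) :
    Df L x (g * g') t ∧ hm L x (g * g') t = hm L x g (hm L x g' t) := by
  obtain ⟨z, hz, y, hy, rfl, h1⟩ := h'
  have s := L.U_sub x hx
  rw [hm_eq hx hy hz h1] at h ⊢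
  obtain ⟨w, hw, h2, h3⟩ := h.spec hx hz
  have h4 := L.rinv g _ (L.sinv g' _ (s hy)) _ (s hz) h1
  have h5 := L.trans _ (L.sinv g _ (L.sinv g' _ (s hy))) _ (L.sinv g _ (s hz)) _ (s hw) h4 h2
  rw [← L.act_mul] at h5
  exact ⟨⟨w, hw, y, hy, rfl, h5⟩, by rw [hm_eq hx hy hw h5, h3]⟩

theorem Pt.mono {l l' : Filter G} {x : M} (h : Pt L l x) (hl : l' ≤ l) : Pt L l' x :=
  fun W hW => hl (h W hW)

/-- equicontinuity turns pointwise convergence into local uniform convergence. -/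
theorem Pt.loc {l : Filter G} {x : M} (hx : x ∈ L.S) (h : Pt L l x) {W : Set M} (hW : W ∈ 𝓝 x) :
    ∃ V ∈ 𝓝 x, ∀ᶠ g in l, ∀ y ∈ V, ∃ z ∈ W, L.R (L.act g y) z := by
  obtain ⟨V, hV, h1⟩ := L.eqc x hx W hW
  refine ⟨V, hV, (h V hV).mono fun g hg => h1 g ⟨x, mem_of_mem_nhds hV, hg⟩⟩

theorem nhds_chart {x : M} (hx : x ∈ L.S) {y : M} (hy : y ∈ L.U x) {N : Set F}
    (hN : N ∈ 𝓝 (L.π x y)) : L.U x ∩ L.π x ⁻¹' N ∈ 𝓝 y :=
  inter_mem ((L.U_opn x hx).mem_nhds hy)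
    (((L.π_cont x hx).continuousAt ((L.U_opn x hx).mem_nhds hy)).preimage_mem_nhds hN)

/-- chart criterion for pointwise convergence. -/
theorem pt_of_tendsto {l : Filter G} {x : M} (hx : x ∈ L.S) {y : M} (hy : y ∈ L.U x)
    (hD : ∀ᶠ g in l, Df L x g (L.π x y))
    (ht : Tendsto (fun g => hm L x g (L.π x y)) l (𝓝 (L.π x y))) : Pt L l y := by
  intro W hW
  have s := L.U_sub x hx
  have hN := L.π_opn x hx y hy _ (inter_mem hW ((L.U_opn x hx).mem_nhds hy))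
  filter_upwards [hD, ht.eventually hN] with g h1 h2
  obtain ⟨z, hz, h3, h4⟩ := h1.spec hx hy
  obtain ⟨w, ⟨hw, hwU⟩, h5⟩ := h2
  refine ⟨w, hw, L.trans _ (L.sinv g _ (s hy)) _ (s hz) _ (s hwU) h3 ?_⟩
  exact (L.π_rel x hx _ hz _ hwU).2 (by rw [h5, h4])

theorem Pt.tendsto {l : Filter G} {x : M} (hx : x ∈ L.S) {y : M} (hy : y ∈ L.U x)
    (h : Pt L l y) : Tendsto (fun g => hm L x g (L.π x y)) l (𝓝 (L.π x y)) := by
  intro N hN
  rw [mem_map]
  filter_upwards [h _ (nhds_chart hx hy hN)] with g hg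
  obtain ⟨z, ⟨hz, hzN⟩, h1⟩ := hg
  change hm L x g (L.π x y) ∈ N
  rw [hm_eq hx hy hz h1]
  exact hzN

/-- Hausdorff property of the leaf space in the needed form. -/
theorem rel_of_pt {g : G} {x : M} (hx : x ∈ L.S) (h : Pt L (pure g) x) :
    L.R (L.act g x) x := by
  have hxU := L.U_mem x hx
  have h1 := (h.tendsto hx hxU)
  have h2 : hm L x g (L.π x x) = L.π x x :=
    tendsto_nhds_unique (tendsto_pure_nhds (fun g => hm L x g (L.π x x)) g) h1
  obtain ⟨z, hz, h3⟩ := h _ ((L.U_opn x hx).mem_nhds hxU)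
  rw [hm_eq hx hxU hz h3] at h2
  exact L.trans _ (L.sinv g _ hx) _ (L.U_sub x hx hz) _ hx h3 ((L.π_rel x hx _ hz _ hxU).2 h2)

theorem pt_of_rel {g : G} {x : M} (h : L.R (L.act g x) x) : Pt L (pure g) x :=
  fun _ hW => ⟨x, mem_of_mem_nhds hW, h⟩

/-- **Spreading**: convergence to the identity on a nonempty open set gives convergence
everywhere. -/
theorem spread [ProperSpace F] {l : Filter G} {O : Set M} (hO : IsOpen O) (hne : O.Nonempty)
    (hOS : O ⊆ L.S) (h : ∀ x ∈ O, Pt L l x) : ∀ x ∈ L.S, Pt L l x := by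
  set Z := interior {x | Pt L l x} with hZ
  have key : ∀ x ∈ L.S, x ∈ closure Z → x ∈ Z := by
    intro x hx hxc
    have hxU := L.U_mem x hx
    have hUn := (L.U_opn x hx).mem_nhds hxU
    set c := L.π x x with hc
    obtain ⟨V, hV, hV1⟩ := L.eqc x hx _ (nhds_chart hx hxU (ball_mem_nhds c one_pos))
    obtain ⟨R, hR, hRs⟩ := Metric.mem_nhds_iff.1 (L.π_opn x hx x hxU _ (inter_mem hV hUn))
    have hN : V ∩ (L.U x ∩ L.π x ⁻¹' ball c (R / 4)) ∈ 𝓝 x :=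
      inter_mem hV (nhds_chart hx hxU (ball_mem_nhds c (by linarith)))
    obtain ⟨b, hbN, hbZ⟩ := mem_closure_iff_nhds.1 hxc _ (interior_mem_nhds.2 hN)
    have hbN' := interior_subset hbN
    have hbU : b ∈ L.U x := hbN'.2.1
    have hbc : dist (L.π x b) c < R / 4 := hbN'.2.2
    have hbP : Pt L l b := interior_subset hbZ
    have hVb : V ∈ 𝓝 b := mem_of_superset (isOpen_interior.mem_nhds hbN)
      (interior_subset.trans inter_subset_left)
    have hev : ∀ᶠ g in l, ∀ t ∈ ball c R, Df L x g t ∧ hm L x g t ∈ ball c 1 := by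
      filter_upwards [hbP V hVb] with g hg t ht
      obtain ⟨y, ⟨hyV, hyU⟩, rfl⟩ := hRs ht
      obtain ⟨z, ⟨hzU, hz1⟩, h1⟩ := hV1 g ⟨b, hbN'.1, hg⟩ y hyV
      exact ⟨⟨z, hzU, y, hyU, rfl, h1⟩, by rw [hm_eq hx hyU hzU h1]; exact hz1⟩
    obtain ⟨r, hr, hrs⟩ := Metric.mem_nhds_iff.1 (L.π_opn x hx b hbU _
      (inter_mem (isOpen_interior.mem_nhds hbZ) ((L.U_opn x hx).mem_nhds hbU)))
    have hsub : ball (L.π x b) (R / 2) ⊆ ball c R := by
      intro t ht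
      rw [mem_ball] at *
      linarith [dist_triangle t (L.π x b) c]
    have hvit : ∀ t ∈ ball (L.π x b) (R / 2),
        Tendsto (fun g => hm L x g t - t) l (𝓝 0) := by
      intro t ht
      refine An.vitali (f := fun g t => hm L x g t - t) (A := 1 + R) hr ?_ ?_ ht
      · filter_upwards [hev] with g hg
        refine ⟨fun s hs => (((hg s (hsub hs)).1.diff hx).sub differentiableAt_id).differentiableWithinAt,
          fun s hs => ?_⟩
        have h1 := (hg s (hsub hs)).2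
        have h2 := hsub hs
        rw [mem_ball] at h1 h2
        rw [← dist_eq_norm]
        linarith [dist_triangle_right (hm L x g s) s c]
      · intro s hs
        obtain ⟨y, ⟨hyZ, hyU⟩, rfl⟩ := hrs hs
        have := (Pt.tendsto hx hyU (interior_subset hyZ)).sub_const (L.π x y)
        simpa using this
    refine mem_interior_iff_mem_nhds.2 (mem_of_superset
      (nhds_chart hx hxU (ball_mem_nhds c (show 0 < R / 4 by linarith))) ?_)
    rintro y ⟨hyU, hy⟩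
    have hy1 : L.π x y ∈ ball (L.π x b) (R / 2) := by
      have : dist (L.π x y) c < R / 4 := hy
      rw [mem_ball]
      linarith [dist_triangle_right (L.π x y) (L.π x b) c]
    refine pt_of_tendsto hx hyU (hev.mono fun g hg => (hg _ (hsub hy1)).1) ?_
    have := (hvit _ hy1).add_const (L.π x y)
    simpa using this
  have hsubZ : L.S ⊆ Z := by
    refine L.conn.subset_of_closure_inter_subset isOpen_interior ?_ ?_
    · obtain ⟨x, hx⟩ := hne
      exact ⟨x, hOS hx, mem_interior.2 ⟨O, h, hO, hx⟩⟩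
    · rintro x ⟨h1, h2⟩
      exact key x h2 h1
  exact fun x hx => interior_subset (hsubZ hx)

/-- uniform convergence on compact subsets of a chart. -/
theorem unif {l : Filter G} (h : ∀ x ∈ L.S, Pt L l x) {x : M} (hx : x ∈ L.S) {K : Set F}
    (hK : IsCompact K) (hKU : K ⊆ L.π x '' L.U x) {ε : ℝ} (hε : 0 < ε) :
    ∀ᶠ g in l, ∀ t ∈ K, Df L x g t ∧ ‖hm L x g t - t‖ < ε := by
  refine An.ev_compact hK ?_
  intro t ht
  obtain ⟨y, hy, rfl⟩ := hKU ht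
  have hyS := L.U_sub x hx hy
  obtain ⟨V, hV, hev⟩ := (h y hyS).loc hyS
    (nhds_chart hx hy (ball_mem_nhds (L.π x y) (half_pos hε)))
  refine ⟨_, inter_mem (L.π_opn x hx y hy _ (inter_mem hV ((L.U_opn x hx).mem_nhds hy)))
    (ball_mem_nhds (L.π x y) (half_pos hε)), ?_⟩
  filter_upwards [hev] with g hg
  rintro s ⟨⟨y', ⟨hy'V, hy'U⟩, rfl⟩, hs⟩
  obtain ⟨z, ⟨hzU, hz⟩, h1⟩ := hg y' hy'V
  refine ⟨⟨z, hzU, y', hy'U, rfl, h1⟩, ?_⟩
  rw [hm_eq hx hy'U hzU h1, ← dist_eq_norm]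
  have hz' : dist (L.π x z) (L.π x y) < ε / 2 := hz
  rw [mem_ball] at hs
  linarith [dist_triangle_right (L.π x z) (L.π x y') (L.π x y)]

theorem Pt.inv {l : Filter G} {x : M} (hx : x ∈ L.S) (h : Pt L l x) :
    Pt L (l.map fun g => g⁻¹) x := by
  intro W hW
  obtain ⟨V, hV, h1⟩ := L.eqc x hx W hW
  rw [eventually_map]
  filter_upwards [h _ (inter_mem hV (L.opn.mem_nhds hx))] with g hg
  obtain ⟨z, ⟨hzV, hzS⟩, h2⟩ := hg
  have h3 := L.rinv g⁻¹ _ (L.sinv g _ hx) _ hzS h2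
  rw [← L.act_mul, inv_mul_cancel, L.act_one] at h3
  exact h1 g⁻¹ ⟨z, hzV, x, mem_of_mem_nhds hV, L.symm _ hx _ (L.sinv _ _ hzS) h3⟩ x
    (mem_of_mem_nhds hV)

theorem pt_conj {l : Filter G} (h : ∀ x ∈ L.S, Pt L l x) (γ : G) {x : M} (hx : x ∈ L.S) :
    Pt L (l.map fun g => γ * g * γ⁻¹) x := by
  intro W hW
  have hx' := L.sinv γ⁻¹ x hx
  have he : L.act γ (L.act γ⁻¹ x) = x := by rw [← L.act_mul, mul_inv_cancel, L.act_one]
  have hW' : L.act γ ⁻¹' W ∈ 𝓝 (L.act γ⁻¹ x) :=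
    (L.cont γ).continuousAt.preimage_mem_nhds (by rwa [he])
  rw [eventually_map]
  filter_upwards [h _ hx' _ (inter_mem hW' (L.opn.mem_nhds hx'))] with g hg
  obtain ⟨z, ⟨hzW, hzS⟩, h2⟩ := hg
  refine ⟨L.act γ z, hzW, ?_⟩
  rw [L.act_mul, L.act_mul]
  exact L.rinv γ _ (L.sinv g _ hx') _ hzS h2

/-- Baire: a point moved off its class by every nontrivial element. -/
theorem exists_generic [ProperSpace F] [Countable G] (hT : ¬ L.Triv) :
    ∃ x ∈ L.S, ∀ g : G, g ≠ 1 → ¬ L.R (L.act g x) x := by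
  obtain ⟨x, hx⟩ := L.ne
  have hxU := L.U_mem x hx
  have s := L.U_sub x hx
  obtain ⟨r, hr, hrs⟩ := Metric.mem_nhds_iff.1
    (L.π_opn x hx x hxU _ ((L.U_opn x hx).mem_nhds hxU))
  let T : {g : G // g ≠ 1} → Set F := fun g =>
    L.π x '' {y | y ∈ L.U x ∧ L.R (L.act g y) y}
  have hcl : ∀ g : {g : G // g ≠ 1}, ∀ y ∈ L.U x, L.π x y ∈ closure (T g) →
      L.R (L.act g y) y := by
    intro g y hy hc
    refine rel_of_pt (s hy) fun W hW => ?_
    obtain ⟨V, hV, h1⟩ := L.eqc y (s hy) W hW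
    obtain ⟨t, ⟨y', ⟨hy'V, hy'U⟩, rfl⟩, y'', ⟨hy''U, h2⟩, he⟩ := mem_closure_iff_nhds.1 hc _
      (L.π_opn x hx y hy _ (inter_mem hV ((L.U_opn x hx).mem_nhds hy)))
    have h3 : L.R y'' y' := (L.π_rel x hx _ hy''U _ hy'U).2 he
    have h4 := L.rinv g _ (s hy'U) _ (s hy''U) (L.symm _ (s hy''U) _ (s hy'U) h3)
    have h5 := L.trans _ (L.sinv _ _ (s hy'U)) _ (L.sinv _ _ (s hy''U)) _ (s hy''U) h4 h2
    have h6 := L.trans _ (L.sinv _ _ (s hy'U)) _ (s hy''U) _ (s hy'U) h5 h3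
    exact h1 g ⟨y', hy'V, y', hy'V, h6⟩ y (mem_of_mem_nhds hV)
  have hd : ∀ g : {g : G // g ≠ 1}, Dense (closure (T g))ᶜ := by
    intro g
    rw [← interior_eq_empty_iff_dense_compl]
    by_contra hne
    obtain ⟨t, ht⟩ := nonempty_iff_ne_empty.2 hne
    obtain ⟨t', ht', y, ⟨hy, -⟩, rfl⟩ := mem_closure_iff_nhds.1 (interior_subset ht) _
      (isOpen_interior.mem_nhds ht)
    refine hT ⟨g, g.2, fun z hz => rel_of_pt hz ?_⟩
    refine spread (O := interior (L.U x ∩ L.π x ⁻¹' interior (closure (T g)))) isOpen_interior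
      ⟨y, mem_interior_iff_mem_nhds.2 (nhds_chart hx hy (isOpen_interior.mem_nhds ht'))⟩
      (fun w hw => s (interior_subset hw).1) (fun w hw => ?_) z hz
    have hw' := interior_subset hw
    exact pt_of_rel (hcl g w hw'.1 (interior_subset hw'.2))
  have hD := dense_iInter_of_isOpen (fun g => isClosed_closure.isOpen_compl) hd
  obtain ⟨t, ht1, ht2⟩ := hD.inter_open_nonempty _ isOpen_ball ⟨_, mem_ball_self hr⟩
  obtain ⟨y, hy, rfl⟩ := hrs ht1
  refine ⟨y, s hy, fun g hg h1 => ?_⟩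
  exact (mem_iInter.1 ht2 ⟨g, hg⟩) (subset_closure ⟨y, ⟨hy, h1⟩, rfl⟩)

end Crest.Agent.X261.Loc.Spr
end

-- ▼ part X261/Loc/Car
section

/-!
# X261/Loc/Car: Cartan averaging, non discreteness, the infinitesimal data
-/

namespace Crest.Agent.X261.Loc.Car

open Filter Topology Set Metric BoundedContinuousFunction
open Crest.Agent.X261.Loc Crest.Agent.X261.Loc.Spr

variable {G : Type*} [Group G] {M : Type*} [TopologicalSpace M]
  {F : Type*} [NormedAddCommGroup F] [NormedSpace ℂ F] [ProperSpace F] (L : Leaf G M F)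

/-- elements whose return map is defined on the closed ball -/
def SS (x : M) (c : F) (ρ : ℝ) : Set G := {g | ∀ t ∈ closedBall c ρ, Df L x g t}

open Classical in
/-- displacement of the return map on the closed ball -/
noncomputable def vv (x : M) (c : F) (ρ : ℝ) (g : G) : closedBall c ρ →ᵇ F :=
  if h : Continuous (fun t : closedBall c ρ => hm L x g t - t) then mkOfCompact ⟨_, h⟩ else 0

variable {L}

theorem vv_apply {x : M} (hx : x ∈ L.S) {c : F} {ρ : ℝ} {g : G} (hg : g ∈ SS L x c ρ)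
    (t : closedBall c ρ) : vv L x c ρ g t = hm L x g t - t := by
  have h : Continuous (fun t : closedBall c ρ => hm L x g t - t) := by
    refine Continuous.sub ?_ continuous_subtype_val
    refine continuous_iff_continuousAt.2 fun t => ?_
    exact ((hg t t.2).diff hx).continuousAt.comp continuous_subtype_val.continuousAt
  rw [vv, dif_pos h]
  rfl

theorem le_vv {x : M} (hx : x ∈ L.S) {c : F} {ρ : ℝ} {g : G} (hg : g ∈ SS L x c ρ)
    {t : F} (ht : t ∈ closedBall c ρ) : ‖hm L x g t - t‖ ≤ ‖vv L x c ρ g‖ := by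
  have := (vv L x c ρ g).norm_coe_le_norm ⟨t, ht⟩
  rwa [vv_apply hx hg] at this

theorem vv_le {x : M} (hx : x ∈ L.S) {c : F} {ρ : ℝ} {g : G} (hg : g ∈ SS L x c ρ) {ε : ℝ}
    (hε : 0 ≤ ε) (h : ∀ t ∈ closedBall c ρ, ‖hm L x g t - t‖ ≤ ε) : ‖vv L x c ρ g‖ ≤ ε :=
  (BoundedContinuousFunction.norm_le hε).2 fun t => by rw [vv_apply hx hg]; exact h t t.2

variable (L) in
/-- the filter of small elements -/
noncomputable def sm (x : M) (c : F) (ρ : ℝ) : Filter G :=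
  comap (fun g => ‖vv L x c ρ g‖) (𝓝 0) ⊓ 𝓟 (SS L x c ρ)

theorem ev_sm {x : M} {c : F} {ρ : ℝ} {P : G → Prop} : (∀ᶠ g in sm L x c ρ, P g) ↔
    ∃ η > 0, ∀ g ∈ SS L x c ρ, ‖vv L x c ρ g‖ < η → P g := by
  rw [sm, eventually_inf_principal, eventually_comap, Metric.eventually_nhds_iff]
  constructor
  · rintro ⟨η, hη, h⟩
    exact ⟨η, hη, fun g hg h1 => h (by simpa using h1) g rfl hg⟩
  · rintro ⟨η, hη, h⟩
    refine ⟨η, hη, fun s hs g he hg => h g hg ?_⟩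
    subst he
    simpa using hs

theorem pt_sm {x : M} (hx : x ∈ L.S) {ρ : ℝ} (hρ : 0 < ρ) :
    ∀ y ∈ L.S, Pt L (sm L x (L.π x x) ρ) y := by
  have hxU := L.U_mem x hx
  refine spread (O := interior (L.U x ∩ L.π x ⁻¹' ball (L.π x x) ρ)) isOpen_interior
    ⟨x, mem_interior_iff_mem_nhds.2 (nhds_chart hx hxU (ball_mem_nhds _ hρ))⟩
    (fun w hw => L.U_sub x hx (interior_subset hw).1) fun w hw => ?_
  obtain ⟨hwU, hw1⟩ := interior_subset hw
  have hw2 : L.π x w ∈ closedBall (L.π x x) ρ := ball_subset_closedBall hw1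
  refine pt_of_tendsto hx hwU (ev_sm.2 ⟨1, one_pos, fun g hg _ => hg _ hw2⟩) ?_
  rw [Metric.tendsto_nhds]
  intro ε hε
  exact ev_sm.2 ⟨ε, hε, fun g hg h => by
    rw [dist_eq_norm]; exact lt_of_le_of_lt (le_vv hx hg hw2) h⟩

/-- a filter converging pointwise everywhere is finer than the filter of small elements -/
theorem le_sm {l : Filter G} (h : ∀ y ∈ L.S, Pt L l y) {x : M} (hx : x ∈ L.S) {c : F} {ρ : ℝ}
    (hK : closedBall c ρ ⊆ L.π x '' L.U x) {ε : ℝ} (hε : 0 < ε) :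
    ∀ᶠ g in l, g ∈ SS L x c ρ ∧ ‖vv L x c ρ g‖ < ε := by
  filter_upwards [unif h hx (isCompact_closedBall c ρ) hK (half_pos hε)] with g hg
  have h1 : g ∈ SS L x c ρ := fun t ht => (hg t ht).1
  exact ⟨h1, lt_of_le_of_lt (vv_le hx h1 (half_pos hε).le fun t ht => (hg t ht).2.le)
    (half_lt_self hε)⟩

variable (L) in
/-- control on the big ball -/
def Big (x : M) (c : F) (ρ : ℝ) (g : G) : Prop :=
  ∀ t ∈ closedBall c (4 * ρ), Df L x g t ∧ ‖hm L x g t - t‖ < ρ / 4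

omit [ProperSpace F] in
theorem lip_disp {x : M} (hx : x ∈ L.S) {c : F} {r R A : ℝ} (hrR : r < R) {g : G}
    (hD : ∀ t ∈ ball c R, Df L x g t) (hA : ∀ t ∈ ball c R, ‖hm L x g t - t‖ ≤ A) {a b : F}
    (ha : a ∈ ball c r) (hb : b ∈ ball c r) :
    ‖(hm L x g a - a) - (hm L x g b - b)‖ ≤ 2 * A / (R - r) * ‖a - b‖ :=
  An.lip_of_bound (f := fun t => hm L x g t - t) hrR
    (fun t ht => (((hD t ht).diff hx).sub differentiableAt_id).differentiableWithinAt) hA ha hb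

omit [ProperSpace F] in
theorem Big.lip {x : M} (hx : x ∈ L.S) {c : F} {ρ : ℝ} (hρ : 0 < ρ) {g : G} (hg : Big L x c ρ g)
    {a b : F} (ha : a ∈ ball c (3 * ρ)) (hb : b ∈ ball c (3 * ρ)) :
    ‖(hm L x g a - a) - (hm L x g b - b)‖ ≤ 1 / 2 * ‖a - b‖ := by
  have := lip_disp hx (show 3 * ρ < 4 * ρ by linarith) (A := ρ / 4)
    (fun t ht => (hg t (ball_subset_closedBall ht)).1)
    (fun t ht => (hg t (ball_subset_closedBall ht)).2.le) ha hb
  refine this.trans_eq ?_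
  congr 1
  field_simp
  ring

theorem mul_est {x : M} (hx : x ∈ L.S) {c : F} {ρ : ℝ} (hρ : 0 < ρ) {g g' : G}
    (hg : Big L x c ρ g) (hg' : Big L x c ρ g') {Λ : ℝ} (hΛ0 : 0 ≤ Λ)
    (hΛ : ∀ a ∈ ball c (3 / 2 * ρ), ∀ b ∈ ball c (3 / 2 * ρ),
      ‖(hm L x g a - a) - (hm L x g b - b)‖ ≤ Λ * ‖a - b‖) :
    g * g' ∈ SS L x c ρ ∧
      ‖vv L x c ρ (g * g') - vv L x c ρ g - vv L x c ρ g'‖ ≤ Λ * ‖vv L x c ρ g'‖ := by
  have hs : closedBall c ρ ⊆ closedBall c (4 * ρ) := closedBall_subset_closedBall (by linarith)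
  have h1 : g ∈ SS L x c ρ := fun t ht => (hg t (hs ht)).1
  have h1' : g' ∈ SS L x c ρ := fun t ht => (hg' t (hs ht)).1
  have h2 : ∀ t ∈ closedBall c ρ, hm L x g' t ∈ ball c (3 / 2 * ρ) := by
    intro t ht
    have := (hg' t (hs ht)).2
    rw [← dist_eq_norm] at this
    rw [mem_closedBall] at ht
    rw [mem_ball]
    linarith [dist_triangle (hm L x g' t) t c]
  have h3 : ∀ t ∈ closedBall c ρ, Df L x (g * g') t ∧
      hm L x (g * g') t = hm L x g (hm L x g' t) := fun t ht =>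
    (h1' t ht).mul hx (hg _ (ball_subset_closedBall
      (ball_subset_ball (by linarith) (h2 t ht)))).1
  have h4 : g * g' ∈ SS L x c ρ := fun t ht => (h3 t ht).1
  refine ⟨h4, (BoundedContinuousFunction.norm_le (by positivity)).2 fun t => ?_⟩
  simp only [BoundedContinuousFunction.coe_sub, Pi.sub_apply]
  rw [vv_apply hx h4, vv_apply hx h1, vv_apply hx h1', (h3 t t.2).2]
  have h5 := hΛ _ (h2 t t.2) t (closedBall_subset_ball (by linarith) t.2)
  have h6 := le_vv hx h1' t.2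
  have h7 : hm L x g (hm L x g' t) - t - (hm L x g t - t) - (hm L x g' t - t)
      = hm L x g (hm L x g' t) - hm L x g' t - (hm L x g t - t) := by abel
  rw [h7]
  exact h5.trans (by gcongr)

omit [ProperSpace F] in
/-- Cartan averaging -/
theorem cartan {x : M} (hx : x ∈ L.S) {c : F} {ρ : ℝ} (hρ : 0 < ρ) {g : G} {n : ℕ}
    (hK : closedBall c (4 * ρ) ⊆ L.π x '' L.U x) (hn : 1 ≤ n)
    (hg : ∀ j ≤ n, Big L x c ρ (g ^ j)) {t : F} (ht : t ∈ ball c (2 * ρ)) :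
    (n : ℝ) * ‖hm L x g t - t‖ ≤ ρ / 2 := by
  have hg1 : Big L x c ρ g := by simpa using hg 1 hn
  have ht4 : t ∈ closedBall c (4 * ρ) :=
    ball_subset_closedBall (ball_subset_ball (by linarith) ht)
  have ha : hm L x g t ∈ ball c (3 * ρ) := by
    have := (hg1 t ht4).2
    rw [← dist_eq_norm] at this
    rw [mem_ball] at ht ⊢
    linarith [dist_triangle (hm L x g t) t c]
  have ha4 : hm L x g t ∈ closedBall c (4 * ρ) :=
    ball_subset_closedBall (ball_subset_ball (by linarith) ha)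
  have key : ∀ j ≤ n, ‖(hm L x (g ^ j) t - t) - (j : ℝ) • (hm L x g t - t)‖
      ≤ j * (1 / 2 * ‖hm L x g t - t‖) := by
    intro j hj
    induction j with
    | zero =>
      obtain ⟨y, hy, rfl⟩ := hK ht4
      simp [(df_one hx hy).2]
    | succ j ih =>
      have h1 := ih (by omega)
      have hj' := hg j (by omega)
      have h2 := ((hg1 t ht4).1.mul hx (hj' _ ha4).1).2
      rw [← pow_succ] at h2
      have h3 := hj'.lip hx hρ ha (ball_subset_ball (by linarith) ht)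
      have h4 : (hm L x (g ^ (j + 1)) t - t) - ((j + 1 : ℕ) : ℝ) • (hm L x g t - t)
          = ((hm L x (g ^ j) t - t) - (j : ℝ) • (hm L x g t - t))
            + ((hm L x (g ^ j) (hm L x g t) - hm L x g t) - (hm L x (g ^ j) t - t)) := by
        rw [h2, Nat.cast_succ, add_smul, one_smul]; abel
      rw [h4]
      refine (norm_add_le _ _).trans ?_
      push_cast
      linarith
  have h1 := key n le_rfl
  have h2 := (hg n le_rfl t ht4).2
  have h3 : ‖(n : ℝ) • (hm L x g t - t)‖ = n * ‖hm L x g t - t‖ := by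
    rw [norm_smul, Real.norm_natCast]
  have h4 := norm_sub_norm_le ((n : ℝ) • (hm L x g t - t)) (hm L x (g ^ n) t - t)
  rw [norm_sub_rev] at h1
  linarith

theorem pow_est {x : M} (hx : x ∈ L.S) {c : F} {ρ δ : ℝ} (hρ : 0 < ρ)
    (hK : closedBall c (4 * ρ) ⊆ L.π x '' L.U x)
    (hB : ∀ g ∈ SS L x c ρ, ‖vv L x c ρ g‖ < δ → Big L x c ρ g) {g : G} (hg : g ∈ SS L x c ρ)
    (hv : ‖vv L x c ρ g‖ < δ) (j : ℕ) (hj : 3 / 2 * j * ‖vv L x c ρ g‖ < δ) :
    g ^ j ∈ SS L x c ρ ∧ ‖vv L x c ρ (g ^ j)‖ ≤ 3 / 2 * j * ‖vv L x c ρ g‖ := by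
  have hs : closedBall c ρ ⊆ closedBall c (4 * ρ) := closedBall_subset_closedBall (by linarith)
  induction j with
  | zero =>
    have h1 : (1 : G) ∈ SS L x c ρ := fun t ht => by
      obtain ⟨y, hy, rfl⟩ := hK (hs ht)
      exact (df_one hx hy).1
    refine ⟨by simpa using h1, ?_⟩
    simp only [pow_zero, Nat.cast_zero, mul_zero, zero_mul]
    refine vv_le hx h1 le_rfl fun t ht => ?_
    obtain ⟨y, hy, rfl⟩ := hK (hs ht)
    simp [(df_one hx hy).2]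
  | succ j ih =>
    have h0 := norm_nonneg (vv L x c ρ g)
    push_cast at hj ⊢
    obtain ⟨h1, h2⟩ := ih (by nlinarith)
    have hB1 := hB _ h1 (by nlinarith)
    obtain ⟨h3, h4⟩ := mul_est hx hρ hB1 (hB g hg hv) (Λ := 1 / 2) (by norm_num)
      fun a ha b hb => hB1.lip hx hρ (ball_subset_ball (by linarith) ha)
        (ball_subset_ball (by linarith) hb)
    rw [pow_succ]
    refine ⟨h3, ?_⟩
    have h5 : vv L x c ρ (g ^ j * g) = (vv L x c ρ (g ^ j * g) - vv L x c ρ (g ^ j) - vv L x c ρ g)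
      + vv L x c ρ (g ^ j) + vv L x c ρ g := by abel
    rw [h5]
    refine (norm_add₃_le).trans ?_
    linarith

/-- the displacement on the double ball is controlled by the displacement on the ball -/
theorem bd_est {x : M} (hx : x ∈ L.S) {c : F} {ρ δ : ℝ} (hρ : 0 < ρ) (hδ : 0 < δ)
    (hK : closedBall c (4 * ρ) ⊆ L.π x '' L.U x)
    (hB : ∀ g ∈ SS L x c ρ, ‖vv L x c ρ g‖ < δ → Big L x c ρ g) {g : G} (hg : g ∈ SS L x c ρ)
    (hv : ‖vv L x c ρ g‖ < δ / 3) {t : F} (ht : t ∈ ball c (2 * ρ)) :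
    ‖hm L x g t - t‖ ≤ 3 * ρ / δ * ‖vv L x c ρ g‖ := by
  set s := ‖vv L x c ρ g‖ with hs
  have hs0 : 0 ≤ s := norm_nonneg _
  have main : ∀ n : ℕ, 1 ≤ n → 3 / 2 * n * s < δ → (n : ℝ) * ‖hm L x g t - t‖ ≤ ρ / 2 := by
    intro n hn h1
    refine cartan hx hρ hK hn (fun j hj => ?_) ht
    have hj' : (j : ℝ) ≤ n := by exact_mod_cast hj
    have h2 : 3 / 2 * j * s < δ := lt_of_le_of_lt (by gcongr) h1
    obtain ⟨h3, h4⟩ := pow_est hx hρ hK hB hg (by linarith) j h2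
    exact hB _ h3 (lt_of_le_of_lt h4 h2)
  rcases hs0.eq_or_lt with h0 | h0
  · rw [← h0, mul_zero]
    by_contra hc
    push Not at hc
    obtain ⟨n, hn⟩ := exists_nat_gt (ρ / 2 / ‖hm L x g t - t‖)
    have h1 := main (n + 1) (by omega) (by rw [← h0]; simpa using hδ)
    rw [div_lt_iff₀ hc] at hn
    push_cast at h1
    nlinarith
  · set n := ⌊δ / (2 * s)⌋₊ with hn
    have h1 : (n : ℝ) ≤ δ / (2 * s) := Nat.floor_le (by positivity)
    have h2 : δ / (2 * s) < n + 1 := Nat.lt_floor_add_one _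
    rw [le_div_iff₀ (by positivity)] at h1
    rw [div_lt_iff₀ (by positivity)] at h2
    have h3 : δ / 6 ≤ n * s := by nlinarith
    have h4 : 1 ≤ n := by
      by_contra h5
      have : n = 0 := by omega
      rw [this] at h3
      simp at h3
      linarith
    have h5 := main n h4 (by nlinarith)
    rw [div_mul_eq_mul_div, le_div_iff₀ hδ]
    have h6 := norm_nonneg (hm L x g t - t)
    nlinarith

/-- non discreteness -/
theorem nd_aux {x : M} (hx : x ∈ L.S) (hgen : ∀ g : G, g ≠ 1 → ¬ L.R (L.act g x) x)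
    (hW : ¬ L.Wand) : ∃ r > 0, ∀ ε > 0, ∃ a : G, a ≠ 1 ∧
      ∀ t ∈ closedBall (L.π x x) r, Df L x a t ∧ ‖hm L x a t - t‖ < ε := by
  have hxU := L.U_mem x hx
  have hUn := (L.U_opn x hx).mem_nhds hxU
  have s := L.U_sub x hx
  set c := L.π x x with hc
  let A : Set M → Set G := fun W => {g | g ≠ 1 ∧ ∃ y ∈ W, ∃ z ∈ W, L.R (L.act g y) z}
  have hA : ∀ W ∈ 𝓝 x, (A W).Infinite := by
    intro W hWn hfin
    have h1 : ∀ g ∈ A W, ∃ V ∈ 𝓝 x, g ∉ A V := by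
      intro g hg
      have h2 : ¬ Pt L (pure g) x := fun h => hgen g hg.1 (rel_of_pt hx h)
      simp only [Pt, eventually_pure, not_forall] at h2
      obtain ⟨W', hW', h3⟩ := h2
      obtain ⟨V, hV, h4⟩ := L.eqc x hx W' hW'
      exact ⟨V, hV, fun h5 => h3 (h4 g h5.2 x (mem_of_mem_nhds hV))⟩
    choose! V hV using h1
    have h2 : W ∩ L.S ∩ ⋂ g ∈ A W, V g ∈ 𝓝 x :=
      inter_mem (inter_mem hWn (L.opn.mem_nhds hx))
        ((biInter_mem hfin).2 fun g hg => (hV g hg).1)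
    refine hW ⟨interior (W ∩ L.S ∩ ⋂ g ∈ A W, V g), isOpen_interior,
      ⟨x, mem_interior_iff_mem_nhds.2 h2⟩, fun y hy => (interior_subset hy).1.2, ?_⟩
    intro g hg y hy z hz h3
    have hy' := interior_subset hy
    have hz' := interior_subset hz
    have h4 : g ∈ A W := ⟨hg, y, hy'.1.1, z, hz'.1.1, h3⟩
    exact (hV g h4).2 ⟨hg, y, mem_iInter₂.1 hy'.2 g h4, z, mem_iInter₂.1 hz'.2 g h4, h3⟩
  have hloc : ∀ R > 0, ∃ V ∈ 𝓝 x, ∃ r > 0, ∀ g, (∃ y ∈ V, ∃ z ∈ V, L.R (L.act g y) z) →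
      ∀ t ∈ ball c r, Df L x g t ∧ hm L x g t ∈ ball c R := by
    intro R hR
    obtain ⟨V, hV, hV1⟩ := L.eqc x hx _ (nhds_chart hx hxU (ball_mem_nhds c hR))
    obtain ⟨r, hr, hrs⟩ := Metric.mem_nhds_iff.1 (L.π_opn x hx x hxU _ (inter_mem hV hUn))
    refine ⟨V, hV, r, hr, fun g hg t ht => ?_⟩
    obtain ⟨y, ⟨hyV, hyU⟩, rfl⟩ := hrs ht
    obtain ⟨z, ⟨hzU, hz1⟩, h1⟩ := hV1 g hg y hyV
    exact ⟨⟨z, hzU, y, hyU, rfl, h1⟩, by rw [hm_eq hx hyU hzU h1]; exact hz1⟩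
  obtain ⟨V₀, hV₀, r₀, hr₀, h₀⟩ := hloc 1 one_pos
  obtain ⟨V₁, hV₁, r₁, hr₁, h₁⟩ := hloc (r₀ / 2) (half_pos hr₀)
  set r := min r₁ (r₀ / 2) / 2 with hr
  have hm0 : 0 < min r₁ (r₀ / 2) := lt_min hr₁ (half_pos hr₀)
  have hr1 : r < r₁ := by linarith [min_le_left r₁ (r₀ / 2)]
  have hr2 : r < r₀ / 2 := by linarith [min_le_right r₁ (r₀ / 2)]
  refine ⟨r, half_pos hm0, fun ε hε => ?_⟩
  set W := V₀ ∩ V₁ ∩ L.S with hWd
  have hWn : W ∈ 𝓝 x := inter_mem (inter_mem hV₀ hV₁) (L.opn.mem_nhds hx)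
  set Λ := 2 * (1 + r₀) / (r₀ - r₀ / 2) with hΛ
  have hΛ0 : 0 ≤ Λ := div_nonneg (by linarith) (by linarith)
  have hlip : ∀ g, (∃ y ∈ V₀, ∃ z ∈ V₀, L.R (L.act g y) z) → ∀ a ∈ ball c (r₀ / 2),
      ∀ b ∈ ball c (r₀ / 2), ‖(hm L x g a - a) - (hm L x g b - b)‖ ≤ Λ * ‖a - b‖ := by
    intro g hg a ha b hb
    refine lip_disp hx (half_lt_self hr₀) (fun t ht => (h₀ g hg t ht).1) (fun t ht => ?_) ha hb
    have h1 := (h₀ g hg t ht).2
    rw [mem_ball] at h1 ht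
    rw [← dist_eq_norm]
    linarith [dist_triangle_right (hm L x g t) t c]
  have hA0 : ∀ g ∈ A W, ∃ y ∈ V₀, ∃ z ∈ V₀, L.R (L.act g y) z := by
    rintro g ⟨-, y, hy, z, hz, h1⟩
    exact ⟨y, hy.1.1, z, hz.1.1, h1⟩
  have hA1 : ∀ g ∈ A W, ∃ y ∈ V₁, ∃ z ∈ V₁, L.R (L.act g y) z := by
    rintro g ⟨-, y, hy, z, hz, h1⟩
    exact ⟨y, hy.1.2, z, hz.1.2, h1⟩
  have hA0' : ∀ g ∈ A W, ∃ y ∈ V₀, ∃ z ∈ V₀, L.R (L.act g⁻¹ y) z := by
    rintro g ⟨-, y, hy, z, hz, h1⟩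
    have h3 := L.rinv g⁻¹ _ (L.sinv g _ hy.2) _ hz.2 h1
    rw [← L.act_mul, inv_mul_cancel, L.act_one] at h3
    exact ⟨z, hz.1.1, y, hy.1.1, L.symm _ hy.2 _ (L.sinv _ _ hz.2) h3⟩
  have hS : ∀ g ∈ A W, g ∈ SS L x c r := fun g hg t ht =>
    (h₁ g (hA1 g hg) t (closedBall_subset_ball hr1 ht)).1
  have htb : TotallyBounded (vv L x c r '' A W) := by
    refine An.tb_lip _ (r₀ / 2 + r) Λ ?_ ?_
    · rintro _ ⟨g, hg, rfl⟩ t
      rw [vv_apply hx (hS g hg), ← dist_eq_norm]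
      have h1 := (h₁ g (hA1 g hg) t (closedBall_subset_ball hr1 t.2)).2
      have h2 := t.2
      rw [mem_ball] at h1
      rw [mem_closedBall] at h2
      linarith [dist_triangle_right (hm L x g t) t c]
    · rintro _ ⟨g, hg, rfl⟩ t t'
      rw [vv_apply hx (hS g hg), vv_apply hx (hS g hg), Subtype.dist_eq, dist_eq_norm]
      exact hlip g (hA0 g hg) _ (closedBall_subset_ball hr2 t.2) _ (closedBall_subset_ball hr2 t'.2)
  obtain ⟨g, hg, g', hg', hne, hd⟩ := An.exists_close (hA W hWn) _ htb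
    (show 0 < ε / (Λ + 1) by positivity)
  refine ⟨g'⁻¹ * g, fun h => hne (by rw [inv_mul_eq_one] at h; exact h.symm), fun t ht => ?_⟩
  have ht1 := closedBall_subset_ball hr1 ht
  obtain ⟨e1, e2⟩ := h₁ g (hA1 g hg) t ht1
  obtain ⟨e1', e2'⟩ := h₁ g' (hA1 g' hg') t ht1
  have hb : ball c (r₀ / 2) ⊆ ball c r₀ := ball_subset_ball (by linarith)
  obtain ⟨f1, f2⟩ := e1.mul hx (h₀ g'⁻¹ (hA0' g' hg') _ (hb e2)).1
  obtain ⟨-, f2'⟩ := e1'.mul hx (h₀ g'⁻¹ (hA0' g' hg') _ (hb e2')).1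
  have f3 : hm L x (g'⁻¹ * g') t = t := by
    obtain ⟨-, -, y, hy, rfl, -⟩ := e1
    rw [inv_mul_cancel]
    exact (df_one hx hy).2
  refine ⟨f1, ?_⟩
  have f4 := hlip g'⁻¹ (hA0' g' hg') _ e2 _ e2'
  have f5 : ‖hm L x g t - hm L x g' t‖ < ε / (Λ + 1) := by
    have h1 := BoundedContinuousFunction.dist_coe_le_dist (f := vv L x c r g) (g := vv L x c r g')
      ⟨t, ht⟩
    rw [vv_apply hx (hS g hg), vv_apply hx (hS g' hg'), dist_eq_norm] at h1
    simp only [sub_sub_sub_cancel_right] at h1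
    exact lt_of_le_of_lt h1 hd
  rw [← f2', f3, ← f2] at f4
  have f6 : hm L x (g'⁻¹ * g) t - t = (hm L x (g'⁻¹ * g) t - hm L x g t - (t - hm L x g' t))
      + (hm L x g t - hm L x g' t) := by abel
  rw [f6]
  refine lt_of_le_of_lt (norm_add_le _ _) ?_
  rw [lt_div_iff₀ (by linarith)] at f5
  linarith

theorem nd {x : M} (hx : x ∈ L.S) (hgen : ∀ g : G, g ≠ 1 → ¬ L.R (L.act g x) x)
    (hW : ¬ L.Wand) : ∃ a : ℕ → G, (∀ k, a k ≠ 1) ∧ ∀ y ∈ L.S, Pt L (map a atTop) y := by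
  obtain ⟨r, hr, h⟩ := nd_aux hx hgen hW
  choose a ha1 ha2 using fun k : ℕ => h (1 / ((k : ℝ) + 1)) Nat.one_div_pos_of_nat
  refine ⟨a, ha1, ?_⟩
  have hxU := L.U_mem x hx
  refine spread (O := interior (L.U x ∩ L.π x ⁻¹' ball (L.π x x) r)) isOpen_interior
    ⟨x, mem_interior_iff_mem_nhds.2 (nhds_chart hx hxU (ball_mem_nhds _ hr))⟩
    (fun w hw => L.U_sub x hx (interior_subset hw).1) fun w hw => ?_
  obtain ⟨hwU, hw1⟩ := interior_subset hw
  have hw2 : L.π x w ∈ closedBall (L.π x x) r := ball_subset_closedBall hw1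
  refine pt_of_tendsto hx hwU (eventually_map.2 (Eventually.of_forall fun k => (ha2 k _ hw2).1)) ?_
  rw [tendsto_map'_iff, tendsto_iff_norm_sub_tendsto_zero]
  exact squeeze_zero (fun k => norm_nonneg _) (fun k => (ha2 k _ hw2).2.le)
    tendsto_one_div_add_atTop_nhds_zero_nat

/-- **Theorem 1** (LOC): wandering, or a trivial element, or infinitesimal data. -/
theorem tri [Countable G] (L : Leaf G M F) : L.Wand ∨ L.Triv ∨
    ∃ (c : F) (ρ : ℝ) (I : IG G (closedBall c ρ →ᵇ F)), L.Small I := by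
  by_cases hW : L.Wand
  · exact Or.inl hW
  by_cases hT : L.Triv
  · exact Or.inr (Or.inl hT)
  refine Or.inr (Or.inr ?_)
  obtain ⟨x, hx, hgen⟩ := exists_generic hT
  have hxU := L.U_mem x hx
  obtain ⟨R, hR, hRs⟩ := Metric.nhds_basis_closedBall.mem_iff.1
    (L.π_opn x hx x hxU _ ((L.U_opn x hx).mem_nhds hxU))
  set c := L.π x x with hc
  set ρ := R / 4 with hρd
  have hρ : 0 < ρ := by linarith
  have hK : closedBall c (4 * ρ) ⊆ L.π x '' L.U x := by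
    rwa [show 4 * ρ = R by linarith]
  have hs : closedBall c ρ ⊆ closedBall c (4 * ρ) := closedBall_subset_closedBall (by linarith)
  have hP := pt_sm hx hρ
  obtain ⟨δ, hδ, hB⟩ := ev_sm.1 (unif hP hx (isCompact_closedBall c (4 * ρ)) hK
    (show 0 < ρ / 4 by linarith))
  have hlip : ∀ g ∈ SS L x c ρ, ‖vv L x c ρ g‖ < δ / 3 → ∀ a ∈ ball c (3 / 2 * ρ),
      ∀ b ∈ ball c (3 / 2 * ρ),
      ‖(hm L x g a - a) - (hm L x g b - b)‖ ≤ 12 / δ * ‖vv L x c ρ g‖ * ‖a - b‖ := by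
    intro g hg hv a ha b hb
    have := lip_disp hx (show 3 / 2 * ρ < 2 * ρ by linarith)
      (fun t ht => (hB g hg (by linarith) t
        (ball_subset_closedBall (ball_subset_ball (by linarith) ht))).1)
      (fun t ht => bd_est hx hρ hδ hK hB hg hv ht) ha hb
    refine this.trans_eq ?_
    congr 1
    field_simp
    ring
  have hone : (1 : G) ∈ SS L x c ρ := fun t ht => by
    obtain ⟨y, hy, rfl⟩ := hK (hs ht)
    exact (df_one hx hy).1
  refine ⟨c, ρ,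
    { S := SS L x c ρ
      v := vv L x c ρ
      C := 12 / δ
      δ := δ / 3
      δ_pos := by linarith
      one_mem := hone
      v_one := ?_
      inj := ?_
      mul := ?_
      inv := ?_
      conj := ?_
      tb := ?_
      nd := ?_ }, ?_⟩
  · rw [← norm_le_zero_iff]
    refine vv_le hx hone le_rfl fun t ht => ?_
    obtain ⟨y, hy, rfl⟩ := hK (hs ht)
    simp [(df_one hx hy).2]
  · intro g hg h0
    by_contra hne
    refine hgen g hne (rel_of_pt hx ((hP x hx).mono ?_))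
    intro T hT
    obtain ⟨η, hη, h2⟩ := ev_sm.1 hT
    exact h2 g hg (by change ‖vv L x c ρ g‖ < η; rw [h0, norm_zero]; exact hη)
  · intro g hg g' hg' hv hv'
    exact mul_est hx hρ (hB g hg (by linarith)) (hB g' hg' (by linarith)) (by positivity)
      (hlip g hg hv)
  · intro ε hε
    exact ev_sm.1 (eventually_map.1 (le_sm (fun y hy => (hP y hy).inv hy) hx (hs.trans hK) hε))
  · intro γ ε hε
    exact ev_sm.1 (eventually_map.1 (le_sm (fun y hy => pt_conj hP γ hy) hx (hs.trans hK) hε))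
  · refine An.tb_lip _ 1 (12 / δ) ?_ ?_
    · rintro _ ⟨g, -, rfl⟩ t
      refine (BoundedContinuousFunction.norm_coe_le_norm _ t).trans ?_
      rw [norm_smul, norm_inv, norm_norm]
      exact inv_mul_le_one_of_le₀ le_rfl (norm_nonneg _)
    · rintro _ ⟨g, ⟨hg, hv⟩, rfl⟩ t t'
      simp only [BoundedContinuousFunction.coe_smul]
      rw [← smul_sub, norm_smul, norm_inv, norm_norm, vv_apply hx hg, vv_apply hx hg,
        Subtype.dist_eq, dist_eq_norm]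
      have h2 := hlip g hg hv t (closedBall_subset_ball (by linarith) t.2) t'
        (closedBall_subset_ball (by linarith) t'.2)
      have h3 : ‖vv L x c ρ g‖⁻¹ * ‖vv L x c ρ g‖ ≤ 1 :=
        inv_mul_le_one_of_le₀ le_rfl (norm_nonneg _)
      calc _ ≤ ‖vv L x c ρ g‖⁻¹ * (12 / δ * ‖vv L x c ρ g‖ * ‖(t : F) - t'‖) := by gcongr
        _ = (‖vv L x c ρ g‖⁻¹ * ‖vv L x c ρ g‖) * (12 / δ * ‖(t : F) - t'‖) := by ring
        _ ≤ 1 * (12 / δ * ‖(t : F) - t'‖) := by gcongr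
        _ = _ := one_mul _
  · intro ε hε
    obtain ⟨a, ha1, ha2⟩ := nd hx hgen hW
    obtain ⟨k, hk⟩ := (eventually_map.1 (le_sm ha2 hx (hs.trans hK) hε)).exists
    exact ⟨a k, hk.1, ha1 k, hk.2⟩
  · intro y hy W hW'
    exact ev_sm.1 (hP y hy W hW')

end Crest.Agent.X261.Loc.Car
end

-- ▼ part X261/Grp/IGa
section

/-!
# Row 261, package IG (helper85), part A: normalised infinitesimal data and local estimates
-/

set_option autoImplicit false

noncomputable section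

namespace Crest.Agent.X261.Grp

open Filter Topology Set

/-- normalised infinitesimal data -/
structure NG (G : Type*) [Group G] (E : Type*) [NormedAddCommGroup E] [NormedSpace ℝ E] where
  S : Set G
  v : G → E
  one_mem : (1 : G) ∈ S
  v_one : v 1 = 0
  inj : ∀ g ∈ S, v g = 0 → g = 1
  mul : ∀ g ∈ S, ∀ h ∈ S, ‖v g‖ ≤ 1 → ‖v h‖ ≤ 1 →
    g * h ∈ S ∧ ‖v (g * h) - v g - v h‖ ≤ 1 / 8 * (‖v g‖ * ‖v h‖)
  inv : ∀ g ∈ S, ‖v g‖ ≤ 1 → g⁻¹ ∈ S ∧ ‖v g⁻¹ + v g‖ ≤ 1 / 8 * (‖v g‖ * ‖v g‖)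
  conj : ∀ γ : G, ∀ ε > 0, ∃ η > 0, ∀ g ∈ S, ‖v g‖ ≤ η →
    γ * g * γ⁻¹ ∈ S ∧ ‖v (γ * g * γ⁻¹)‖ ≤ ε
  cpt : ∃ K : Set E, IsCompact K ∧ ∀ g ∈ S, ‖v g‖ ≤ 1 → ‖v g‖⁻¹ • v g ∈ K
  nd : ∀ ε > 0, ∃ g ∈ S, g ≠ 1 ∧ ‖v g‖ ≤ ε

variable {G : Type*} [Group G] {E : Type*} [NormedAddCommGroup E] [NormedSpace ℝ E]

/-- normalisation: pass to the completion and rescale -/
theorem exists_ng (I : Loc.IG G E) : ∃ (J : NG G (UniformSpace.Completion E)) (μ : ℝ), 0 < μ ∧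
    J.S = I.S ∧ ∀ g, ‖I.v g‖ = μ * ‖J.v g‖ := by
  obtain ⟨η0, hη0, hinv⟩ := I.inv I.δ I.δ_pos
  have hC : 0 < |I.C| + 1 := by positivity
  obtain ⟨μ, hμ, h1, h2, h3⟩ : ∃ μ : ℝ, 0 < μ ∧ μ < I.δ ∧ μ < η0 ∧ (|I.C| + 1) * μ ≤ 1 / 16 := by
    have hδ := I.δ_pos
    refine ⟨min (min (I.δ / 2) (η0 / 2)) (1 / 16 / (|I.C| + 1)), by positivity, ?_, ?_, ?_⟩
    · exact ((min_le_left _ _).trans (min_le_left _ _)).trans_lt (by linarith)
    · exact ((min_le_left _ _).trans (min_le_right _ _)).trans_lt (by linarith)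
    · rw [mul_comm, ← le_div_iff₀ hC]; exact min_le_right _ _
  let ι : E →ₗᵢ[ℝ] UniformSpace.Completion E := UniformSpace.Completion.toComplₗᵢ
  let w : G → UniformSpace.Completion E := fun g => ι (μ⁻¹ • I.v g)
  have hn : ∀ x : E, ‖x‖ = μ * ‖ι (μ⁻¹ • x)‖ := fun x => by
    rw [ι.norm_map, norm_smul, norm_inv, Real.norm_of_nonneg hμ.le, mul_inv_cancel_left₀ hμ.ne']
  have hw : ∀ g, ‖I.v g‖ = μ * ‖w g‖ := fun g => hn _
  have hs : ∀ g, ‖w g‖ ≤ 1 → ‖I.v g‖ ≤ μ := fun g hg => by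
    rw [hw]; exact mul_le_of_le_one_right hμ.le hg
  have hm : ∀ g ∈ I.S, ∀ h ∈ I.S, ‖I.v g‖ < I.δ → ‖I.v h‖ < I.δ →
      ‖w (g * h) - w g - w h‖ ≤ 1 / 16 * (‖w g‖ * ‖w h‖) := fun g hg h hh h4 h5 => by
    have h6 := (I.mul g hg h hh h4 h5).2
    rw [hn, smul_sub, smul_sub, map_sub, map_sub, hw g, hw h] at h6
    refine le_of_mul_le_mul_left (h6.trans ?_) hμ
    have h7 : I.C * μ ≤ 1 / 16 := by nlinarith [le_abs_self I.C]
    have h8 : 0 ≤ μ * (‖w g‖ * ‖w h‖) := by positivity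
    nlinarith
  refine ⟨⟨I.S, w, I.one_mem, by simp [w, I.v_one], fun g hg h => I.inj g hg ?_,
    fun g hg h hh h4 h5 => ?_, fun g hg h4 => ?_, fun γ ε hε => ?_, ?_, fun ε hε => ?_⟩,
    μ, hμ, rfl, hw⟩
  · rw [← norm_eq_zero, hw, h, norm_zero, mul_zero]
  · have h6 := (hs g h4).trans_lt h1
    have h7 := (hs h h5).trans_lt h1
    refine ⟨(I.mul g hg h hh h6 h7).1, (hm g hg h hh h6 h7).trans ?_⟩
    gcongr; norm_num
  · obtain ⟨h5, h6⟩ := hinv g hg ((hs g h4).trans_lt h2)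
    have h7 := hm g hg _ h5 ((hs g h4).trans_lt h1) h6
    have h8 : w (g * g⁻¹) - w g - w g⁻¹ = -(w g⁻¹ + w g) := by
      simp only [w, mul_inv_cancel, I.v_one, smul_zero, map_zero]; abel
    rw [h8, norm_neg] at h7
    have h9 : ‖w g⁻¹‖ ≤ ‖w g⁻¹ + w g‖ + ‖w g‖ := by simpa using norm_sub_le (w g⁻¹ + w g) (w g)
    refine ⟨h5, ?_⟩
    have h10 : ‖w g⁻¹‖ ≤ 2 * ‖w g‖ := by nlinarith [norm_nonneg (w g), norm_nonneg (w g⁻¹)]
    nlinarith [norm_nonneg (w g)]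
  · obtain ⟨η, hη, h4⟩ := I.conj γ (μ * ε) (by positivity)
    refine ⟨η / μ / 2, by positivity, fun g hg h5 => ?_⟩
    obtain ⟨h6, h7⟩ := h4 g hg (by
      rw [hw]
      calc μ * ‖w g‖ ≤ μ * (η / μ / 2) := by gcongr
        _ = η / 2 := by field_simp
        _ < η := by linarith)
    rw [hw] at h7
    exact ⟨h6, (lt_of_mul_lt_mul_left h7 hμ.le).le⟩
  · refine ⟨closure (ι '' _), (I.tb.image ι.isometry.uniformContinuous).closure.isCompact_of_isClosed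
      isClosed_closure, fun g hg h4 => subset_closure ⟨_, ⟨g, ⟨hg, (hs g h4).trans_lt h1⟩, rfl⟩, ?_⟩⟩
    simp only [w]
    rw [hw, ← map_smul, smul_smul, mul_inv, mul_comm]
  · obtain ⟨g, hg, h4, h5⟩ := I.nd (μ * ε) (by positivity)
    rw [hw] at h5
    exact ⟨g, hg, h4, (lt_of_mul_lt_mul_left h5 hμ.le).le⟩

namespace NG

variable (J : NG G E)

/-- the small elements -/
def N (ε : ℝ) : Set G := {g | g ∈ J.S ∧ ‖J.v g‖ ≤ ε}

variable {J}

theorem N_mono {a b : ℝ} (h : a ≤ b) : J.N a ⊆ J.N b := fun _ hg => ⟨hg.1, hg.2.trans h⟩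

theorem one_mem_N {a : ℝ} (h : 0 ≤ a) : (1 : G) ∈ J.N a := ⟨J.one_mem, by simpa [J.v_one]⟩

theorem mul_le {g h : G} (hg : g ∈ J.N 1) (hh : h ∈ J.N 1) :
    g * h ∈ J.S ∧ ‖J.v (g * h)‖ ≤ ‖J.v g‖ + 2 * ‖J.v h‖ := by
  obtain ⟨h1, h2⟩ := J.mul g hg.1 h hh.1 hg.2 hh.2
  refine ⟨h1, ?_⟩
  have h3 : ‖J.v (g * h)‖ ≤ ‖J.v (g * h) - J.v g - J.v h‖ + ‖J.v g‖ + ‖J.v h‖ := by
    simpa using norm_add₃_le (a := J.v (g * h) - J.v g - J.v h) (b := J.v h) (c := J.v g) |>.trans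
      (le_of_eq (by ring))
  nlinarith [hg.2, norm_nonneg (J.v h)]

theorem mul_N {g h : G} {a b : ℝ} (hg : g ∈ J.N a) (hh : h ∈ J.N b) (ha : a ≤ 1) (hb : b ≤ 1) :
    g * h ∈ J.N (a + 2 * b) :=
  have h1 := mul_le (N_mono ha hg) (N_mono hb hh)
  ⟨h1.1, h1.2.trans (by linarith [hg.2, hh.2])⟩

theorem inv_le {g : G} (hg : g ∈ J.N 1) : g⁻¹ ∈ J.S ∧ ‖J.v g⁻¹‖ ≤ 2 * ‖J.v g‖ := by
  obtain ⟨h1, h2⟩ := J.inv g hg.1 hg.2
  have h3 : ‖J.v g⁻¹‖ ≤ ‖J.v g⁻¹ + J.v g‖ + ‖J.v g‖ := by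
    simpa using norm_sub_le (J.v g⁻¹ + J.v g) (J.v g)
  exact ⟨h1, by nlinarith [hg.2, norm_nonneg (J.v g)]⟩

theorem inv_N {g : G} {a : ℝ} (hg : g ∈ J.N a) (ha : a ≤ 1) : g⁻¹ ∈ J.N (2 * a) :=
  have h1 := inv_le (N_mono ha hg)
  ⟨h1.1, h1.2.trans (by linarith [hg.2])⟩

theorem norm_le_of_pow {x y : E} {m : ℕ} (hm : m * ‖y‖ ≤ 1 / 2)
    (h : ‖x - (m : ℝ) • y‖ ≤ 1 / 8 * (m * ‖y‖) ^ 2) : ‖x‖ ≤ 2 * (m * ‖y‖) := by
  have h1 : ‖x‖ ≤ ‖x - (m : ℝ) • y‖ + m * ‖y‖ := by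
    simpa [norm_smul] using norm_add_le (x - (m : ℝ) • y) ((m : ℝ) • y)
  have h2 : 0 ≤ m * ‖y‖ := by positivity
  nlinarith

theorem pow_est {g : G} (hg : g ∈ J.S) (m : ℕ) (hm : m * ‖J.v g‖ ≤ 1 / 2) :
    g ^ m ∈ J.S ∧ ‖J.v (g ^ m) - (m : ℝ) • J.v g‖ ≤ 1 / 8 * (m * ‖J.v g‖) ^ 2 := by
  induction m with
  | zero => simp [J.one_mem, J.v_one]
  | succ m ih =>
    have h0 := norm_nonneg (J.v g)
    have h0' : 0 ≤ m * ‖J.v g‖ := by positivity
    push_cast at hm ⊢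
    obtain ⟨h1, h2⟩ := ih (by nlinarith)
    have h3 := norm_le_of_pow (by nlinarith) h2
    obtain ⟨h4, h5⟩ := J.mul _ h1 g hg (by nlinarith) (by nlinarith)
    refine ⟨by rwa [pow_succ], ?_⟩
    have h6 : J.v (g ^ (m + 1)) - ((m : ℝ) + 1) • J.v g =
        (J.v (g ^ m * g) - J.v (g ^ m) - J.v g) + (J.v (g ^ m) - (m : ℝ) • J.v g) := by
      rw [pow_succ, add_smul, one_smul]; abel
    rw [h6]
    refine (norm_add_le _ _).trans ?_
    nlinarith [mul_le_mul_of_nonneg_right h3 h0, sq_nonneg ‖J.v g‖]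

theorem pow_N {g : G} (hg : g ∈ J.S) {m : ℕ} {a : ℝ} (hm : m * ‖J.v g‖ ≤ a) (ha : a ≤ 1 / 2) :
    g ^ m ∈ J.N (2 * a) :=
  have h1 := pow_est hg m (hm.trans ha)
  ⟨h1.1, (norm_le_of_pow (hm.trans ha) h1.2).trans (by linarith)⟩

theorem dist_le {a b : G} (ha : a ∈ J.N (1 / 4)) (hb : b ∈ J.N (1 / 4)) :
    a * b⁻¹ ∈ J.S ∧ ‖J.v (a * b⁻¹)‖ ≤ 2 * ‖J.v a - J.v b‖ := by
  have h1 := inv_N hb (by norm_num)
  obtain ⟨h2, h3⟩ := J.mul a ha.1 _ h1.1 (by linarith [ha.2]) (by linarith [h1.2])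
  have h4 : ‖J.v (a * b⁻¹)‖ ≤ 1 := by
    have h4 : ‖J.v (a * b⁻¹)‖ ≤ ‖J.v (a * b⁻¹) - J.v a - J.v b⁻¹‖ + ‖J.v b⁻¹‖ + ‖J.v a‖ := by
      simpa using norm_add₃_le (a := J.v (a * b⁻¹) - J.v a - J.v b⁻¹) (b := J.v b⁻¹) (c := J.v a)
    nlinarith [ha.2, h1.2, norm_nonneg (J.v a), norm_nonneg (J.v b⁻¹)]
  have h5 := (J.mul _ h2 b hb.1 h4 (by linarith [hb.2])).2
  rw [inv_mul_cancel_right] at h5
  have h6 : ‖J.v (a * b⁻¹)‖ ≤ ‖J.v a - J.v b‖ + ‖J.v a - J.v (a * b⁻¹) - J.v b‖ := by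
    refine le_trans (le_of_eq ?_) (norm_sub_le _ _)
    congr 1; abel
  exact ⟨h2, by nlinarith [hb.2, norm_nonneg (J.v (a * b⁻¹))]⟩

theorem conj_small {x s : G} (hx : x ∈ J.N (1 / 16)) (hs : s ∈ J.N (1 / 16)) :
    x * s * x⁻¹ ∈ J.S ∧ ‖J.v (x * s * x⁻¹) - J.v s‖ ≤ ‖J.v x‖ * ‖J.v s‖ := by
  have h1 := (J.mul x hx.1 s hs.1 (by linarith [hx.2]) (by linarith [hs.2])).2
  have h2 := (J.mul s hs.1 x hx.1 (by linarith [hs.2]) (by linarith [hx.2])).2
  obtain ⟨h3, h4⟩ := dist_le (N_mono (by norm_num) (mul_N hx hs (by norm_num) (by norm_num)))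
    (N_mono (by norm_num) (mul_N hs hx (by norm_num) (by norm_num)))
  have h5 : ‖J.v (x * s) - J.v (s * x)‖ ≤
      ‖J.v (x * s) - J.v x - J.v s‖ + ‖J.v (s * x) - J.v s - J.v x‖ := by
    refine le_trans (le_of_eq ?_) (norm_sub_le _ _)
    congr 1; abel
  have h6 := mul_nonneg (norm_nonneg (J.v x)) (norm_nonneg (J.v s))
  have h7 : ‖J.v x‖ * ‖J.v s‖ ≤ 1 := by nlinarith [hx.2, hs.2, norm_nonneg (J.v x)]
  set w := x * s * (s * x)⁻¹ with hw
  have h8 : ‖J.v w‖ ≤ 1 / 2 * (‖J.v x‖ * ‖J.v s‖) := by linarith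
  obtain ⟨h9, h10⟩ := J.mul w h3 s hs.1 (by linarith) (by linarith [hs.2])
  have h11 : w * s = x * s * x⁻¹ := by rw [hw]; group
  rw [h11] at h9 h10
  have h12 : ‖J.v (x * s * x⁻¹) - J.v s‖ ≤ ‖J.v (x * s * x⁻¹) - J.v w - J.v s‖ + ‖J.v w‖ := by
    refine le_trans (le_of_eq ?_) (norm_add_le _ _)
    congr 1; abel
  exact ⟨h9, by nlinarith [hs.2, norm_nonneg (J.v w)]⟩

theorem conj_N {x s : G} {a : ℝ} (hx : x ∈ J.N (1 / 16)) (hs : s ∈ J.N a) (ha : a ≤ 1 / 16) :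
    x * s * x⁻¹ ∈ J.N (2 * a) := by
  obtain ⟨h1, h2⟩ := conj_small hx (N_mono ha hs)
  have h3 : ‖J.v (x * s * x⁻¹)‖ ≤ ‖J.v (x * s * x⁻¹) - J.v s‖ + ‖J.v s‖ := by
    simpa using norm_add_le (J.v (x * s * x⁻¹) - J.v s) (J.v s)
  exact ⟨h1, by nlinarith [hx.2, hs.2, norm_nonneg (J.v s)]⟩

/-- no small subgroups, quantitatively -/
theorem nss {g : G} (m : ℕ) (h : ∀ j ≤ m, g ^ j ∈ J.N (1 / 16)) : m * ‖J.v g‖ ≤ 1 / 8 := by
  induction m with
  | zero => simp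
  | succ m ih =>
    have h1 := ih fun j hj => h j (by omega)
    have h2 := h 1 (by omega)
    rw [pow_one] at h2
    have h3 : ((m + 1 : ℕ) : ℝ) * ‖J.v g‖ ≤ 3 / 16 := by push_cast; linarith [h2.2]
    have h4 := (pow_est h2.1 (m + 1) (by linarith)).2
    have h5 : ((m + 1 : ℕ) : ℝ) * ‖J.v g‖ ≤
        ‖J.v (g ^ (m + 1))‖ + ‖J.v (g ^ (m + 1)) - ((m + 1 : ℕ) : ℝ) • J.v g‖ := by
      refine le_trans (le_of_eq ?_) (norm_sub_le _ _)
      rw [sub_sub_cancel, norm_smul, Real.norm_natCast]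
    have h6 : 0 ≤ ((m + 1 : ℕ) : ℝ) * ‖J.v g‖ := by positivity
    nlinarith [(h (m + 1) le_rfl).2]

theorem floor_mul {t r : ℝ} (ht : 0 ≤ t) (hr : 0 < r) :
    ⌊t / r⌋₊ * r ≤ t ∧ t - r ≤ ⌊t / r⌋₊ * r := by
  have h1 := Nat.floor_le (div_nonneg ht hr.le)
  have h2 := (Nat.lt_floor_add_one (t / r)).le
  rw [le_div_iff₀ hr] at h1
  rw [div_le_iff₀ hr] at h2
  exact ⟨h1, by linarith⟩

variable (J) in
/-- conjugations are Lipschitz at `1` -/
theorem lip (z : G) : ∃ L : ℝ, 0 < L ∧ ∃ η > 0, ∀ g ∈ J.N η,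
    z * g * z⁻¹ ∈ J.S ∧ ‖J.v (z * g * z⁻¹)‖ ≤ L * ‖J.v g‖ := by
  obtain ⟨η0, hη0, h1⟩ := J.conj z (1 / 16) (by norm_num)
  set η := min η0 1
  have h2 : 0 < η := by positivity
  have h3 : η ≤ η0 := min_le_left _ _
  have h4 : η ≤ 1 := min_le_right _ _
  refine ⟨η⁻¹, by positivity, η / 4, by positivity, fun g hg => ⟨(h1 g hg.1
    (by linarith [hg.2])).1, ?_⟩⟩
  rcases (norm_nonneg (J.v g)).eq_or_lt with h5 | h5
  · rw [J.inj g hg.1 (norm_eq_zero.1 h5.symm)]; simp [J.v_one]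
  obtain ⟨h6, h7⟩ := floor_mul (by positivity : 0 ≤ η / 2) h5
  set m := ⌊η / 2 / ‖J.v g‖⌋₊
  have h8 := nss (J := J) (g := z * g * z⁻¹) m fun j hj => by
    have h8 := pow_N hg.1 (m := j) (a := η / 2) (le_trans (by gcongr) h6) (by linarith)
    rw [conj_pow]
    exact h1 _ h8.1 (by linarith [h8.2])
  rw [le_inv_mul_iff₀ h2]
  have h9 := mul_le_mul_of_nonneg_left h8 h5.le
  have h10 := norm_nonneg (J.v (z * g * z⁻¹))
  have h11 : η / 4 ≤ m * ‖J.v g‖ := by linarith [hg.2]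
  nlinarith [mul_le_mul_of_nonneg_right h11 h10]

/-- powers of a tiny element approximate its direction -/
theorem approx {b : G} (hb : b ∈ J.S) (hb0 : 0 < ‖J.v b‖) {t : ℝ} (ht : 0 ≤ t) (ht1 : t ≤ 1 / 2) :
    ‖J.v (b ^ ⌊t / ‖J.v b‖⌋₊) - t • ‖J.v b‖⁻¹ • J.v b‖ ≤ 1 / 8 * t ^ 2 + ‖J.v b‖ := by
  obtain ⟨h1, h2⟩ := floor_mul ht hb0
  set m := ⌊t / ‖J.v b‖⌋₊
  have h3 := (pow_est hb m (h1.trans ht1)).2
  have h4 : ‖(m : ℝ) • J.v b - t • ‖J.v b‖⁻¹ • J.v b‖ ≤ ‖J.v b‖ := by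
    rw [smul_smul, ← sub_smul, norm_smul, Real.norm_eq_abs, ← abs_of_pos hb0, ← abs_mul,
      abs_of_pos hb0, sub_mul, mul_assoc, inv_mul_cancel₀ hb0.ne', mul_one, abs_le]
    constructor <;> linarith
  have h5 : (m * ‖J.v b‖) ^ 2 ≤ t ^ 2 := by gcongr
  linarith [norm_sub_le_norm_sub_add_norm_sub (J.v (b ^ m)) ((m : ℝ) • J.v b)
    (t • ‖J.v b‖⁻¹ • J.v b)]

theorem tendsto_rinv : Tendsto (fun k : ℕ => ((k : ℝ) + 1)⁻¹) atTop (𝓝 0) := by
  simpa using tendsto_one_div_add_atTop_nhds_zero_nat (𝕜 := ℝ)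

variable (J) in
/-- recurrent directions -/
theorem recur : ∃ e > 0, ∀ a ∈ J.N e, 0 < ‖J.v a‖ → ∀ η > 0, ∃ b ∈ J.N η, 0 < ‖J.v b‖ ∧
    ‖‖J.v b‖⁻¹ • J.v b - ‖J.v a‖⁻¹ • J.v a‖ ≤ 1 / 8 := by
  by_contra h
  push Not at h
  choose a ha ha0 η hη h using fun k : ℕ => h ((k : ℝ) + 1)⁻¹ (by positivity)
  obtain ⟨K, hK, h1⟩ := J.cpt
  obtain ⟨u, -, φ, hφ, h2⟩ := hK.tendsto_subseq (x := fun k => ‖J.v (a k)‖⁻¹ • J.v (a k))
    fun k => h1 _ (ha k).1 ((ha k).2.trans (inv_le_one_of_one_le₀ (by simp)))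
  have h3 := h2.eventually (Metric.closedBall_mem_nhds u (by norm_num : (0 : ℝ) < 1 / 16))
  obtain ⟨k, hk⟩ := h3.exists
  obtain ⟨l, hl1, hl2⟩ := (h3.and ((tendsto_rinv.comp hφ.tendsto_atTop).eventually
    (ge_mem_nhds (hη (φ k))))).exists
  refine absurd (h (φ k) (a (φ l)) (N_mono hl2 (ha _)) (ha0 _)) (not_lt.2 ?_)
  rw [← dist_eq_norm]
  exact (dist_triangle_right _ _ u).trans (by
    simp only [Function.comp] at hk hl1; linarith)

variable (J) in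
/-- halving: a small element is a power of a tiny element up to half its size -/
theorem halve : ∃ e > 0, e ≤ 1 / 32 ∧ ∀ a ∈ J.N e, ∀ η > 0, ∃ b ∈ J.N η, ∃ m : ℕ,
    m * ‖J.v b‖ ≤ ‖J.v a‖ ∧ a * (b ^ m)⁻¹ ∈ J.N (‖J.v a‖ / 2) := by
  obtain ⟨e, he, h⟩ := J.recur
  refine ⟨min e (1 / 32), by positivity, min_le_right _ _, fun a ha η hη => ?_⟩
  have h1 : ‖J.v a‖ ≤ 1 / 32 := ha.2.trans (min_le_right _ _)
  rcases (norm_nonneg (J.v a)).eq_or_lt with h2 | h2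
  · refine ⟨1, one_mem_N hη.le, 0, by simp, ?_⟩
    rw [J.inj a ha.1 (norm_eq_zero.1 h2.symm)]
    simpa using one_mem_N (by positivity)
  obtain ⟨b, hb, hb0, h3⟩ := h a (N_mono (min_le_left _ _) ha) h2 (min η (‖J.v a‖ / 32))
    (by positivity)
  have h4 : ‖J.v b‖ ≤ ‖J.v a‖ / 32 := hb.2.trans (min_le_right _ _)
  have h5 := approx hb.1 hb0 h2.le (by linarith)
  have h6 := (floor_mul h2.le hb0).1
  refine ⟨b, N_mono (min_le_left _ _) hb, _, h6, ?_⟩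
  obtain ⟨h7, h8⟩ := dist_le (a := a) ⟨ha.1, by linarith⟩
    (N_mono (by linarith) (pow_N hb.1 h6 (by linarith)))
  have h9 : ‖‖J.v a‖ • ‖J.v b‖⁻¹ • J.v b - J.v a‖ ≤ ‖J.v a‖ * (1 / 8) := by
    have h9 : ‖J.v a‖ • ‖J.v b‖⁻¹ • J.v b - J.v a =
        ‖J.v a‖ • (‖J.v b‖⁻¹ • J.v b - ‖J.v a‖⁻¹ • J.v a) := by
      rw [smul_sub, smul_inv_smul₀ h2.ne']
    rw [h9, norm_smul, norm_norm]
    gcongr
  rw [norm_sub_rev] at h8
  refine ⟨h7, h8.trans ?_⟩
  nlinarith [norm_sub_le_norm_sub_add_norm_sub (J.v (b ^ ⌊‖J.v a‖ / ‖J.v b‖⌋₊))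
    (‖J.v a‖ • ‖J.v b‖⁻¹ • J.v b) (J.v a)]

section halve

variable {e : ℝ} (he : e ≤ 1 / 32) (h : ∀ a ∈ J.N e, ∀ η > 0, ∃ b ∈ J.N η, ∃ m : ℕ,
    m * ‖J.v b‖ ≤ ‖J.v a‖ ∧ a * (b ^ m)⁻¹ ∈ J.N (‖J.v a‖ / 2))

include h in
theorem gen {η : ℝ} (hη : 0 < η) : Subgroup.closure (J.N e) ≤ Subgroup.closure (J.N η) := by
  have h1 : ∀ k : ℕ, ∀ a ∈ J.N e, ‖J.v a‖ ≤ 2 ^ k * η → a ∈ Subgroup.closure (J.N η) := by
    intro k
    induction k with
    | zero => exact fun a ha h1 => Subgroup.subset_closure ⟨ha.1, by simpa using h1⟩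
    | succ k ih =>
      intro a ha h1
      obtain ⟨b, hb, m, -, h2⟩ := h a ha η hη
      have h3 := ih _ (N_mono (by linarith [ha.2, norm_nonneg (J.v a)]) h2)
        (h2.2.trans (by rw [pow_succ] at h1; linarith))
      simpa using Subgroup.mul_mem _ h3 (Subgroup.pow_mem _ (Subgroup.subset_closure hb) m)
  refine (Subgroup.closure_le _).2 fun a ha => ?_
  obtain ⟨k, hk⟩ := pow_unbounded_of_one_lt (‖J.v a‖ / η) (one_lt_two (α := ℝ))
  exact h1 k a ha ((div_le_iff₀ hη).1 hk.le)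

include he h in
/-- an element that is infinitesimally central centralises the small elements -/
theorem cent {z : G} (he0 : 0 < e) (hz : ∀ κ > 0, ∃ η > 0, ∀ b ∈ J.N η,
    z * b * z⁻¹ * b⁻¹ ∈ J.N (κ * ‖J.v b‖)) : ∀ a ∈ Subgroup.closure (J.N e), z * a = a * z := by
  obtain ⟨η1, hη1, h1⟩ := hz 1 one_pos
  have h2 : ∀ k : ℕ, ∀ a ∈ J.N (min e η1), ‖J.v (z * a * z⁻¹ * a⁻¹)‖ ≤ (3 / 4) ^ k * ‖J.v a‖ := by
    intro k
    induction k with
    | zero => exact fun a ha => by simpa using (h1 a (N_mono (min_le_right _ _) ha)).2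
    | succ k ih =>
      intro a ha
      have hk : (3 / 4 : ℝ) ^ k ≤ 1 := pow_le_one₀ (by norm_num) (by norm_num)
      have hk0 : 0 < (3 / 4 : ℝ) ^ k := by positivity
      set κ := (3 / 4 : ℝ) ^ k / 64 with hκ
      have hκ0 : 0 < κ := by positivity
      have hκ1 : κ ≤ 1 / 64 := by linarith
      have ha1 : ‖J.v a‖ ≤ 1 / 32 := ha.2.trans ((min_le_left _ _).trans he)
      have ha0 := norm_nonneg (J.v a)
      obtain ⟨η, hη, h3⟩ := hz κ hκ0
      obtain ⟨b, hb, m, hm, h4⟩ := h a (N_mono (min_le_left _ _) ha) (min η 1) (by positivity)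
      have hb0 := norm_nonneg (J.v b)
      have hb1 : ‖J.v b‖ ≤ 1 := hb.2.trans (min_le_right _ _)
      have h5 := h3 b (N_mono (min_le_left _ _) hb)
      have h6 : ∀ j ≤ m, z * b ^ j * z⁻¹ * (b ^ j)⁻¹ ∈ J.N (4 * κ * (j * ‖J.v b‖)) := by
        intro j hj
        induction j with
        | zero => simpa using one_mem_N le_rfl
        | succ j ihj =>
          have h6 : (j : ℝ) * ‖J.v b‖ ≤ 1 / 32 := le_trans (by gcongr; omega) (hm.trans ha1)
          have h7 := mul_N (ihj (by omega)) (conj_N (N_mono (by norm_num)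
            (pow_N hb.1 h6 (by norm_num))) h5 (by nlinarith)) (by nlinarith) (by nlinarith)
          have h8 : z * b ^ (j + 1) * z⁻¹ * (b ^ (j + 1))⁻¹ = z * b ^ j * z⁻¹ * (b ^ j)⁻¹ *
              (b ^ j * (z * b * z⁻¹ * b⁻¹) * (b ^ j)⁻¹) := by
            rw [pow_succ]; generalize b ^ j = B; group
          rw [h8]
          exact N_mono (le_of_eq (by push_cast; ring)) h7
      have h7 := N_mono (show _ ≤ 4 * κ * ‖J.v a‖ by gcongr) (h6 m le_rfl)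
      set a' := a * (b ^ m)⁻¹ with ha'
      have h8 : a' ∈ J.N (min e η1) := N_mono (by linarith [ha.2]) h4
      have h9 : z * a' * z⁻¹ * a'⁻¹ ∈ J.N ((3 / 4) ^ k * (‖J.v a‖ / 2)) :=
        ⟨(h1 a' (N_mono (min_le_right _ _) h8)).1, (ih a' h8).trans (by gcongr; exact h4.2)⟩
      have h10 := mul_N h9 (conj_N (N_mono (by linarith) h4) h7 (by nlinarith)) (by nlinarith)
        (by nlinarith)
      have h11 : z * a' * z⁻¹ * a'⁻¹ * (a' * (z * b ^ m * z⁻¹ * (b ^ m)⁻¹) * a'⁻¹) =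
          z * a * z⁻¹ * a⁻¹ := by rw [ha']; group
      rw [h11] at h10
      refine h10.2.trans (le_of_eq ?_)
      rw [hκ]; ring
  intro a ha
  have h3 : Subgroup.closure (J.N (min e η1)) ≤ Subgroup.centralizer {z} := by
    refine (Subgroup.closure_le _).2 fun a ha => ?_
    have h3 : ‖J.v (z * a * z⁻¹ * a⁻¹)‖ ≤ 0 := by
      refine ge_of_tendsto' (x := atTop) ?_ fun k => h2 k a ha
      simpa using (tendsto_pow_atTop_nhds_zero_of_lt_one (r := (3 / 4 : ℝ)) (by norm_num)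
        (by norm_num)).mul_const ‖J.v a‖
    have h4 := J.inj _ (h1 a (N_mono (min_le_right _ _) ha)).1 (norm_le_zero_iff.1 h3)
    rw [SetLike.mem_coe, Subgroup.mem_centralizer_singleton_iff]
    rw [mul_inv_eq_one, mul_inv_eq_iff_eq_mul] at h4
    exact h4.symm
  exact (Subgroup.mem_centralizer_singleton_iff.1 (h3 (gen h (by positivity) ha))).symm

end halve

end NG

end Crest.Agent.X261.Grp
end
end

-- ▼ part X261/Grp/IGb
section

/-!
# Row 261, package IG (helper85), part B: the Lie algebra, the adjoint representation, the theorem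
-/

set_option autoImplicit false

noncomputable section

namespace Crest.Agent.X261.Grp

open Filter Topology Set Crest.Agent.R189

variable {G : Type*} [Group G] {E : Type*} [NormedAddCommGroup E] [NormedSpace ℝ E]

namespace NG

variable (J : NG G E)

/-- the ultrafilter -/
abbrev UF : Filter ℕ := hyperfilter ℕ

theorem UF_le : UF ≤ atTop := Nat.hyperfilter_le_atTop

theorem rinv_UF : Tendsto (fun k : ℕ => ((k : ℝ) + 1)⁻¹) UF (𝓝 0) := tendsto_rinv.mono_left UF_le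

theorem rinv_ev {ε : ℝ} (hε : 0 < ε) : ∀ᶠ k : ℕ in UF, ((k : ℝ) + 1)⁻¹ ≤ ε :=
  rinv_UF.eventually (ge_mem_nhds hε)

/-- `ξ` is the tangent vector of the sequence `s` -/
def Rel (s : ℕ → G) (ξ : E) : Prop :=
  (∀ᶠ k in UF, s k ∈ J.S) ∧ Tendsto (fun k : ℕ => ((k : ℝ) + 1) • J.v (s k)) UF (𝓝 ξ)

variable {J}

theorem norm_r (k : ℕ) (x : E) : ‖((k : ℝ) + 1) • x‖ = ((k : ℝ) + 1) * ‖x‖ := by
  rw [norm_smul, Real.norm_of_nonneg (by positivity)]

namespace Rel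

variable {s s' : ℕ → G} {ξ ξ' : E}

theorem norm (h : J.Rel s ξ) : Tendsto (fun k : ℕ => ((k : ℝ) + 1) * ‖J.v (s k)‖) UF (𝓝 ‖ξ‖) := by
  simpa only [norm_r] using h.2.norm

theorem small (h : J.Rel s ξ) : Tendsto (fun k : ℕ => ‖J.v (s k)‖) UF (𝓝 0) := by
  have h1 := rinv_UF.mul h.norm
  rw [zero_mul] at h1
  exact h1.congr fun k => inv_mul_cancel_left₀ (by positivity) _

theorem ev (h : J.Rel s ξ) {ε : ℝ} (hε : 0 < ε) : ∀ᶠ k in UF, s k ∈ J.N ε :=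
  h.1.and (h.small.eventually (ge_mem_nhds hε))

theorem unique (h : J.Rel s ξ) (h' : J.Rel s ξ') : ξ = ξ' := tendsto_nhds_unique h.2 h'.2

theorem mul (h : J.Rel s ξ) (h' : J.Rel s' ξ') : J.Rel (fun k => s k * s' k) (ξ + ξ') := by
  have h1 := ((h.ev one_pos).and (h'.ev one_pos)).mono fun k hk =>
    J.mul _ hk.1.1 _ hk.2.1 hk.1.2 hk.2.2
  refine ⟨h1.mono fun k hk => hk.1, (h.2.add h'.2).congr_dist ?_⟩
  have h2 := (h.norm.mul h'.small).const_mul (1 / 8)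
  rw [mul_zero, mul_zero] at h2
  refine squeeze_zero' (Eventually.of_forall fun _ => dist_nonneg) (h1.mono fun k hk => ?_) h2
  rw [dist_comm, dist_eq_norm, ← smul_add, ← smul_sub, norm_r, ← sub_sub]
  nlinarith [mul_le_mul_of_nonneg_left hk.2 (by positivity : 0 ≤ (k : ℝ) + 1)]

theorem inv (h : J.Rel s ξ) : J.Rel (fun k => (s k)⁻¹) (-ξ) := by
  have h1 := (h.ev one_pos).mono fun k hk => J.inv _ hk.1 hk.2
  refine ⟨h1.mono fun k hk => hk.1, h.2.neg.congr_dist ?_⟩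
  have h2 := (h.norm.mul h.small).const_mul (1 / 8)
  rw [mul_zero, mul_zero] at h2
  refine squeeze_zero' (Eventually.of_forall fun _ => dist_nonneg) (h1.mono fun k hk => ?_) h2
  rw [dist_comm, dist_eq_norm, sub_neg_eq_add, ← smul_add, norm_r]
  nlinarith [mul_le_mul_of_nonneg_left hk.2 (by positivity : 0 ≤ (k : ℝ) + 1)]

end Rel

theorem rel_one : J.Rel (fun _ => 1) 0 :=
  ⟨Eventually.of_forall fun _ => J.one_mem, by simp [J.v_one]⟩

variable (J) in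
theorem exists_cpt (R : ℝ) : ∃ K : Set E, IsCompact K ∧
    ∀ g ∈ J.N 1, ∀ t : ℝ, 0 ≤ t → t * ‖J.v g‖ ≤ R → t • J.v g ∈ K := by
  obtain ⟨K, hK, h⟩ := J.cpt
  refine ⟨(fun p : ℝ × E => p.1 • p.2) '' Icc 0 R ×ˢ K, (isCompact_Icc.prod hK).image (by fun_prop),
    fun g hg t ht h1 => ⟨(t * ‖J.v g‖, ‖J.v g‖⁻¹ • J.v g), ⟨⟨by positivity, h1⟩, h g hg.1 hg.2⟩, ?_⟩⟩
  by_cases h2 : J.v g = 0
  · simp [h2]
  · simp only [smul_smul]
    rw [mul_inv_cancel_right₀ (norm_ne_zero_iff.2 h2)]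

theorem exists_rel {s : ℕ → G} {R : ℝ}
    (h : ∀ᶠ k in UF, s k ∈ J.S ∧ ((k : ℝ) + 1) * ‖J.v (s k)‖ ≤ R) : ∃ ξ, J.Rel s ξ := by
  obtain ⟨K, hK, h1⟩ := J.exists_cpt R
  obtain ⟨ξ, -, h2⟩ := hK.ultrafilter_le_nhds
    ((hyperfilter ℕ).map fun k : ℕ => ((k : ℝ) + 1) • J.v (s k)) (by
      rw [le_principal_iff, Ultrafilter.coe_map, mem_map]
      filter_upwards [h, (tendsto_natCast_atTop_atTop.mono_left UF_le).eventually_ge_atTop R]
        with k hk hk'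
      refine h1 _ ⟨hk.1, ?_⟩ _ (by positivity) hk.2
      by_contra h3
      nlinarith [not_le.1 h3, hk.2, (Nat.cast_nonneg k : (0 : ℝ) ≤ k)])
  exact ⟨ξ, h.mono fun k hk => hk.1, h2⟩

variable (J) in
theorem exists_conj (z : G) : ∃ L : ℝ, ∀ s ξ, J.Rel s ξ →
    ∃ ξ', J.Rel (fun k => z * s k * z⁻¹) ξ' ∧ ‖ξ'‖ ≤ L * ‖ξ‖ := by
  obtain ⟨L, hL, η, hη, h⟩ := J.lip z
  refine ⟨L, fun s ξ hs => ?_⟩
  have h1 : ∀ᶠ k in UF, z * s k * z⁻¹ ∈ J.S ∧
      ((k : ℝ) + 1) * ‖J.v (z * s k * z⁻¹)‖ ≤ L * (((k : ℝ) + 1) * ‖J.v (s k)‖) :=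
    (hs.ev hη).mono fun k hk => ⟨(h _ hk).1, by
      nlinarith [mul_le_mul_of_nonneg_left (h _ hk).2 (by positivity : 0 ≤ (k : ℝ) + 1)]⟩
  have h2 := hs.norm.const_mul L
  obtain ⟨ξ', h3⟩ := exists_rel (J := J) (s := fun k => z * s k * z⁻¹) (R := L * ‖ξ‖ + 1)
    ((h1.and (h2.eventually (ge_mem_nhds (lt_add_one _)))).mono
      fun k hk => ⟨hk.1.1, hk.1.2.trans hk.2⟩)
  exact ⟨ξ', h3, le_of_tendsto_of_tendsto h3.norm h2 (h1.mono fun k hk => hk.2)⟩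

theorem rel_dir {u : E} (hu : ∀ η > 0, ∃ b ∈ J.N η, 0 < ‖J.v b‖ ∧ ‖‖J.v b‖⁻¹ • J.v b - u‖ ≤ η)
    {t : ℝ} (ht : 0 ≤ t) : ∃ s, J.Rel s (t • u) := by
  choose b hb hb0 hbu using fun k : ℕ => hu (((k : ℝ) + 1)⁻¹ * ((k : ℝ) + 1)⁻¹) (by positivity)
  have h1 : ∀ᶠ k : ℕ in UF, t * ((k : ℝ) + 1)⁻¹ ≤ 1 / 2 := by
    have h1 := rinv_UF.const_mul t
    rw [mul_zero] at h1
    exact h1.eventually (ge_mem_nhds (by norm_num))
  refine ⟨fun k => b k ^ ⌊t * ((k : ℝ) + 1)⁻¹ / ‖J.v (b k)‖⌋₊, h1.mono fun k hk =>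
    (pow_est (hb k).1 _ ((floor_mul (by positivity) (hb0 k)).1.trans hk)).1, ?_⟩
  have h2 := rinv_UF.const_mul (t ^ 2 + 1 + t)
  rw [mul_zero] at h2
  refine tendsto_iff_norm_sub_tendsto_zero.2 (squeeze_zero' (Eventually.of_forall fun _ =>
    norm_nonneg _) (h1.mono fun k hk => ?_) h2)
  have h3 := approx (hb k).1 (hb0 k) (by positivity) hk
  have h4 := (hb k).2
  have h5 := hbu k
  have hr : (0 : ℝ) < k + 1 := by positivity
  have hr1 : ((k : ℝ) + 1)⁻¹ ≤ 1 := inv_le_one_of_one_le₀ (by simp)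
  have hr2 := mul_inv_cancel₀ hr.ne'
  set x := J.v (b k ^ ⌊t * ((k : ℝ) + 1)⁻¹ / ‖J.v (b k)‖⌋₊)
  set d := ‖J.v (b k)‖⁻¹ • J.v (b k)
  have h6 : ((k : ℝ) + 1) • x - t • u =
      ((k : ℝ) + 1) • (x - (t * ((k : ℝ) + 1)⁻¹) • d) + t • (d - u) := by
    rw [smul_sub, smul_sub, smul_smul, mul_comm t, mul_inv_cancel_left₀ hr.ne']; abel
  rw [h6]
  refine (norm_add_le _ _).trans ?_
  rw [norm_r, norm_smul, Real.norm_of_nonneg ht]
  set q := ((k : ℝ) + 1)⁻¹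
  have hq : 0 < q := by positivity
  have h7 : ((k : ℝ) + 1) * ‖x - (t * q) • d‖ ≤ ((k : ℝ) + 1) * ((t * q) ^ 2 + q * q) := by
    gcongr; nlinarith [sq_nonneg (t * q)]
  have h8 : ((k : ℝ) + 1) * ((t * q) ^ 2 + q * q) = (t ^ 2 + 1) * q := by
    linear_combination (t ^ 2 + 1) * q * hr2
  have h9 : t * ‖d - u‖ ≤ t * q := by gcongr; nlinarith
  linarith

variable (J) in
/-- the Lie algebra -/
def gg : Submodule ℝ E where
  carrier := {ξ | ∃ s, J.Rel s ξ}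
  zero_mem' := ⟨_, rel_one⟩
  add_mem' := fun ⟨_, h⟩ ⟨_, h'⟩ => ⟨_, h.mul h'⟩
  smul_mem' := by
    rintro c ξ ⟨s, hs⟩
    by_cases h0 : ξ = 0
    · exact ⟨_, by simpa [h0] using rel_one⟩
    have h1 : 0 < ‖ξ‖ := norm_pos_iff.2 h0
    obtain ⟨s', h2⟩ := rel_dir (J := J) (u := ‖ξ‖⁻¹ • ξ) (t := |c| * ‖ξ‖) (fun η hη => by
      have h2 := (hs.norm.inv₀ h1.ne').smul hs.2
      obtain ⟨k, ⟨h3, h4⟩, h5⟩ := (((hs.ev hη).and (hs.norm.eventually (lt_mem_nhds h1))).and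
        (h2.eventually (Metric.closedBall_mem_nhds _ hη))).exists
      have hr : (0 : ℝ) < k + 1 := by positivity
      refine ⟨s k, h3, (mul_pos_iff_of_pos_left hr).1 h4, ?_⟩
      rwa [dist_eq_norm, smul_smul, mul_inv, mul_comm _ ‖J.v (s k)‖⁻¹,
        inv_mul_cancel_right₀ hr.ne'] at h5) (by positivity)
    rw [smul_smul, mul_inv_cancel_right₀ h1.ne'] at h2
    rcases abs_cases c with h3 | h3
    · exact ⟨s', by rwa [h3.1] at h2⟩
    · exact ⟨_, by simpa [h3.1] using h2.inv⟩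

instance : FiniteDimensional ℝ J.gg := by
  obtain ⟨K, hK, h⟩ := J.exists_cpt 2
  refine .of_totallyBounded_nhds_zero ℝ (Metric.closedBall_mem_nhds 0 one_pos)
    ((totallyBounded_preimage isUniformEmbedding_subtype_val.isUniformInducing
      hK.totallyBounded).subset fun ξ hξ => ?_)
  obtain ⟨s, hs⟩ := ξ.2
  have h1 : ‖(ξ : E)‖ < 2 := (mem_closedBall_zero_iff.1 hξ).trans_lt one_lt_two
  refine hK.isClosed.mem_of_tendsto hs.2 ?_
  filter_upwards [hs.ev one_pos, hs.norm.eventually (ge_mem_nhds h1)] with k h2 h3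
  exact h _ h2 _ (by positivity) h3

theorem exists_ad (z : G) (ξ : J.gg) :
    ∃ ξ' : J.gg, ∀ s, J.Rel s ξ → J.Rel (fun k => z * s k * z⁻¹) ξ' := by
  obtain ⟨L, hL⟩ := J.exists_conj z
  obtain ⟨s0, h0⟩ := ξ.2
  obtain ⟨ξ', h1, -⟩ := hL s0 ξ h0
  refine ⟨⟨ξ', _, h1⟩, fun s hs => ?_⟩
  obtain ⟨ξ'', h2, h3⟩ := hL _ _ (h0.inv.mul hs)
  rw [neg_add_cancel, norm_zero, mul_zero, norm_le_zero_iff] at h3
  have h4 := h1.mul h2
  rw [h3, add_zero] at h4
  convert h4 using 2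
  group

/-- the adjoint action, as a function -/
def ad0 (z : G) (ξ : J.gg) : J.gg := (exists_ad z ξ).choose

theorem Rel.ad0 {s : ℕ → G} {ξ : J.gg} (h : J.Rel s ξ) (z : G) :
    J.Rel (fun k => z * s k * z⁻¹) (ad0 z ξ : J.gg) := (exists_ad z ξ).choose_spec s h

theorem ad0_add (z : G) (ξ ξ' : J.gg) : ad0 z (ξ + ξ') = ad0 z ξ + ad0 z ξ' := by
  obtain ⟨s, h⟩ := ξ.2
  obtain ⟨s', h'⟩ := ξ'.2
  refine Subtype.ext ((Rel.ad0 (ξ := ξ + ξ') (h.mul h') z).unique ?_)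
  have h1 := (h.ad0 z).mul (h'.ad0 z)
  simp only [conj_mul] at h1
  exact h1

variable (J) in
/-- the adjoint representation -/
def ad : G →* Module.End ℝ J.gg where
  toFun z :=
    { toFun := ad0 z
      map_add' := ad0_add z
      map_smul' := fun c ξ => by
        obtain ⟨L, hL⟩ := J.exists_conj z
        refine map_real_smul (AddMonoidHom.mk' (ad0 z) (ad0_add z))
          (AddMonoidHomClass.continuous_of_bound _ L fun ξ => ?_) c ξ
        obtain ⟨s, h⟩ := ξ.2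
        obtain ⟨ξ', h1, h2⟩ := hL s ξ h
        rwa [h1.unique (h.ad0 z)] at h2 }
  map_one' := LinearMap.ext fun ξ => by
    obtain ⟨s, h⟩ := ξ.2
    exact Subtype.ext ((h.ad0 1).unique (by simpa using h))
  map_mul' a b := LinearMap.ext fun ξ => by
    obtain ⟨s, h⟩ := ξ.2
    refine Subtype.ext ((h.ad0 (a * b)).unique ?_)
    have h1 := (h.ad0 b).ad0 a
    simp only [mul_inv_rev, ← mul_assoc] at h1 ⊢
    exact h1

theorem ad_small {x : G} (hx : x ∈ J.N (1 / 16)) (ξ : J.gg) :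
    ‖J.ad x ξ - ξ‖ ≤ ‖J.v x‖ * ‖ξ‖ := by
  obtain ⟨s, h⟩ := ξ.2
  refine le_of_tendsto_of_tendsto ((h.ad0 x).2.sub h.2).norm (h.norm.const_mul ‖J.v x‖)
    ((h.ev (ε := 1 / 16) (by norm_num)).mono fun k hk => ?_)
  have h1 := (conj_small hx hk).2
  simp only [← smul_sub, norm_r]
  nlinarith [mul_le_mul_of_nonneg_left h1 (by positivity : 0 ≤ (k : ℝ) + 1)]

theorem inf_central {z : G} (hz : J.ad z = 1) : ∀ κ > 0, ∃ η > 0, ∀ b ∈ J.N η,
    z * b * z⁻¹ * b⁻¹ ∈ J.N (κ * ‖J.v b‖) := by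
  intro κ hκ
  obtain ⟨L, hL, η, hη, h⟩ := J.lip z
  by_contra h1
  push Not at h1
  choose b hb h1 using fun k : ℕ => h1 (((k : ℝ) + 1)⁻¹ * ((k : ℝ) + 1)⁻¹) (by positivity)
  have hb0 : ∀ k, 0 < ‖J.v (b k)‖ := fun k => norm_pos_iff.2 fun h2 => h1 k (by
    rw [J.inj _ (hb k).1 h2]
    simpa using one_mem_N (by positivity))
  let m : ℕ → ℕ := fun k => ⌊((k : ℝ) + 1)⁻¹ / ‖J.v (b k)‖⌋₊
  have hm := fun k : ℕ => floor_mul (by positivity : 0 ≤ ((k : ℝ) + 1)⁻¹) (hb0 k)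
  obtain ⟨ξ, h2⟩ := exists_rel (J := J) (s := fun k => b k ^ m k) (R := 2)
    ((rinv_ev one_half_pos).mono fun k hk => by
      have h2 := pow_N (hb k).1 (hm k).1 hk
      refine ⟨h2.1, (mul_le_mul_of_nonneg_left h2.2 (by positivity)).trans (le_of_eq ?_)⟩
      field_simp)
  have h3 := Rel.ad0 (ξ := ⟨ξ, _, h2⟩) h2 z
  rw [show ad0 z ⟨ξ, _, h2⟩ = ⟨ξ, _, h2⟩ from LinearMap.congr_fun hz _] at h3
  have h4 := ((h3.2.sub h2.2).norm.add (rinv_UF.const_mul (L ^ 2 + 1)))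
  rw [sub_self, norm_zero, mul_zero, add_zero] at h4
  obtain ⟨k, h5, h6⟩ := ((h4.eventually (gt_mem_nhds (show 0 < κ / 4 by positivity))).and
    (rinv_ev (show 0 < min (min η (1 / 4)) (1 / 4 / L) by positivity))).exists
  have hr : (0 : ℝ) < k + 1 := by positivity
  have hr2 := mul_inv_cancel₀ hr.ne'
  obtain ⟨hm1, hm2⟩ := hm k
  have h7 := (hb k).2
  have h1 := h1 k
  have h0 := hb0 k
  simp only [← smul_sub, norm_r, ← conj_pow] at h5
  change (m k : ℝ) * _ ≤ _ at hm1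
  change _ ≤ (m k : ℝ) * _ at hm2
  set q := ((k : ℝ) + 1)⁻¹
  have hq : 0 < q := by positivity
  have hq1 : q ≤ η := h6.trans ((min_le_left _ _).trans (min_le_left _ _))
  have hq2 : q ≤ 1 / 4 := h6.trans ((min_le_left _ _).trans (min_le_right _ _))
  have hq3 : q * L ≤ 1 / 4 := (le_div_iff₀ hL).1 (h6.trans (min_le_right _ _))
  have h8 : ‖J.v (b k)‖ ≤ q := by nlinarith
  obtain ⟨h9, h10⟩ := h (b k) ⟨(hb k).1, h8.trans hq1⟩
  obtain ⟨h11, h12⟩ := dist_le (a := z * b k * z⁻¹) (b := b k) ⟨h9, by nlinarith⟩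
    ⟨(hb k).1, by linarith⟩
  have h13 : κ * ‖J.v (b k)‖ < 2 * ‖J.v (z * b k * z⁻¹) - J.v (b k)‖ :=
    (not_le.1 fun h13 => h1 ⟨h11, h13⟩).trans_le h12
  have hm0 : (0 : ℝ) ≤ m k := Nat.cast_nonneg _
  have h14 : m k * ‖J.v (z * b k * z⁻¹)‖ ≤ L * q := by
    nlinarith [mul_le_mul_of_nonneg_left h10 hm0, mul_le_mul_of_nonneg_left hm1 hL.le]
  have h15 := (pow_est (hb k).1 (m k) (by linarith)).2
  have h16 := (pow_est h9 (m k) (by linarith)).2
  have h17 : (m k * ‖J.v (b k)‖) ^ 2 ≤ q ^ 2 := by gcongr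
  have h18 : (m k * ‖J.v (z * b k * z⁻¹)‖) ^ 2 ≤ (L * q) ^ 2 := by gcongr
  have h19 : m k * ‖J.v (z * b k * z⁻¹) - J.v (b k)‖ ≤
      ‖J.v ((z * b k * z⁻¹) ^ m k) - J.v (b k ^ m k)‖ + ‖J.v (b k ^ m k) - (m k : ℝ) • J.v (b k)‖ +
      ‖J.v ((z * b k * z⁻¹) ^ m k) - (m k : ℝ) • J.v (z * b k * z⁻¹)‖ := by
    refine le_trans (le_of_eq ?_) ((norm_sub_le _ _).trans (add_le_add_left (norm_add_le _ _) _))
    rw [← Real.norm_of_nonneg hm0, ← norm_smul, Real.norm_of_nonneg hm0, smul_sub]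
    congr 1; abel
  have h20 : κ * (q / 2) ≤ 2 * (m k * ‖J.v (z * b k * z⁻¹) - J.v (b k)‖) := by
    have h20 : q / 2 ≤ m k * ‖J.v (b k)‖ := by nlinarith
    nlinarith [mul_le_mul_of_nonneg_left h13.le hm0, mul_le_mul_of_nonneg_left h20 hκ.le]
  set D := ‖J.v ((z * b k * z⁻¹) ^ m k) - J.v (b k ^ m k)‖
  have h21 : κ / 4 * q ≤ D + (L ^ 2 + 1) * q ^ 2 := by nlinarith [sq_nonneg q, sq_nonneg (L * q)]
  have h22 := mul_lt_mul_of_pos_right h5 hq
  have h23 : (((k : ℝ) + 1) * D + (L ^ 2 + 1) * q) * q = D + (L ^ 2 + 1) * q ^ 2 := by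
    linear_combination D * hr2
  linarith

variable (J) in
/-- the topology of small elements -/
@[reducible] def basis : GroupFilterBasis G where
  sets := range fun n : ℕ => J.N ((n : ℝ) + 1)⁻¹
  nonempty := range_nonempty _
  inter_sets := by
    rintro _ _ ⟨a, rfl⟩ ⟨b, rfl⟩
    refine ⟨_, ⟨max a b, rfl⟩, subset_inter (N_mono ?_) (N_mono ?_)⟩ <;> gcongr <;> simp
  one' := by
    rintro _ ⟨a, rfl⟩
    exact one_mem_N (by positivity)
  mul' := by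
    rintro _ ⟨a, rfl⟩
    have h1 : (((3 * a + 2 : ℕ) : ℝ) + 1)⁻¹ ≤ 1 :=
      inv_le_one_of_one_le₀ (le_add_of_nonneg_left (Nat.cast_nonneg _))
    refine ⟨_, ⟨3 * a + 2, rfl⟩, mul_subset_iff.2 fun x hx y hy =>
      N_mono (le_of_eq ?_) (mul_N hx hy h1 h1)⟩
    push_cast; field_simp; ring
  inv' := by
    rintro _ ⟨a, rfl⟩
    have h1 : (((2 * a + 1 : ℕ) : ℝ) + 1)⁻¹ ≤ 1 :=
      inv_le_one_of_one_le₀ (le_add_of_nonneg_left (Nat.cast_nonneg _))
    refine ⟨_, ⟨2 * a + 1, rfl⟩, fun x hx => N_mono (le_of_eq ?_) (inv_N hx h1)⟩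
    push_cast; field_simp; ring
  conj' := by
    rintro z _ ⟨a, rfl⟩
    obtain ⟨η, hη, h⟩ := J.conj z ((a : ℝ) + 1)⁻¹ (by positivity)
    obtain ⟨k, hk⟩ := (rinv_ev hη).exists
    exact ⟨_, ⟨k, rfl⟩, fun x hx => h x hx.1 (hx.2.trans hk)⟩

/-- **IG**, normalised form -/
theorem main [Group.FG G] (J : NG G E) {c0 δ : ℝ} (hc0 : 0 < c0) (hδ : 0 < δ)
    (hW : WO c0 (J.N δ)) : ∃ G0 : Subgroup G, G0.Normal ∧ G0 ≠ ⊥ ∧ VS G0 := by
  classical
  obtain ⟨e, he0, he, h⟩ := J.halve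
  let := J.basis.topology
  have := J.basis.isTopologicalGroup
  have hB : (𝓝 (1 : G)).HasBasis (fun _ : ℕ => True) fun n => J.N ((n : ℝ) + 1)⁻¹ :=
    J.basis.nhds_one_hasBasis.to_hasBasis (by rintro _ ⟨n, rfl⟩; exact ⟨n, trivial, subset_rfl⟩)
      fun n _ => ⟨_, ⟨n, rfl⟩, subset_rfl⟩
  have hN : ∀ ε > 0, J.N ε ∈ 𝓝 (1 : G) := fun ε hε => by
    obtain ⟨k, hk⟩ := (rinv_ev hε).exists
    exact mem_of_superset (hB.mem_of_mem (i := k) trivial) (N_mono hk)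
  have : (𝓝 (1 : G)).IsCountablyGenerated :=
    (HasCountableBasis.mk hB (Set.to_countable _)).isCountablyGenerated
  set G0 := Subgroup.closure (J.N e)
  have hgen : ∀ U ∈ 𝓝 (1 : G), G0 ≤ Subgroup.closure (U ∩ G0) := fun U hU => by
    obtain ⟨n, -, hn⟩ := hB.mem_iff.1 hU
    refine (gen h (η := min e ((n : ℝ) + 1)⁻¹) (by positivity)).trans (Subgroup.closure_mono ?_)
    exact fun x hx => ⟨hn (N_mono (min_le_right _ _) hx),
      Subgroup.subset_closure (N_mono (min_le_left _ _) hx)⟩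
  let b := Module.finBasis ℝ J.gg
  let ρ : G →* Matrix _ _ ℂ := (Complex.ofRealHom.mapMatrix.toMonoidHom.comp
    (LinearMap.toMatrixAlgEquiv b).toRingHom.toMonoidHom).comp J.ad
  have hρ : ∀ g i j, ρ g i j = (b.coord i (J.ad g (b j)) : ℝ) := fun g i j => by
    simp [ρ, LinearMap.toMatrixAlgEquiv_apply]
  have hv : Tendsto (fun g => ‖J.v g‖) (𝓝 1) (𝓝 0) :=
    tendsto_order.2 ⟨fun a ha => Eventually.of_forall fun _ => ha.trans_le (norm_nonneg _),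
      fun a ha => mem_of_superset (hN (a / 2) (by positivity)) fun x hx =>
        hx.2.trans_lt (half_lt_self ha)⟩
  have hc : Tendsto ρ (𝓝 1) (𝓝 1) := by
    refine tendsto_pi_nhds.2 fun i => tendsto_pi_nhds.2 fun j => ?_
    rw [← map_one ρ]
    simp only [hρ, map_one, Module.End.one_apply]
    refine (Complex.continuous_ofReal.tendsto _).comp
      (((b.coord i).continuous_of_finiteDimensional.tendsto _).comp ?_)
    have h1 := hv.mul_const ‖b j‖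
    rw [zero_mul] at h1
    exact tendsto_iff_norm_sub_tendsto_zero.2 (squeeze_zero' (Eventually.of_forall fun _ =>
      norm_nonneg _) (mem_of_superset (hN _ (by norm_num)) fun x hx => ad_small hx _) h1)
  obtain ⟨K, hK, n, h1⟩ := vsr_of_small ρ hgen hc hc0 (hN δ hδ) hW
  refine ⟨G0, ⟨fun x hx g => ?_⟩, fun h2 => ?_, K, hK, n + 1, ?_⟩
  · have h2 : (fun x => g * x * g⁻¹) ⁻¹' J.N e ∈ 𝓝 (1 : G) :=
      ((continuous_const.mul continuous_id).mul continuous_const).continuousAt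
        (by simpa using hN e he0)
    have h3 : Subgroup.closure ((fun x => g * x * g⁻¹) ⁻¹' J.N e ∩ G0) ≤
        G0.comap (MulAut.conj g).toMonoidHom :=
      (Subgroup.closure_le _).2 fun y hy => Subgroup.subset_closure hy.1
    exact h3 (hgen _ h2 hx)
  · obtain ⟨g, hg, h3, h4⟩ := J.nd e he0
    exact h3 (Subgroup.mem_bot.1 (h2 ▸ Subgroup.subset_closure ⟨hg, h4⟩))
  · refine Subgroup.commutator_le.2 fun x hx y hy => Subgroup.mem_bot.2 ?_
    rw [commutatorElement_eq_one_iff_mul_comm]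
    refine cent he h he0 (inf_central ?_) y (hK.le (dser_le _ _ hy))
    refine (LinearMap.toMatrixAlgEquiv b).injective (Matrix.ext fun i j =>
      Complex.ofReal_injective ?_)
    have h2 : ρ x i j = ρ 1 i j := by rw [h1 x hx, map_one]
    rw [hρ, hρ, map_one] at h2
    simpa [LinearMap.toMatrixAlgEquiv_apply] using h2

end NG

variable [Group.FG G]

/-- **IG**: infinitesimal data with weak overlap on small elements give a nontrivial virtually
solvable normal subgroup -/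
theorem ig_main (I : Loc.IG G E) {c0 δ : ℝ} (hc0 : 0 < c0) (hδ : 0 < δ)
    (hW : WO c0 {g | g ∈ I.S ∧ ‖I.v g‖ < δ}) :
    ∃ G0 : Subgroup G, G0.Normal ∧ G0 ≠ ⊥ ∧ VS G0 := by
  obtain ⟨J, μ, hμ, h1, h2⟩ := exists_ng I
  refine J.main hc0 (δ := δ / μ / 2) (by positivity) (hW.mono fun g hg => ⟨h1 ▸ hg.1, ?_⟩)
  rw [h2]
  calc μ * ‖J.v g‖ ≤ μ * (δ / μ / 2) := by gcongr; exact hg.2
    _ = δ / 2 := by field_simp
    _ < δ := half_lt_self hδ

omit [Group.FG G] in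
/-- **IG**, case A: the group is amenable -/
theorem JN.amen_of_ig (hG : JN G) (I : Loc.IG G E) {c0 δ : ℝ} (hc0 : 0 < c0) (hδ : 0 < δ)
    (hW : WO c0 {g | g ∈ I.S ∧ ‖I.v g‖ < δ}) : Amen G := by
  have := hG.fg
  obtain ⟨G0, h1, h2, h3⟩ := ig_main I hc0 hδ hW
  by_contra h
  exact h2 (hG.eq_bot_of_amen h h1 h3.amen)

omit [Group.FG G] in
/-- in a just non VA group with a nontrivial VS normal subgroup every infinite finitely generated
subgroup is virtually indicable -/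
theorem JN.vind_of_vs (hG : JN G) {G0 : Subgroup G} (h1 : G0.Normal) (h2 : G0 ≠ ⊥)
    (h3 : VS G0) {K : Subgroup G} (hK : K.FG) [Infinite K] : VInd K := by
  obtain ⟨H, hH, h4⟩ := hG.quot G0 h1 h2
  have h5 : FI (H ⊓ K) K := (FI.of_finiteIndex H).inf_right le_top
  by_cases h6 : FI ⁅H ⊓ K, H ⊓ K⁆ (H ⊓ K)
  · have h7 : ⁅H ⊓ K, H ⊓ K⁆ ≤ G0 := Subgroup.commutator_le.2 fun a ha b hb => h4 a ha.1 b hb.1
    exact ((h3.mono h7).of_fi (h6.trans h5)).vind hK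
  · exact (vind_of_not_fi (h5.fg hK) h6).of_fi h5

omit [Group.FG G] in
/-- **IG**, case B -/
theorem JN.vind_of_ig (hG : JN G) (I : Loc.IG G E) {c0 δ : ℝ} (hc0 : 0 < c0) (hδ : 0 < δ)
    (hW : WO c0 {g | g ∈ I.S ∧ ‖I.v g‖ < δ}) {K : Subgroup G} (hK : K.FG) [Infinite K] :
    VInd K := by
  have := hG.fg
  obtain ⟨G0, h1, h2, h3⟩ := ig_main I hc0 hδ hW
  exact hG.vind_of_vs h1 h2 h3 hK

omit [Group.FG G] in
/-- **IG**, case B for an amenable group: no overlap hypothesis is needed -/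
theorem JN.vind_of_ig_amen (hG : JN G) (hA : Amen G) (I : Loc.IG G E) {K : Subgroup G}
    (hK : K.FG) [Infinite K] : VInd K :=
  hG.vind_of_ig I one_pos one_pos ((wo_of_amen (amen_top_iff.2 hA)).mono fun _ _ => trivial) hK

end Crest.Agent.X261.Grp
end
end

-- ▼ part X261/Grp/WR

/-!
# Row 261, package GRP (helper39): weak overlap implies amenability (Kesten)

* `amen_of_wo : 0 < c0 → WO c0 N → Amen N`.
-/

set_option autoImplicit false

noncomputable section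

namespace Crest.Agent.X261.Grp

namespace WR

open Crest.Agent.R189
open scoped Pointwise RealInnerProductSpace

section abs

variable {G V : Type*} [Group G] [NormedAddCommGroup V] [InnerProductSpace ℝ V]
  (π : G →* V →ₗ[ℝ] V) (S : Finset G)

/-- the lazy averaging operator -/
def avg : V →ₗ[ℝ] V := (2 * S.card : ℝ)⁻¹ • ∑ s ∈ S, (π s + 1)

theorem avg_apply (v : V) : avg π S v = (2 * S.card : ℝ)⁻¹ • ∑ s ∈ S, (π s v + v) := by
  simp [avg, LinearMap.sum_apply]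

variable {π S}

theorem le_inner_avg [DecidableEq G] (hS : S.Nonempty) {ξ : V} {c : ℝ} (j : ℕ) :
    ∀ i : ℕ, (∀ g ∈ insert 1 S ^ (i + j), c ≤ ⟪π g ξ, ξ⟫) →
      ∀ g ∈ insert 1 S ^ i, c ≤ ⟪π g ((avg π S ^ j) ξ), ξ⟫ := by
  induction j with
  | zero => exact fun i h => by simpa using h
  | succ j ih =>
    intro i h g hg
    have h1 := ih (i + 1) (by rwa [add_right_comm, add_assoc])
    have hm : (0 : ℝ) < 2 * S.card := by have := hS.card_pos; positivity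
    rw [pow_succ', Module.End.mul_apply, avg_apply, map_smul, map_sum, real_inner_smul_left,
      sum_inner, le_inv_mul_iff₀ hm, mul_comm (2 : ℝ), mul_assoc, ← nsmul_eq_mul]
    refine Finset.card_nsmul_le_sum _ _ _ fun s hs => ?_
    rw [map_add, inner_add_left, ← Module.End.mul_apply, ← map_mul, two_mul]
    refine add_le_add (h1 _ ?_) (mul_one g ▸ h1 _ ?_)
    · exact pow_succ (insert 1 S) i ▸ Finset.mul_mem_mul hg (Finset.mem_insert_of_mem hs)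
    · exact pow_succ (insert 1 S) i ▸ Finset.mul_mem_mul hg (Finset.mem_insert_self _ _)

theorem exists_lt_avg {T : V →ₗ[ℝ] V} {ξ : V} (h1 : ‖ξ‖ = 1) {θ : ℝ} (h0 : 0 ≤ θ) {k : ℕ}
    (h : θ ^ k < ⟪(T ^ k) ξ, ξ⟫) : ∃ η, θ * ‖η‖ < ‖T η‖ := by
  by_contra h2
  push Not at h2
  have h3 : ∀ j, ‖(T ^ j) ξ‖ ≤ θ ^ j := by
    intro j
    induction j with
    | zero => simp [h1]
    | succ j ih =>
      rw [pow_succ', Module.End.mul_apply, pow_succ']
      exact (h2 _).trans (mul_le_mul_of_nonneg_left ih h0)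
  have h4 := real_inner_le_norm ((T ^ k) ξ) ξ
  rw [h1, mul_one] at h4
  exact absurd (h.trans_le (h4.trans (h3 k))) (lt_irrefl _)

theorem norm_sub_lt (hπ : ∀ g v, ‖π g v‖ = ‖v‖) {η : V} {δ : ℝ} (hδ : δ ≤ 2) {s : G} (hs : s ∈ S)
    (h : (1 - δ / (2 * S.card)) * ‖η‖ < ‖avg π S η‖) : ‖π s η - η‖ ^ 2 ≤ 4 * δ * ‖η‖ ^ 2 := by
  have hm : (0 : ℝ) < 2 * S.card := by have := Finset.card_pos.2 ⟨s, hs⟩; positivity
  rw [avg_apply, norm_smul, Real.norm_of_nonneg (inv_pos.2 hm).le, lt_inv_mul_iff₀ hm] at h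
  have h1 := Finset.single_le_sum (f := fun t => 2 * ‖η‖ - ‖π t η + η‖)
    (fun t _ => by have := norm_add_le (π t η) η; rw [hπ] at this; linarith) hs
  rw [Finset.sum_sub_distrib, Finset.sum_const, nsmul_eq_mul] at h1
  have h2 := norm_sum_le S fun t => π t η + η
  have h3 : 2 * S.card * ((1 - δ / (2 * S.card)) * ‖η‖) = S.card * (2 * ‖η‖) - δ * ‖η‖ := by
    rw [← mul_assoc, mul_sub, mul_div_cancel₀ _ hm.ne']
    ring
  have h4 : (2 - δ) * ‖η‖ ≤ ‖π s η + η‖ := by linarith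
  have h5 := parallelogram_law_with_norm ℝ (π s η) η
  rw [hπ] at h5
  have h6 := pow_le_pow_left₀ (mul_nonneg (sub_nonneg.2 hδ) (norm_nonneg η)) h4 2
  nlinarith [sq_nonneg (δ * ‖η‖)]

/-- almost invariant vectors -/
theorem exists_almost (hπ : ∀ g v, ‖π g v‖ = ‖v‖) {K : Subgroup G} {c : ℝ} (hc : 0 < c)
    (h : ∀ F : Finset G, (∀ g ∈ F, g ∈ K) → ∃ ξ : V, ‖ξ‖ = 1 ∧ ∀ g ∈ F, c ≤ ⟪π g ξ, ξ⟫)
    (hS : ∀ s ∈ S, s ∈ K) {δ : ℝ} (h0 : 0 < δ) (hδ : δ ≤ 2) :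
    ∃ η : V, ‖η‖ = 1 ∧ ∀ s ∈ S, ‖π s η - η‖ ^ 2 ≤ 4 * δ := by
  classical
  rcases S.eq_empty_or_nonempty with rfl | hne
  · obtain ⟨ξ, h1, -⟩ := h ∅ (by simp)
    exact ⟨ξ, h1, by simp⟩
  have hm : (1 : ℝ) ≤ S.card := by exact_mod_cast hne.card_pos
  have h1 : 0 ≤ 1 - δ / (2 * S.card) := by
    rw [sub_nonneg, div_le_one (by positivity)]
    linarith
  have h2 : 1 - δ / (2 * S.card) < 1 := sub_lt_self _ (by positivity)
  obtain ⟨k, hk⟩ := exists_pow_lt_of_lt_one hc h2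
  have h3 : ∀ j, ∀ g ∈ insert 1 S ^ j, g ∈ K := by
    intro j
    induction j with
    | zero => simp
    | succ j ih =>
      intro g hg
      obtain ⟨a, ha, b, hb, rfl⟩ := Finset.mem_mul.1 (pow_succ (insert 1 S) j ▸ hg)
      refine mul_mem (ih a ha) ?_
      rcases Finset.mem_insert.1 hb with rfl | hb
      exacts [one_mem _, hS b hb]
  obtain ⟨ξ, h4, h5⟩ := h _ (h3 (0 + k))
  have h6 := le_inner_avg hne k 0 h5 1 (by simp)
  rw [map_one, Module.End.one_apply] at h6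
  obtain ⟨η, h7⟩ := exists_lt_avg h4 h1 (hk.trans_le h6)
  have h8 : 0 < ‖η‖ := norm_pos_iff.2 (by rintro rfl; simp at h7)
  refine ⟨‖η‖⁻¹ • η, norm_smul_inv_norm (𝕜 := ℝ) (norm_pos_iff.1 h8), fun s hs => ?_⟩
  rw [map_smul, ← smul_sub, norm_smul, mul_pow, norm_inv, norm_norm, inv_pow,
    inv_mul_le_iff₀ (by positivity), mul_comm]
  exact norm_sub_lt hπ hδ hs h7

end abs

/-- finitely supported functions with the `ℓ²` norm -/
def L2 (G : Type*) : Type _ := G →₀ ℝ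

variable {G : Type*}

instance : AddCommGroup (L2 G) := inferInstanceAs (AddCommGroup (G →₀ ℝ))

instance : Module ℝ (L2 G) := inferInstanceAs (Module ℝ (G →₀ ℝ))

/-- the scalar product -/
def ip (p q : G →₀ ℝ) : ℝ := p.sum fun s a => a * q s

theorem ip_eq {p : G →₀ ℝ} (q : G →₀ ℝ) {F : Finset G} (h : p.support ⊆ F) :
    ip p q = ∑ s ∈ F, p s * q s :=
  Finsupp.sum_of_support_subset p h _ fun _ _ => zero_mul _

theorem ip_comm (p q : G →₀ ℝ) : ip p q = ip q p := by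
  classical
  rw [ip_eq q (Finset.subset_union_left (s₂ := q.support)),
    ip_eq p (Finset.subset_union_right (s₁ := p.support))]
  simp only [mul_comm]

theorem ip_smul (r : ℝ) (p q : G →₀ ℝ) : ip (r • p) q = r * ip p q := by
  rw [ip_eq q Finsupp.support_smul, ip_eq q subset_rfl, Finset.mul_sum]
  simp only [Finsupp.smul_apply, smul_eq_mul, mul_assoc]

theorem ip_definite (p : G →₀ ℝ) (h : ip p p = 0) : p = 0 := by
  refine Finsupp.ext fun s => ?_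
  by_contra h1
  exact h1 (mul_self_eq_zero.1 ((Finset.sum_eq_zero_iff_of_nonneg
    fun _ _ => mul_self_nonneg _).1 h s (Finsupp.mem_support_iff.2 h1)))

/-- the scalar product as a structure -/
@[reducible] def core (G : Type*) : InnerProductSpace.Core ℝ (L2 G) where
  inner := ip
  conj_inner_symm p q := ip_comm q p
  re_inner_nonneg _ := Finset.sum_nonneg fun _ _ => mul_self_nonneg _
  add_left _ _ _ := Finsupp.sum_add_index' (fun _ => zero_mul _) fun _ _ _ => add_mul _ _ _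
  smul_left p q r := ip_smul r p q
  definite := ip_definite

instance : NormedAddCommGroup (L2 G) :=
  @InnerProductSpace.Core.toNormedAddCommGroup ℝ _ _ _ _ (core G)

instance : InnerProductSpace ℝ (L2 G) := InnerProductSpace.ofCore (core G).toCore

/-- the identity -/
def toL : (G →₀ ℝ) ≃ₗ[ℝ] L2 G := LinearEquiv.refl ℝ (G →₀ ℝ)

theorem inner_toL (p q : G →₀ ℝ) : ⟪toL p, toL q⟫ = ip p q := rfl

theorem norm_toL {p q : G →₀ ℝ} (h : ip p p = ip q q) : ‖toL p‖ = ‖toL q‖ := by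
  rw [← sq_eq_sq₀ (norm_nonneg _) (norm_nonneg _), ← real_inner_self_eq_norm_sq,
    ← real_inner_self_eq_norm_sq, inner_toL, inner_toL, h]

theorem norm_toL_one {p : G →₀ ℝ} : ‖toL p‖ = 1 ↔ ip p p = 1 := by
  rw [← inner_toL, real_inner_self_eq_norm_sq, ← sq_eq_sq₀ (norm_nonneg _) zero_le_one, one_pow]

variable [Group G]

theorem tr_apply (g : G) (p : G →₀ ℝ) (s : G) : p.mapDomain (fun x => g * x) s = p (g⁻¹ * s) := by
  conv_lhs => rw [← mul_inv_cancel_left g s]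
  exact Finsupp.mapDomain_apply (mul_right_injective g) p _

/-- the regular representation -/
def reg₀ (G : Type*) [Group G] : G →* (G →₀ ℝ) →ₗ[ℝ] (G →₀ ℝ) where
  toFun g := Finsupp.lmapDomain ℝ ℝ fun x => g * x
  map_one' := LinearMap.ext fun p => Finsupp.ext fun s => (tr_apply 1 p s).trans (by simp)
  map_mul' g h := LinearMap.ext fun p => Finsupp.ext fun s => (tr_apply _ p s).trans
    ((tr_apply g _ s).trans ((tr_apply h p _).trans (by rw [mul_inv_rev, mul_assoc]))).symm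

/-- the regular representation -/
def reg (G : Type*) [Group G] : G →* L2 G →ₗ[ℝ] L2 G := reg₀ G

theorem reg_toL (g : G) (p : G →₀ ℝ) : reg G g (toL p) = toL (p.mapDomain fun x => g * x) := rfl

theorem norm_reg (g : G) (p : L2 G) : ‖reg G g p‖ = ‖p‖ := by
  obtain ⟨p, rfl⟩ := toL.surjective p
  rw [reg_toL]
  refine norm_toL ((Finsupp.sum_mapDomain_index_inj (mul_right_injective g)).trans
    (Finset.sum_congr rfl fun s _ => ?_))
  simp only [tr_apply, inv_mul_cancel_left]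

theorem overlap {p : G →₀ ℝ} (hp : IsProb p) :
    ∃ ξ : L2 G, ‖ξ‖ = 1 ∧ ∀ g, 1 - l1 (p.mapDomain (fun x => g * x) - p) / 2 ≤ ⟪reg G g ξ, ξ⟫ := by
  classical
  refine ⟨toL (p.mapRange Real.sqrt Real.sqrt_zero), ?_, fun g => ?_⟩
  · rw [norm_toL_one, ip_eq _ Finsupp.support_mapRange, ← hp.mass]
    exact Finset.sum_congr rfl fun s _ => Real.mul_self_sqrt (hp.nonneg s)
  · set q := p.mapDomain fun x => g * x with hq
    have h1 : IsProb q := hp.map _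
    have h2 := (mass_eq (Finset.subset_union_left (s₂ := p.support))).symm.trans h1.mass
    have h3 := (mass_eq (Finset.subset_union_right (s₁ := q.support))).symm.trans hp.mass
    have h9 : (1 : ℝ) = (∑ s ∈ q.support ∪ p.support, (q s + p s)) / 2 := by
      rw [Finset.sum_add_distrib, h2, h3]
      norm_num
    rw [real_inner_comm, reg_toL, inner_toL,
      ip_eq _ (Finsupp.support_mapRange.trans (Finset.subset_union_right (s₁ := q.support))),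
      l1_eq Finsupp.support_sub, h9, ← sub_div, ← Finset.sum_sub_distrib, Finset.sum_div]
    refine Finset.sum_le_sum fun s _ => ?_
    have h4 : p (g⁻¹ * s) = q s := (tr_apply g p s).symm
    rw [tr_apply g (p.mapRange _ _), Finsupp.mapRange_apply, Finsupp.mapRange_apply,
      Finsupp.sub_apply, h4]
    have h5 := Real.mul_self_sqrt (hp.nonneg s)
    have h6 := Real.mul_self_sqrt (h1.nonneg s)
    have h7 := Real.sqrt_nonneg (p s)
    have h8 := Real.sqrt_nonneg (q s)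
    rcases le_total (p s) (q s) with h | h
    · rw [abs_of_nonneg (sub_nonneg.2 h)]
      nlinarith [Real.sqrt_le_sqrt h]
    · rw [abs_of_nonpos (sub_nonpos.2 h)]
      nlinarith [Real.sqrt_le_sqrt h]

theorem sq_prob {η : L2 G} (h : ‖η‖ = 1) : ∃ p, IsProb p ∧
    ∀ g, l1 (p.mapDomain (fun x => g * x) - p) ≤ 2 * ‖reg G g η - η‖ := by
  classical
  obtain ⟨η, rfl⟩ := toL.surjective η
  refine ⟨η.mapRange (fun a => a * a) (mul_zero 0), ⟨fun s => mul_self_nonneg _, ?_⟩,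
    fun g => ?_⟩
  · rw [mass_eq Finsupp.support_mapRange, ← norm_toL_one.1 h]
    rfl
  · set a : G →₀ ℝ := η.mapDomain (fun x => g * x) - η with ha
    set b : G →₀ ℝ := η.mapDomain (fun x => g * x) + η with hb
    have h1 : ∀ s, ((η.mapRange (fun a => a * a) (mul_zero 0)).mapDomain (fun x => g * x) -
        η.mapRange (fun a => a * a) (mul_zero 0) : G →₀ ℝ) s = a s * b s := by
      intro s
      simp only [ha, hb, Finsupp.sub_apply, Finsupp.add_apply, tr_apply, Finsupp.mapRange_apply]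
      ring
    have h2 : ∀ c : G →₀ ℝ, ‖toL (c.mapRange abs abs_zero)‖ = ‖toL c‖ := fun c => norm_toL (by
      rw [ip_eq _ Finsupp.support_mapRange, ip_eq _ subset_rfl]
      exact Finset.sum_congr rfl fun s _ => abs_mul_abs_self _)
    have h3 := real_inner_le_norm (toL (a.mapRange abs abs_zero)) (toL (b.mapRange abs abs_zero))
    rw [h2, h2, inner_toL, ip_eq _ Finsupp.support_mapRange] at h3
    have h4 : ‖toL b‖ ≤ 2 := by
      rw [hb, map_add, ← reg_toL]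
      exact (norm_add_le _ _).trans (by rw [norm_reg, h]; norm_num)
    rw [l1_eq (F := a.support) fun s hs => Finsupp.mem_support_iff.2
      (left_ne_zero_of_mul (h1 s ▸ Finsupp.mem_support_iff.1 hs)), mul_comm, reg_toL, ← map_sub]
    refine le_trans (le_of_eq (Finset.sum_congr rfl fun s _ => ?_))
      (h3.trans (mul_le_mul_of_nonneg_left h4 (norm_nonneg _)))
    rw [h1, abs_mul]
    rfl

end WR

open Crest.Agent.R189 WR

/-- **weak overlap implies amenability** -/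
theorem amen_of_wo {G : Type*} [Group G] {K : Subgroup G} {c0 : ℝ} (hc : 0 < c0)
    (h : WO c0 (K : Set G)) : Amen K := by
  classical
  refine amen_of_rt K fun F ε hε => ?_
  obtain ⟨η, h1, h2⟩ := exists_almost (π := reg G) (S := F.image Subtype.val) norm_reg (K := K)
    (half_pos hc) (fun F' hF => by
      obtain ⟨p, hp, h3⟩ := h F' hF
      obtain ⟨ξ, h4, h5⟩ := overlap hp
      exact ⟨ξ, h4, fun g hg => le_trans (by linarith [h3 g hg]) (h5 g)⟩)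
    (fun s hs => by obtain ⟨a, -, rfl⟩ := Finset.mem_image.1 hs; exact a.2)
    (δ := min 2 ((ε / 8) ^ 2)) (by positivity) (min_le_left _ _)
  obtain ⟨p, hp, h3⟩ := sq_prob h1
  refine ⟨p, hp, fun g hg => (h3 g).trans_lt ?_⟩
  have h4 := (h2 g (Finset.mem_image_of_mem _ hg)).trans
    (mul_le_mul_of_nonneg_left (min_le_right _ _) (by norm_num))
  have h5 : ‖reg G g η - η‖ ≤ ε / 4 := (pow_le_pow_iff_left₀ (norm_nonneg _) (by positivity)
    two_ne_zero).1 (h4.trans_eq (by ring))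
  linarith

end Crest.Agent.X261.Grp
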